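import Crest.Agent.R314.EmbUpd

/-!
# Row 314, part II: dragging of parked servers (D4 in `notes314/II.md`)

* `drag_pi`: `Wm_lip`; the names of the kings are distinct (`nam_inj`, `nm_inj`).
* `drag_upd`: surviving kings keep place and name; the new king costs `≤ 2·10^6 Λ/40` (`Wm_le_V`, `V_le`); at a swap the
  king `u` releases `≥ min (400 π) (3800 inner')` (`Wm_end`) and `π ≤ 6 μ ≤ 6.06 (inner' + nf)`.
* `drag_move`: `gen_W` if not heavy (at most one king in range); `post_heavy`, `sens_W` if heavy.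
* `d4_step`: `q j = 4 π (x :: h) j (l j)` on heavy scales, `A = 24`: `∑ a ≤ j, π ≤ 6 Mb M'' x (360 r j)
  ≤ 6 (Mb M' x (r (j+2)) + 1)`; after a swap the name of `u` has centre `x` (`ctr_nam`).
-/

set_option autoImplicit false
set_option linter.unusedSectionVars false
set_option linter.unusedVariables false

namespace Crest.Agent.R314

open Finset Function
open scoped Classical

variable {X : Type*} [MetricSpace X] [Fintype X]

namespace Ctx

noncomputable def Dg (c : Ctx X) (j : ℕ) (h : List X) (π : c.Lab → ℝ) (M : X → ℝ) : ℝ :=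
  2 * 10 ^ 6 * ∑ u ∈ (c.S j h).K, Wm (c.r j) ((c.S j h).loc u) (π (c.nam ((c.S j h).nm u)) / 1000) M

variable {c : Ctx X} {j : ℕ} {x : X} {h : List X} {M' ν : X → ℝ}

/-! ### part a -/

theorem Dg_concave (c : Ctx X) (j : ℕ) (h : List X) (π : c.Lab → ℝ) : ConcaveOn ℝ (Set.Ici 0) (c.Dg j h π) := by
  refine ⟨convex_Ici 0, fun M hM N hN α β hα hβ hαβ => ?_⟩
  simp only [Dg, smul_eq_mul]
  rw [mul_left_comm α, mul_left_comm β, ← mul_add, mul_sum, mul_sum, ← sum_add_distrib]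
  exact mul_le_mul_of_nonneg_left (sum_le_sum fun u _ => (Wm_concave _ _ _).2 hM hN hα hβ hαβ) (by norm_num)

theorem Dg_nonneg {π : c.Lab → ℝ} (hπ : ∀ l, 0 ≤ π l) (hM : ∀ y, 0 ≤ M' y) : 0 ≤ c.Dg j h π M' := by
  exact mul_nonneg (by norm_num) (sum_nonneg fun u _ => Wm_nonneg hM (div_nonneg (hπ _) (by norm_num)))

theorem Dg_nil (π : c.Lab → ℝ) : c.Dg j [] π M' = 0 := by
  simp [Dg, S]

theorem drag_pi (hc : c.Ok) (hT : h.length ≤ c.T) (π π' : c.Lab → ℝ) :
    c.Dg j h π' M' ≤ c.Dg j h π M' + 2000 * ∑ l, |π' l - π l| := by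
  have hI := inv hc j h
  have h1 : ∑ u ∈ (c.S j h).K, |π' (c.nam ((c.S j h).nm u)) - π (c.nam ((c.S j h).nm u))| ≤ ∑ l, |π' l - π l| := by
    rw [← sum_image (g := fun u => c.nam ((c.S j h).nm u)) (f := fun l => |π' l - π l|) fun u hu v hv he => by
      have a := hI.nm_lt u (hI.KC hu)
      have b := hI.nm_lt v (hI.KC hv)
      exact hI.nm_inj (hI.KC hu) (hI.KC hv) (nam_inj (by omega) (by omega) he)]
    exact sum_le_sum_of_subset_of_nonneg (subset_univ _) fun _ _ _ => abs_nonneg _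
  have h2 : ∑ u ∈ (c.S j h).K, Wm (c.r j) ((c.S j h).loc u) (π' (c.nam ((c.S j h).nm u)) / 1000) M' ≤
      ∑ u ∈ (c.S j h).K, Wm (c.r j) ((c.S j h).loc u) (π (c.nam ((c.S j h).nm u)) / 1000) M' +
        1 / 1000 * ∑ u ∈ (c.S j h).K, |π' (c.nam ((c.S j h).nm u)) - π (c.nam ((c.S j h).nm u))| := by
    rw [mul_sum, ← sum_add_distrib]
    refine sum_le_sum fun u _ => (Wm_lip _ _ (π (c.nam ((c.S j h).nm u)) / 1000) _ _).trans ?_
    refine add_le_add le_rfl (max_le ?_ (by positivity))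
    linarith [le_abs_self (π' (c.nam ((c.S j h).nm u)) - π (c.nam ((c.S j h).nm u)))]
  unfold Dg
  linarith

theorem drag_upd (hc : c.Ok) (hj : j < c.J) (hT : h.length < c.T) (hm : Mv c.k M' ν (c.M (x :: h)) x)
    {π : c.Lab → ℝ} (hπ : ∀ l, 0 ≤ π l)
    (h6 : ∀ u ∈ (c.S j h).Sw (c.r j) (c.e j x h),
      π (c.nam ((c.S j h).nm u)) ≤ 6 * Mb (c.M (x :: h)) x (320 * c.r j)) :
    c.r j * c.Dg j (x :: h) π M' + ∑ l, c.dr j x h l * π l ≤
      c.r j * (c.Dg j h π M' + 2000 * nf ν x (c.r j) + 50000 * c.xtr j x h M') := by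
  have hr := r_pos hc j
  have hI := inv hc j h
  have hM := hm.old_nonneg
  obtain ⟨hnf, -⟩ := nf_bd hm hr le_rfl
  have hS : c.S j (x :: h) = (c.S j h).upd (c.r j) (c.e j x h) := rfl
  have hsurv : ∀ u ∈ (c.S j h).K, u ∉ (c.S j h).Sw (c.r j) (c.e j x h) →
      Wm (c.r j) ((c.S j (x :: h)).loc u) (π (c.nam ((c.S j (x :: h)).nm u)) / 1000) M' =
        Wm (c.r j) ((c.S j h).loc u) (π (c.nam ((c.S j h).nm u)) / 1000) M' := by
    intro u hu hu'
    have hut : u ≠ (c.e j x h).t := (hI.lt u (hI.KC hu)).ne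
    have e1 : (c.S j (x :: h)).nm u = (c.S j h).nm u := (if_neg hut).trans (if_neg hu')
    rw [e1, hS, Sc.edb_loc hut]
  have hW0 : ∀ u, 0 ≤ Wm (c.r j) ((c.S j h).loc u) (π (c.nam ((c.S j h).nm u)) / 1000) M' := fun u =>
    Wm_nonneg hM (div_nonneg (hπ _) (by norm_num))
  have hdr0 : (c.S j h).Sw (c.r j) (c.e j x h) = ∅ → ∑ l, c.dr j x h l * π l = 0 := fun h0 =>
    sum_eq_zero fun l _ => by simp [dr, h0]
  by_cases hK : (c.S j h).isK (c.r j) (c.e j x h)
  · have hx : c.xtr j x h M' = Ma M' x (16 * c.r j) (410560 * c.r j) := if_pos ⟨hj, hK⟩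
    have hK' : (c.S j (x :: h)).K = insert (c.e j x h).t ((c.S j h).K \ (c.S j h).Dth (c.r j) (c.e j x h)) :=
      if_pos hK
    have hnew : Wm (c.r j) ((c.S j (x :: h)).loc (c.e j x h).t)
        (π (c.nam ((c.S j (x :: h)).nm (c.e j x h).t)) / 1000) M' ≤ 1 / 40 * c.xtr j x h M' := by
      rw [hS, Sc.edb_loc_t, hx]
      refine (Wm_le_V _ _ _ _).trans ((V_le hr hM).trans ?_)
      refine mul_le_mul_of_nonneg_left (sum_le_sum fun y _ => ?_) (by norm_num)
      change (if 16 * c.r j ≤ dist y x ∧ dist y x ≤ 323 * c.r j then M' y else 0) ≤ _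
      by_cases h1 : 16 * c.r j ≤ dist y x ∧ dist y x ≤ 323 * c.r j
      · rw [if_pos h1, if_pos ⟨h1.1, by linarith [h1.2]⟩]
      · rw [if_neg h1]
        split_ifs
        · exact hM y
        · exact le_rfl
    have hsub : (c.S j h).Dth (c.r j) (c.e j x h) ⊆ (c.S j h).K := filter_subset _ _
    have hrel : ∑ l, c.dr j x h l * π l ≤ c.r j * (2 * 10 ^ 6 * ∑ u ∈ (c.S j h).Dth (c.r j) (c.e j x h),
        Wm (c.r j) ((c.S j h).loc u) (π (c.nam ((c.S j h).nm u)) / 1000) M' + 2000 * nf ν x (c.r j)) := by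
      rcases ((c.S j h).Sw (c.r j) (c.e j x h)).eq_empty_or_nonempty with h0 | ⟨u, hu⟩
      · rw [hdr0 h0]
        have := sum_nonneg fun u (_ : u ∈ (c.S j h).Dth (c.r j) (c.e j x h)) => hW0 u
        positivity
      · have e1 : ∑ l, c.dr j x h l * π l = c.r j * (321 * π (c.nam ((c.S j h).nm u))) := by
          simp only [dr, Sc.Sw_eq hr hI hu, mem_singleton, exists_eq_left, ite_mul, zero_mul, sum_ite_eq',
            mem_univ, if_true]
          ring
        rw [e1]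
        refine mul_le_mul_of_nonneg_left ?_ hr.le
        have a1 := single_le_sum (fun u (_ : u ∈ (c.S j h).Dth (c.r j) (c.e j x h)) => hW0 u) (Sc.Sw_sub hr hu)
        obtain ⟨huK, -, h321⟩ := Sc.edb_mem_Sw.1 hu
        have h40 : 40 * c.r j < dist ((c.S j h).loc u) x := not_le.1 fun h' => hK.2 ⟨u, huK, h'⟩
        have a2 := Wm_end (a := π (c.nam ((c.S j h).nm u)) / 1000) hr hM (div_nonneg (hπ _) (by norm_num)) h40 h321
        have a3 := h6 u hu
        have a4 : Mb (c.M (x :: h)) x (320 * c.r j) ≤ Mb (c.M (x :: h)) x (4096 ^ 2 * c.r j) :=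
          Mb_mono hm.new_nonneg x (by linarith)
        have a5 : Mb (c.M (x :: h)) x (4096 ^ 2 * c.r j) ≤ 101 / 100 * Mb (c.M (x :: h)) x (c.r j) := hK.1
        have a6 := hm.Mb_new hr.le
        have a7 : 0 ≤ Mb M' x (c.r j) := sum_nonneg fun y _ => by split_ifs <;> simp [hM]
        have a8 := hπ (c.nam ((c.S j h).nm u))
        rcases min_le_iff.1 a2 with a9 | a9
        · linarith
        · linarith [a4.trans a5]
    have hsplit := sum_sdiff (f := fun u => Wm (c.r j) ((c.S j h).loc u) (π (c.nam ((c.S j h).nm u)) / 1000) M') hsub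
    unfold Dg
    have hnot : (c.e j x h).t ∉ (c.S j h).K \ (c.S j h).Dth (c.r j) (c.e j x h) := fun h' =>
      (hI.lt _ (hI.KC (mem_sdiff.1 h').1)).ne rfl
    rw [hK', sum_insert hnot,
      sum_congr rfl fun u hu => hsurv u (mem_sdiff.1 hu).1 fun h' => (mem_sdiff.1 hu).2 (Sc.Sw_sub hr h'), ← hsplit]
    have := mul_le_mul_of_nonneg_left hnew hr.le
    nlinarith
  · have h0 : (c.S j h).Sw (c.r j) (c.e j x h) = ∅ := eq_empty_of_forall_notMem fun u hu => hK (Sc.edb_mem_Sw.1 hu).2.1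
    have hx : c.xtr j x h M' = 0 := if_neg fun h' => hK h'.2
    have hK' : (c.S j (x :: h)).K = (c.S j h).K := if_neg hK
    rw [hdr0 h0, hx]
    unfold Dg
    rw [hK', sum_congr rfl fun u hu => hsurv u hu (by simp [h0])]
    have := mul_nonneg hr.le hnf
    linarith

theorem drag_move (hc : c.Ok) (hm : Mv c.k M' ν (c.M (x :: h)) x) {π : c.Lab → ℝ} (hπ : ∀ l, 0 ≤ π l) :
    ∃ s q, 0 ≤ s ∧ s ≤ 24 ∧ s * Mb M' x (s * c.r j / 2) ≤ q ∧
      (q = 0 ∨ ∃ u ∈ (c.S j (x :: h)).K, dist ((c.S j (x :: h)).loc u) x ≤ 40 * c.r j ∧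
        q = 4 * π (c.nam ((c.S j (x :: h)).nm u))) ∧
      c.Dg j (x :: h) π (c.M (x :: h)) ≤ c.Dg j (x :: h) π M' +
        4 * 10 ^ 6 * (lam c.k (c.r j) (c.M (x :: h)) x * nmin ν x (c.r j) + nsen ν x (c.r j) s) := by
  have hr := r_pos hc j
  have hI := inv hc j (x :: h)
  have hgen := fun u => gen_W (u := (c.S j (x :: h)).loc u) (a := π (c.nam ((c.S j (x :: h)).nm u)) / 1000) hr hm
  have hn := nf_bd hm hr le_rfl
  have hn0 : 0 ≤ nmin ν x (c.r j) := hn.1.trans hn.2.2.1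
  by_cases hv : heavy (c.r j) (c.M (x :: h)) x
  · obtain ⟨u, hu, hx⟩ := Sc.post_heavy (e := c.e j x h) hr (inv hc j h) hv
    replace hu : u ∈ (c.S j (x :: h)).K := hu
    replace hx : dist ((c.S j (x :: h)).loc u) x ≤ 40 * c.r j := hx
    have hp := hπ (c.nam ((c.S j (x :: h)).nm u))
    obtain ⟨s, s0, s1, s2, s3⟩ := sens_W (a := π (c.nam ((c.S j (x :: h)).nm u)) / 1000) hr hm
      (div_nonneg hp (by norm_num)) hx
    refine ⟨s, _, s0, s1, by linarith, Or.inr ⟨u, hu, hx, rfl⟩, ?_⟩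
    have h1 : ∑ v ∈ (c.S j (x :: h)).K.erase u,
        Wm (c.r j) ((c.S j (x :: h)).loc v) (π (c.nam ((c.S j (x :: h)).nm v)) / 1000) (c.M (x :: h)) ≤
        ∑ v ∈ (c.S j (x :: h)).K.erase u,
          Wm (c.r j) ((c.S j (x :: h)).loc v) (π (c.nam ((c.S j (x :: h)).nm v)) / 1000) M' := by
      refine sum_le_sum fun v hv' => ?_
      obtain ⟨hne, hv'⟩ := mem_erase.1 hv'
      have h2 := hgen v
      have h3 := dist_triangle_right ((c.S j (x :: h)).loc v) ((c.S j (x :: h)).loc u) x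
      have h4 := hI.sep v hv' u hu hne
      rwa [if_neg (by linarith), add_zero] at h2
    have h2 := nf_bd hm hr s0
    unfold Dg
    rw [← add_sum_erase _ _ hu, ← add_sum_erase _ _ hu, lam, if_pos hv]
    linarith [h2.1, h2.2.2.2]
  · refine ⟨0, 0, le_rfl, by norm_num, by simp, Or.inl rfl, ?_⟩
    have h1 : ∑ u ∈ (c.S j (x :: h)).K,
        (if dist ((c.S j (x :: h)).loc u) x ≤ 323 * c.r j then 2 * nmin ν x (c.r j) else 0) ≤
        2 * nmin ν x (c.r j) := by
      rw [← sum_filter, sum_const, nsmul_eq_mul]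
      have : ((c.S j (x :: h)).K.filter fun u => dist ((c.S j (x :: h)).loc u) x ≤ 323 * c.r j).card ≤ 1 :=
        card_le_one.2 fun u hu v hv' => by
          obtain ⟨a1, a2⟩ := mem_filter.1 hu
          obtain ⟨b1, b2⟩ := mem_filter.1 hv'
          by_contra hne
          have := hI.sep u a1 v b1 hne
          have := dist_triangle_right ((c.S j (x :: h)).loc u) ((c.S j (x :: h)).loc v) x
          linarith
      exact mul_le_of_le_one_left (by linarith) (by exact_mod_cast this)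
    have h2 := sum_le_sum fun u (_ : u ∈ (c.S j (x :: h)).K) => hgen u
    rw [sum_add_distrib] at h2
    have h3 : nmin ν x (c.r j) ≤ lam c.k (c.r j) (c.M (x :: h)) x * nmin ν x (c.r j) := by
      rw [lam, if_neg hv]
      exact le_mul_of_one_le_left hn0 (one_le_pow₀ (by norm_num))
    unfold Dg
    linarith [hn.1, hn.2.2.2]

/-! ### part b -/

theorem d4_step (hc : c.Ok) (hT : h.length < c.T) (hm : Mv c.k M' ν (c.M (x :: h)) x)
    {π π' : ℕ → c.Lab → ℝ} (hπ' : ∀ j l, 0 ≤ π' j l)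
    (H : ∀ (s : Finset ℕ) (l : ℕ → c.Lab) (y : X) (ρ : ℝ),
      (∀ j ∈ s, j < c.J ∧ dist (c.ctr j (x :: h) (l j)) y + 320 * c.r j ≤ ρ) →
        ∑ j ∈ s, π' j (l j) ≤ 6 * Mb (c.M (x :: h)) y ρ) :
    ∑ j ∈ range c.J, c.r j * c.Dg j (x :: h) (π' j) (c.M (x :: h)) +
      (∑ j ∈ range c.J, ∑ l, c.dr j x h l * π' j l - 50000 * ∑ j ∈ range c.J, c.r j * c.xtr j x h M' -
        2000 * ∑ j ∈ range c.J, c.r j * ∑ l, |π' j l - π j l|) ≤
    ∑ j ∈ range c.J, c.r j * c.Dg j h (π j) M' + 10 ^ 12 * Real.log (c.k + 1) * ∑ y, ν y * dist y x := by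
  have hr := r_pos hc
  have hT' : (x :: h).length ≤ c.T := hT
  have hrm : ∀ {a b : ℕ}, a ≤ b → c.r a ≤ c.r b := fun hab =>
    mul_le_mul_of_nonneg_left (pow_le_pow_right₀ (by norm_num) hab) hc.r0.le
  choose s q hs0 hs hsq hq hD using fun j => drag_move (j := j) hc hm (hπ' j)
  have hl : ∀ j, ∃ l, q j ≠ 0 → dist (c.ctr j (x :: h) l) x ≤ 40 * c.r j ∧ q j = 4 * π' j l := fun j => by
    rcases hq j with h0 | ⟨u, hu, h1, h2⟩
    · exact ⟨c.pt x, fun h' => absurd h0 h'⟩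
    · exact ⟨_, fun _ => ⟨by rwa [ctr_nam hc j hT' ((inv hc j _).KC hu)], h2⟩⟩
  choose l hl using hl
  have a1 := sens_total hc.k0 hm hc.r0 (A := 24) (by norm_num) c.J (fun j => ⟨hs0 j, hs j⟩)
    (fun j => (eq_or_ne (q j) 0).elim (·.ge) fun h0 => (hl j h0).2 ▸ mul_nonneg (by norm_num) (hπ' _ _))
    (fun j _ => hsq j) fun j hj => by
      have b1 := H ((range (j + 1)).filter fun a => q a ≠ 0) l x (360 * c.r j) fun a ha => by
        rw [mem_filter, mem_range] at ha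
        exact ⟨by omega, by linarith [(hl a ha.2).1, hrm (Nat.le_of_lt_succ ha.1)]⟩
      have b2 : Mb M' x (360 * c.r j) ≤ Mb M' x (c.r (j + 2)) :=
        Mb_mono hm.old_nonneg x (by rw [r_succ, r_succ]; linarith [hr j])
      have h360 : 0 < 360 * c.r j := by linarith [hr j]
      rw [hm.Mb_new h360.le] at b1
      rw [← sum_filter_ne_zero, sum_congr rfl fun a ha => (hl a (mem_filter.1 ha).2).2, ← mul_sum]
      change _ ≤ 24 * (Mb M' x (c.r (j + 2)) + 1)
      linarith [(nf_bd hm h360 le_rfl).2.1]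
  have a2 := nf_sum hm hc.r0 c.J
  have hd : 0 ≤ ∑ y, ν y * dist y x := sum_nonneg fun y _ => mul_nonneg (hm.nu0 y) dist_nonneg
  have a3 := (sum_le_sum fun j (_ : j ∈ range c.J) => mul_le_mul_of_nonneg_left (nmin_le hm (hr j))
    (show 0 ≤ lam c.k (c.r j) (c.M (x :: h)) x by unfold lam; split_ifs <;> positivity)).trans
    ((sum_mul ..).symm.trans_le (mul_le_mul_of_nonneg_right (lam_sum hm hc.r0 c.J) hd))
  have a4 : 1 / 2 ≤ Real.log (c.k + 1) := by
    have : (1 : ℝ) ≤ c.k := by exact_mod_cast hc.k0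
    linarith [Real.log_two_gt_d9, Real.log_le_log two_pos (by linarith : (2 : ℝ) ≤ c.k + 1)]
  have a5 := sum_le_sum fun j (hj : j ∈ range c.J) => show
      c.r j * c.Dg j (x :: h) (π' j) (c.M (x :: h)) + ∑ l, c.dr j x h l * π' j l ≤
        c.r j * c.Dg j h (π j) M' + 50000 * (c.r j * c.xtr j x h M') + 2000 * (c.r j * ∑ l, |π' j l - π j l|) +
          2000 * (c.r j * nf ν x (c.r j)) + 4 * 10 ^ 6 * (lam c.k (c.r j) (c.M (x :: h)) x *
            (c.r j * nmin ν x (c.r j))) + 4 * 10 ^ 6 * (c.r j * nsen ν x (c.r j) (s j)) by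
    have b1 := drag_upd hc (mem_range.1 hj) hT hm (hπ' j) fun u hu => by
      have hK : (c.S j h).isK (c.r j) (c.e j x h) := (mem_filter.1 hu).2.1
      have e3 := ctr_nam hc j hT' (v := (c.e j x h).t) (by simp [S, Sc.upd, hK])
      rw [show (c.S j (x :: h)).nm (c.e j x h).t = (c.S j h).nm u by
        simp [S, Sc.upd, Sc.Sw_eq (hr j) (inv hc j h) hu],
        show (c.S j (x :: h)).loc (c.e j x h).t = x from Sc.edb_loc_t] at e3
      simpa only [sum_singleton] using H {j} (fun _ => c.nam ((c.S j h).nm u)) x (320 * c.r j) fun a ha => by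
        rw [mem_singleton.1 ha, e3, dist_self, zero_add]
        exact ⟨mem_range.1 hj, le_rfl⟩
    linarith [mul_le_mul_of_nonneg_left (hD j) (hr j).le,
      mul_le_mul_of_nonneg_left (drag_pi (j := j) (M' := M') hc hT.le (π j) (π' j)) (hr j).le]
  simp only [sum_add_distrib, ← mul_sum (range c.J)] at a5
  change ∑ j ∈ range c.J, c.r j * nsen ν x (c.r j) (s j) ≤ _ at a1
  change ∑ j ∈ range c.J, c.r j * nf ν x (c.r j) ≤ _ at a2
  linarith [mul_le_mul_of_nonneg_right a4 hd]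

end Ctx

end Crest.Agent.R314
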