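import Crest.Agent.R314.EmbMove
import Crest.Agent.R314.EmbDrag

/-!
# Row 314, part II: the interface of the labelling

`emb`: `Ctx` with `T = H`, `G = H (3 k + H (k + 3)) + 1`, `M = p.Mh`; `B = (∑ r j) (k (3k + 13) + 1)`.  `d3` on average
over the seed from `amortM` and `d3_step` (`av_sum`, `av_mul`; equal `lb` give equal `lab`), then `exists_le_av`;
`d4` from `amortM` and `d4_step`.
-/

set_option autoImplicit false
set_option linter.unusedSectionVars false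
set_option linter.unusedVariables false

namespace Crest.Agent.R314

open Finset Function
open scoped Classical

variable {Ξ : Type} [Fintype Ξ] {X : Type*} [MetricSpace X] [Fintype X] {k : ℕ}

/-- a dynamic labelling -/
structure Lbl (X : Type*) (Λ : Type) where
  pt : X → Λ
  lab : ℕ → List X → X → Λ
  ctr : ℕ → List X → Λ → X
  dr : ℕ → X → List X → Λ → ℝ
  ex : X → List X → ℝ

structure Lbl.Ok {Λ : Type} [Fintype Λ] (L : Lbl X Λ) (p : Proc Ξ X k) (H : ℕ) (r₀ : ℝ) (J : ℕ) (B : ℝ) :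
    Prop where
  d0 : ∀ j h y, L.ctr j h (L.pt y) = y
  d1 : ∀ j h y, h.length ≤ H → dist y (L.ctr j h (L.lab j h y)) ≤ 320 * rr r₀ j
  d2 : ∀ j x h y, h.length < H →
    dist (L.ctr j h (L.lab j h y)) (L.ctr j (x :: h) (L.lab j h y)) ≤ L.dr j x h (L.lab j h y)
  dr0 : ∀ j x h l, 0 ≤ L.dr j x h l ∧ L.dr j x h l ≤ 321 * rr r₀ j
  ex0 : ∀ x h, 0 ≤ L.ex x h
  d3 : p.tot H (fun x h => ∑ j ∈ range J, rr r₀ j *
      (∑ y, p.Mo x h y * (if L.lab j h y = L.lab j (x :: h) y then 0 else 1) +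
        ∑ y, p.nu x h y * (if L.lab j (x :: h) y = L.lab j (x :: h) x then 0 else 1)) + L.ex x h) ≤
    10 ^ 10 * Real.log (k + 1) * p.cost H + B
  d4 : ∀ π : List X → ℕ → Λ → ℝ, (∀ h j l, 0 ≤ π h j l) →
    (∀ h, h.length ≤ H → 0 < p.mass h → ∀ (s : Finset ℕ) (l : ℕ → Λ) (y : X) (ρ : ℝ),
      (∀ j ∈ s, j < J ∧ dist (L.ctr j h (l j)) y + 320 * rr r₀ j ≤ ρ) →
        ∑ j ∈ s, π h j (l j) ≤ 6 * Mb (p.Mh h) y ρ) →
    p.tot H (fun x h => ∑ j ∈ range J, ∑ l, L.dr j x h l * π (x :: h) j l) ≤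
      10 ^ 12 * Real.log (k + 1) * p.cost H + 50000 * p.tot H L.ex +
        2000 * p.tot H (fun x h => ∑ j ∈ range J, rr r₀ j * ∑ l, |π (x :: h) j l - π h j l|)

theorem emb_av_nonneg {Ω : Type*} [Fintype Ω] {f : Ω → ℝ} (h : ∀ ω, 0 ≤ f ω) : 0 ≤ av f :=
  div_nonneg (sum_nonneg fun ω _ => h ω) (Nat.cast_nonneg _)

theorem emb_av_tot {Ω : Type*} [Fintype Ω] (p : Proc Ξ X k) (H : ℕ) (c : Ω → X → List X → ℝ) :
    av (fun ω => p.tot H (c ω)) = p.tot H fun x h => av fun ω => c ω x h := by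
  unfold Proc.tot
  rw [av_sum]
  refine sum_congr rfl fun ξ _ => ?_
  rw [av_mul, av_sum]

theorem emb_concave {ι : Type*} (s : Finset ι) {a : ι → ℝ} (ha : ∀ i, 0 ≤ a i) {F : ι → (X → ℝ) → ℝ}
    (hF : ∀ i, ConcaveOn ℝ (Set.Ici 0) (F i)) : ConcaveOn ℝ (Set.Ici 0) fun M => ∑ i ∈ s, a i * F i M := by
  induction s using Finset.induction_on with
  | empty => simpa using concaveOn_const (0 : ℝ) (convex_Ici (0 : X → ℝ))
  | insert i s hi ih =>
    simp only [sum_insert hi]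
    exact ((hF i).smul (ha i)).add ih

theorem emb (hk : 0 < k) (x₀ : X) {r₀ : ℝ} (hr : 0 < r₀) {J : ℕ} (hJ : ∀ y y' : X, dist y y' ≤ rr r₀ J) :
    ∃ B : ℝ, 0 ≤ B ∧ ∀ (Ξ : Type) [Fintype Ξ] (p : Proc Ξ X k) (H : ℕ), ∑ ξ, p.P ξ = 1 →
      ∃ (Λ : Type) (_ : Fintype Λ) (L : Lbl X Λ), L.Ok p H r₀ J B := by
  have hrr : ∀ j, 0 < rr r₀ j := fun j => by unfold rr; positivity
  have hS : 0 ≤ ∑ j ∈ range J, rr r₀ j := sum_nonneg fun j _ => (hrr j).le
  refine ⟨(∑ j ∈ range J, rr r₀ j) * (k * (3 * k + 13) + 1), by positivity, fun Ξ _ p H hP => ?_⟩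
  let c : Ctx X := ⟨r₀, J, k, H, H * (3 * k + H * (k + 3)) + 1, p.Mh, x₀⟩
  have hc : c.Ok := ⟨hr, Nat.succ_pos _, hk, hJ⟩
  have hne : Nonempty (Fin c.G) := ⟨⟨0, hc.G0⟩⟩
  have hMo : ∀ x h y, 0 ≤ p.Mo x h y := fun x h y => p.Post_E_nonneg _ fun ξ => p.Post_at_nonneg _ _ _
  have hnu : ∀ x h y, 0 ≤ p.nu x h y := fun x h y => p.Post_E_nonneg _ fun ξ => by split_ifs <;> norm_num
  let ex : X → List X → ℝ := fun x h => ∑ j ∈ range J, c.r j * c.xtr j x h (p.Mo x h)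
  have hex : ∀ x h, 0 ≤ ex x h := fun x h => sum_nonneg fun j _ => mul_nonneg (hrr j).le (by
    unfold Ctx.xtr Ma
    split_ifs
    · exact sum_nonneg fun y _ => by split_ifs; exacts [hMo _ _ _, le_rfl]
    · exact le_rfl)
  -- the average bound
  have h3 := p.amortM hP H (fun h M => ∑ j ∈ range c.J, c.r j * c.Psi j h M)
    (fun h => emb_concave _ (fun j => (hrr j).le) fun j => c.Psi_concave j h)
    (fun x h => ∑ j ∈ range c.J, c.r j * (∑ y, p.Mo x h y * c.rel j x h y + ∑ y, p.nu x h y * c.crs j (x :: h) x y) +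
        ∑ j ∈ range c.J, c.r j * c.xtr j x h (p.Mo x h) -
        (∑ j ∈ range c.J, c.r j) * ((3 * c.k + c.T * (c.k + 3)) / c.G))
    (10 ^ 10 * Real.log (k + 1))
    (fun x h hH hm => Ctx.d3_step hc hH (p.mv hP hm))
    (fun h => sum_nonneg fun j _ => mul_nonneg (hrr j).le (Ctx.Psi_nonneg hc j h (p.Mh_nonneg h)))
  have hav : av (fun ω : c.Sd => p.tot H (fun x h => ∑ j ∈ range J, rr r₀ j *
      (∑ y, p.Mo x h y * (if c.lab ω j h y = c.lab ω j (x :: h) y then 0 else 1) +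
        ∑ y, p.nu x h y * (if c.lab ω j (x :: h) y = c.lab ω j (x :: h) x then 0 else 1)) + ex x h)) ≤
      10 ^ 10 * Real.log (k + 1) * p.cost H + (∑ j ∈ range J, rr r₀ j) * (k * (3 * k + 13) + 1) := by
    rw [emb_av_tot]
    have h1 : p.tot H (fun x h => av fun ω : c.Sd => ∑ j ∈ range J, rr r₀ j *
        (∑ y, p.Mo x h y * (if c.lab ω j h y = c.lab ω j (x :: h) y then 0 else 1) +
          ∑ y, p.nu x h y * (if c.lab ω j (x :: h) y = c.lab ω j (x :: h) x then 0 else 1)) + ex x h) ≤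
        p.tot H (fun x h => (∑ j ∈ range c.J, c.r j * (∑ y, p.Mo x h y * c.rel j x h y +
          ∑ y, p.nu x h y * c.crs j (x :: h) x y) + ∑ j ∈ range c.J, c.r j * c.xtr j x h (p.Mo x h) -
          (∑ j ∈ range c.J, c.r j) * ((3 * c.k + c.T * (c.k + 3)) / c.G)) +
          (∑ j ∈ range c.J, c.r j) * ((3 * c.k + c.T * (c.k + 3)) / c.G)) := by
      refine p.tot_mono H fun x h _ _ => ?_
      rw [sub_add_cancel, av_add, av_const, av_sum]
      refine add_le_add (sum_le_sum fun j _ => ?_) le_rfl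
      rw [av_mul, av_add, av_sum, av_sum]
      refine mul_le_mul_of_nonneg_left (add_le_add (sum_le_sum fun y _ => ?_) (sum_le_sum fun y _ => ?_)) (hrr j).le
      · rw [av_mul]
        refine mul_le_mul_of_nonneg_left (av_mono fun ω => ?_) (hMo _ _ _)
        by_cases e : c.lb ω j h y = c.lb ω j (x :: h) y
        · simp [Ctx.lab, e]
        · rw [if_neg e]; split_ifs <;> norm_num
      · rw [av_mul]
        refine mul_le_mul_of_nonneg_left (av_mono fun ω => ?_) (hnu _ _ _)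
        by_cases e : c.lb ω j (x :: h) y = c.lb ω j (x :: h) x
        · simp [Ctx.lab, e]
        · rw [if_neg e]; split_ifs <;> norm_num
    rw [p.tot_add, p.tot_const hP] at h1
    have h2 : ∑ j ∈ range c.J, c.r j * c.Psi j [] (p.Mh []) ≤ (∑ j ∈ range J, rr r₀ j) * (k * (3 * k + 13)) := by
      rw [sum_mul]
      exact sum_le_sum fun j _ => mul_le_mul_of_nonneg_left
        (Ctx.Psi_nil hc j (p.Mh_nonneg []) (p.sum_Mh hP [])) (hrr j).le
    have h4 : (H : ℝ) * ((∑ j ∈ range c.J, c.r j) * ((3 * c.k + c.T * (c.k + 3)) / c.G)) ≤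
        ∑ j ∈ range J, rr r₀ j := by
      have hG : (c.G : ℝ) = H * (3 * k + H * (k + 3)) + 1 := by simp [c]
      have : (H : ℝ) * ((3 * c.k + c.T * (c.k + 3)) / c.G) ≤ 1 := by
        rw [hG, ← mul_div_assoc, div_le_one (by positivity)]
        simp [c]
      calc _ = (∑ j ∈ range J, rr r₀ j) * ((H : ℝ) * ((3 * c.k + c.T * (c.k + 3)) / c.G)) := by
            simp only [c, Ctx.r]; ring
        _ ≤ _ := mul_le_of_le_one_right hS this
    linarith
  obtain ⟨ω, hω⟩ := exists_le_av (fun ω : c.Sd => p.tot H (fun x h => ∑ j ∈ range J, rr r₀ j *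
      (∑ y, p.Mo x h y * (if c.lab ω j h y = c.lab ω j (x :: h) y then 0 else 1) +
        ∑ y, p.nu x h y * (if c.lab ω j (x :: h) y = c.lab ω j (x :: h) x then 0 else 1)) + ex x h))
  refine ⟨c.Lab, inferInstance, ⟨c.pt, c.lab ω, c.ctr, c.dr, ex⟩, c.ctr_pt,
    fun j h y hH => Ctx.d1 hc ω j hH y, fun j x h y hH => Ctx.d2 hc ω j x hH y, fun j x h l => ?_, hex, ?_, ?_⟩
  · have := hrr j
    simp only [Ctx.dr, Ctx.r, c]
    split_ifs <;> constructor <;> first | positivity | exact le_rfl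
  · refine le_trans (le_of_eq ?_) (hω.trans hav)
    congr!
  · intro π hπ hH
    have h4 := p.amortM hP H (fun h M => ∑ j ∈ range c.J, c.r j * c.Dg j h (π h j) M)
      (fun h => emb_concave _ (fun j => (hrr j).le) fun j => c.Dg_concave j h _)
      (fun x h => ∑ j ∈ range c.J, ∑ l, c.dr j x h l * π (x :: h) j l -
        50000 * ∑ j ∈ range c.J, c.r j * c.xtr j x h (p.Mo x h) -
        2000 * ∑ j ∈ range c.J, c.r j * ∑ l, |π (x :: h) j l - π h j l|)
      (10 ^ 12 * Real.log (k + 1))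
      (fun x h hl hm => Ctx.d4_step hc hl (p.mv hP hm) (hπ (x :: h)) (hH (x :: h) hl hm))
      (fun h => sum_nonneg fun j _ => mul_nonneg (hrr j).le (Ctx.Dg_nonneg (hπ h j) (p.Mh_nonneg h)))
    simp only [Ctx.Dg_nil, mul_zero, sum_const_zero, zero_add] at h4
    have e : p.tot H (fun x h => ∑ j ∈ range J, ∑ l, c.dr j x h l * π (x :: h) j l) =
        p.tot H (fun x h => (∑ j ∈ range c.J, ∑ l, c.dr j x h l * π (x :: h) j l -
          50000 * ∑ j ∈ range c.J, c.r j * c.xtr j x h (p.Mo x h) -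
          2000 * ∑ j ∈ range c.J, c.r j * ∑ l, |π (x :: h) j l - π h j l|) + (50000 * ex x h +
          2000 * ∑ j ∈ range J, rr r₀ j * ∑ l, |π (x :: h) j l - π h j l|)) := by
      congr 1; funext x h; simp only [ex, c, Ctx.r]; ring
    rw [p.tot_add, p.tot_add, p.tot_mul, p.tot_mul] at e
    show p.tot H (fun x h => ∑ j ∈ range J, ∑ l, c.dr j x h l * π (x :: h) j l) ≤ _
    linarith

end Crest.Agent.R314
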