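import Crest.Agent.R314.Val

/-!
# Row 314: posterior expectations along histories

Histories are reversed lists of requests.  `W h` are the weights of the scenarios with history `h`, `pw h` the
posterior (the prior if `h` has mass zero, so that it is always a probability vector), `E h` its expectation.
* `amort`: multiply `step` by `mass (r :: h)`, sum over `r` (`sum_res`), use `ConcaveOn.le_map_sum` with the
  weights `mass (r :: h) / mass h`; then sum over the histories of length `t` (equivalently: show by induction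
  on `H` that `tot H c + ∑ ξ, P ξ * F (hist ξ H) (E (hist ξ H) ..)` is bounded; group the scenarios by
  `hist ξ t`, `Finset.sum_fiberwise`, or prove the statement below every history by induction on the
  remaining length as for `U_le_of_couplings`).
* `U_le_of_couplings`: by induction on `m`, for all `h` with `h.length + m = H` and `G h μ`:
  `∑ a, μ a * U σ m (W h) h.length (conf h a) ≤ ∑ ξ, W h ξ * ∑ u < m, c (σ ξ (|h|+u)) (hist ξ (|h|+u))`.
  For `μ a > 0` and each `r` of positive mass choose `b` with `ν (a, b) > 0` minimising the bracket of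
  `U_step` (`π = 1`); for `r` of mass zero the weights vanish (`U_zero`).
-/

set_option autoImplicit false
set_option linter.unusedSectionVars false
set_option linter.unusedVariables false

namespace Crest.Agent.R314

open Finset Function

variable {Ξ : Type} [Fintype Ξ] {X : Type*} [MetricSpace X] [Fintype X] {k : ℕ}

open Classical in
/-- one move: `M'` old configuration, `ν` law of the start of the move, `M''` new configuration -/
structure Mv (k : ℕ) (M' ν M'' : X → ℝ) (x : X) : Prop where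
  nu0 : ∀ y, 0 ≤ ν y
  nule : ∀ y, ν y ≤ M' y
  nu1 : ∑ y, ν y = 1
  tot : ∑ y, M' y = k
  new : ∀ y, M'' y = M' y - ν y + if y = x then 1 else 0

namespace Proc

variable (p : Proc Ξ X k)

/-- the history (reversed) at time `t` -/
def hist (ξ : Ξ) : ℕ → List X
  | 0 => []
  | t + 1 => p.σ ξ t :: hist ξ t

/-- weights of the scenarios with history `h` -/
noncomputable def W : List X → Ξ → ℝ
  | [] => p.P
  | r :: h => res p.σ (W h) h.length r

noncomputable def mass (h : List X) : ℝ := ∑ ξ, p.W h ξ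

/-- posterior -/
noncomputable def pw (h : List X) (ξ : Ξ) : ℝ := if 0 < p.mass h then p.W h ξ / p.mass h else p.P ξ

/-- posterior expectation -/
noncomputable def E (h : List X) (f : Ξ → ℝ) : ℝ := ∑ ξ, p.pw h ξ * f ξ

/-- expected total of a cost `c r h` of the step from `h` to `r :: h` -/
noncomputable def tot (H : ℕ) (c : X → List X → ℝ) : ℝ :=
  ∑ ξ, p.P ξ * ∑ t ∈ range H, c (p.σ ξ t) (p.hist ξ t)

open Classical in
/-- number of offline servers at `y` -/
noncomputable def at_ (ξ : Ξ) (t : ℕ) (y : X) : ℝ := ∑ i, if p.pos ξ t i = y then 1 else 0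

/-- posterior server measure -/
noncomputable def Mh (h : List X) (y : X) : ℝ := p.E h fun ξ => p.at_ ξ h.length y

/-- the old configuration under the new posterior -/
noncomputable def Mo (r : X) (h : List X) (y : X) : ℝ := p.E (r :: h) fun ξ => p.at_ ξ h.length y

open Classical in
/-- law of the start of the offline move -/
noncomputable def nu (r : X) (h : List X) (y : X) : ℝ :=
  p.E (r :: h) fun ξ => if p.pos ξ h.length (p.j ξ h.length) = y then 1 else 0

/-! ### part a -/

theorem length_hist (ξ : Ξ) (t : ℕ) : (p.hist ξ t).length = t := by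
  induction t with
  | zero => rfl
  | succ t ih => simp [hist, ih]

open Classical in
theorem W_eq (h : List X) (ξ : Ξ) : p.W h ξ = if p.hist ξ h.length = h then p.P ξ else 0 := by
  induction h with
  | nil => simp [W, hist]
  | cons r h ih =>
    simp only [W, res, List.length_cons, hist, List.cons.injEq, ih]
    by_cases h1 : p.σ ξ h.length = r <;> by_cases h2 : p.hist ξ h.length = h <;> simp [h1, h2]

theorem W_nonneg (h : List X) (ξ : Ξ) : 0 ≤ p.W h ξ := by
  rw [W_eq]
  split_ifs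
  · exact p.P0 ξ
  · exact le_rfl

theorem mass_nonneg (h : List X) : 0 ≤ p.mass h := sum_nonneg fun ξ _ => p.W_nonneg h ξ

theorem pw_nonneg (h : List X) (ξ : Ξ) : 0 ≤ p.pw h ξ := by
  unfold pw
  split_ifs with hm
  · exact div_nonneg (p.W_nonneg h ξ) hm.le
  · exact p.P0 ξ

theorem sum_pw (hP : ∑ ξ, p.P ξ = 1) (h : List X) : ∑ ξ, p.pw h ξ = 1 := by
  unfold pw
  by_cases hm : 0 < p.mass h
  · simp only [if_pos hm]
    rw [← sum_div]
    exact div_self hm.ne'
  · simp only [if_neg hm]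
    exact hP

theorem pw_nil (hP : ∑ ξ, p.P ξ = 1) (ξ : Ξ) : p.pw [] ξ = p.P ξ := by
  have hm : p.mass [] = 1 := hP
  simp [pw, hm, W]

theorem hist_of_pw {h : List X} (hm : 0 < p.mass h) {ξ : Ξ} (hξ : 0 < p.pw h ξ) :
    p.hist ξ h.length = h := by
  by_contra hne
  rw [pw, if_pos hm, W_eq, if_neg hne, zero_div] at hξ
  exact lt_irrefl _ hξ

theorem mass_hist {ξ : Ξ} (hξ : 0 < p.P ξ) (t : ℕ) : 0 < p.mass (p.hist ξ t) := by
  refine lt_of_lt_of_le ?_ (single_le_sum (f := fun ξ' => p.W (p.hist ξ t) ξ')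
    (fun ξ' _ => p.W_nonneg _ ξ') (mem_univ ξ))
  rw [W_eq, length_hist, if_pos rfl]
  exact hξ

theorem mass_tail {r : X} {h : List X} (hm : 0 < p.mass (r :: h)) : 0 < p.mass h := by
  refine lt_of_lt_of_le hm (sum_le_sum fun ξ _ => ?_)
  simp only [W, res]
  split_ifs
  · exact le_rfl
  · exact p.W_nonneg h ξ

theorem E_mono (h : List X) {f g : Ξ → ℝ} (hfg : ∀ ξ, 0 < p.pw h ξ → f ξ ≤ g ξ) : p.E h f ≤ p.E h g := by
  refine sum_le_sum fun ξ _ => ?_
  rcases (p.pw_nonneg h ξ).eq_or_lt with h0 | h0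
  · rw [← h0, zero_mul, zero_mul]
  · exact mul_le_mul_of_nonneg_left (hfg ξ h0) h0.le

theorem tot_mono (H : ℕ) {c c' : X → List X → ℝ}
    (h : ∀ r h, h.length < H → 0 < p.mass (r :: h) → c r h ≤ c' r h) : p.tot H c ≤ p.tot H c' := by
  refine sum_le_sum fun ξ _ => ?_
  rcases (p.P0 ξ).eq_or_lt with h0 | h0
  · rw [← h0, zero_mul, zero_mul]
  · refine mul_le_mul_of_nonneg_left (sum_le_sum fun t ht => h _ _ ?_ ?_) h0.le
    · rw [length_hist]
      exact mem_range.1 ht
    · exact p.mass_hist h0 (t + 1)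

theorem tot_add (H : ℕ) (c c' : X → List X → ℝ) :
    p.tot H (fun r h => c r h + c' r h) = p.tot H c + p.tot H c' := by
  simp only [tot, sum_add_distrib, mul_add]

theorem tot_mul (H : ℕ) (a : ℝ) (c : X → List X → ℝ) :
    p.tot H (fun r h => a * c r h) = a * p.tot H c := by
  simp only [tot, ← mul_sum]
  rw [mul_sum]
  exact sum_congr rfl fun ξ _ => by ring

theorem tot_sum (H : ℕ) {ι : Type*} (s : Finset ι) (c : ι → X → List X → ℝ) :
    p.tot H (fun r h => ∑ i ∈ s, c i r h) = ∑ i ∈ s, p.tot H (c i) := by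
  simp only [tot]
  rw [sum_comm]
  refine sum_congr rfl fun ξ _ => ?_
  rw [← mul_sum, sum_comm]

theorem tot_const (hP : ∑ ξ, p.P ξ = 1) (H : ℕ) (a : ℝ) : p.tot H (fun _ _ => a) = H * a := by
  simp only [tot, sum_const, card_range, nsmul_eq_mul]
  rw [← sum_mul, hP, one_mul]

theorem Post_sum_pw_hist (t : ℕ) (ξ' : Ξ) : ∑ ξ, p.P ξ * p.pw (p.hist ξ t) ξ' = p.P ξ' := by
  have e : ∀ ξ, p.P ξ * p.pw (p.hist ξ t) ξ' =
      p.W (p.hist ξ' t) ξ * (p.P ξ' / p.mass (p.hist ξ' t)) := fun ξ => by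
    rcases (p.P0 ξ).eq_or_lt with h0 | h0
    · rw [W_eq, ← h0]
      simp
    · rw [pw, if_pos (p.mass_hist h0 t), W_eq, W_eq, length_hist, length_hist]
      by_cases he : p.hist ξ' t = p.hist ξ t
      · rw [if_pos he, if_pos he.symm, he]
      · rw [if_neg he, if_neg (Ne.symm he)]
        simp
  rw [sum_congr rfl fun ξ _ => e ξ, ← sum_mul]
  rcases (p.P0 ξ').eq_or_lt with h0 | h0
  · rw [← h0]
    simp
  · have hm := p.mass_hist h0 t
    change p.mass (p.hist ξ' t) * _ = _
    field_simp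

theorem Post_tower (t : ℕ) (f : Ξ → ℝ) : ∑ ξ, p.P ξ * p.E (p.hist ξ t) f = ∑ ξ, p.P ξ * f ξ := by
  simp only [E, mul_sum]
  rw [sum_comm]
  refine sum_congr rfl fun ξ' _ => ?_
  simp only [← mul_assoc]
  rw [← sum_mul, Post_sum_pw_hist]

/-- tower property -/
theorem tot_E (H : ℕ) (g : Ξ → ℕ → ℝ) :
    p.tot H (fun r h => p.E (r :: h) fun ξ => g ξ h.length) = ∑ ξ, p.P ξ * ∑ t ∈ range H, g ξ t := by
  simp only [tot, mul_sum, length_hist]
  rw [sum_comm, sum_comm (s := univ)]
  exact sum_congr rfl fun t _ => p.Post_tower (t + 1) fun ξ => g ξ t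

theorem Post_at_nonneg (ξ : Ξ) (t : ℕ) (y : X) : 0 ≤ p.at_ ξ t y := by
  unfold at_
  exact sum_nonneg fun i _ => by split_ifs <;> norm_num

theorem Post_sum_at_mul (ξ : Ξ) (t : ℕ) (f : X → ℝ) :
    ∑ y, p.at_ ξ t y * f y = ∑ i, f (p.pos ξ t i) := by
  classical
  simp only [at_, sum_mul]
  rw [sum_comm]
  refine sum_congr rfl fun i _ => ?_
  simp

theorem Post_sum_E_mul (h : List X) (a : Ξ → X → ℝ) (f : X → ℝ) :
    ∑ y, (p.E h fun ξ => a ξ y) * f y = p.E h fun ξ => ∑ y, a ξ y * f y := by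
  simp only [E, sum_mul, mul_sum, mul_assoc]
  rw [sum_comm]

theorem Post_E_nonneg (h : List X) {f : Ξ → ℝ} (hf : ∀ ξ, 0 ≤ f ξ) : 0 ≤ p.E h f :=
  sum_nonneg fun ξ _ => mul_nonneg (p.pw_nonneg h ξ) (hf ξ)

theorem Post_E_const (hP : ∑ ξ, p.P ξ = 1) (h : List X) (a : ℝ) : (p.E h fun _ => a) = a := by
  rw [E, ← sum_mul, p.sum_pw hP, one_mul]

theorem Post_sum_E_at (hP : ∑ ξ, p.P ξ = 1) (h : List X) (t : ℕ) :
    ∑ y, (p.E h fun ξ => p.at_ ξ t y) = k := by
  have e := p.Post_sum_E_mul h (fun ξ y => p.at_ ξ t y) fun _ => 1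
  simp only [Post_sum_at_mul] at e
  simp only [sum_const, card_univ, Fintype.card_fin, nsmul_eq_mul, mul_one] at e
  rw [e, p.Post_E_const hP]

open Classical in
theorem Post_at_succ (ξ : Ξ) (t : ℕ) (y : X) :
    p.at_ ξ (t + 1) y = p.at_ ξ t y - (if p.pos ξ t (p.j ξ t) = y then 1 else 0) +
      if y = p.σ ξ t then 1 else 0 := by
  unfold at_
  rw [← add_sum_erase _ _ (mem_univ (p.j ξ t)), ← add_sum_erase _ _ (mem_univ (p.j ξ t))]
  have e : ∑ i ∈ univ.erase (p.j ξ t), (if p.pos ξ (t + 1) i = y then (1 : ℝ) else 0) =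
      ∑ i ∈ univ.erase (p.j ξ t), (if p.pos ξ t i = y then (1 : ℝ) else 0) :=
    sum_congr rfl fun i hi => by
      rw [show p.pos ξ (t + 1) i = p.pos ξ t i from update_of_ne (ne_of_mem_erase hi) _ _]
  rw [e, show p.pos ξ (t + 1) (p.j ξ t) = p.σ ξ t from update_self _ _ _]
  by_cases hy : y = p.σ ξ t
  · rw [if_pos hy, if_pos hy.symm]
    ring
  · rw [if_neg hy, if_neg (Ne.symm hy)]
    ring

theorem mv (hP : ∑ ξ, p.P ξ = 1) {r : X} {h : List X} (hm : 0 < p.mass (r :: h)) :
    Mv k (p.Mo r h) (p.nu r h) (p.Mh (r :: h)) r := by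
  classical
  refine ⟨fun y => p.Post_E_nonneg _ fun ξ => by split_ifs <;> norm_num, fun y => ?_, ?_,
    p.Post_sum_E_at hP _ _, fun y => ?_⟩
  · refine p.E_mono _ fun ξ _ => ?_
    unfold at_
    exact single_le_sum (f := fun i => if p.pos ξ h.length i = y then (1 : ℝ) else 0)
      (fun i _ => by split_ifs <;> norm_num) (mem_univ _)
  · have e := p.Post_sum_E_mul (r :: h)
      (fun ξ y => if p.pos ξ h.length (p.j ξ h.length) = y then (1 : ℝ) else 0) fun _ => 1
    simp only [mul_one, sum_ite_eq, mem_univ, if_true] at e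
    rw [p.Post_E_const hP] at e
    exact e
  · have e : ∀ ξ, p.pw (r :: h) ξ * p.at_ ξ (h.length + 1) y =
        p.pw (r :: h) ξ * p.at_ ξ h.length y -
          p.pw (r :: h) ξ * (if p.pos ξ h.length (p.j ξ h.length) = y then 1 else 0) +
          p.pw (r :: h) ξ * (if y = r then 1 else 0) := fun ξ => by
      rcases (p.pw_nonneg (r :: h) ξ).eq_or_lt with h0 | h0
      · rw [← h0]
        simp
      · have h1 := p.hist_of_pw hm h0
        simp only [List.length_cons, hist, List.cons.injEq] at h1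
        rw [Post_at_succ, h1.1]
        ring
    simp only [Mh, Mo, nu, E, List.length_cons]
    rw [sum_congr rfl fun ξ _ => e ξ, sum_add_distrib, sum_sub_distrib, ← sum_mul, p.sum_pw hP,
      one_mul]

theorem Mh_nonneg (h : List X) (y : X) : 0 ≤ p.Mh h y := by
  exact p.Post_E_nonneg _ fun ξ => p.Post_at_nonneg ξ _ y

theorem sum_Mh (hP : ∑ ξ, p.P ξ = 1) (h : List X) : ∑ y, p.Mh h y = k := by
  exact p.Post_sum_E_at hP _ _

theorem sum_Mh_mul (h : List X) (f : X → ℝ) :
    ∑ y, p.Mh h y * f y = p.E h fun ξ => ∑ i, f (p.pos ξ h.length i) := by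
  simp only [Mh]
  rw [Post_sum_E_mul]
  simp only [Post_sum_at_mul]

theorem sum_Mo_mul (r : X) (h : List X) (f : X → ℝ) :
    ∑ y, p.Mo r h y * f y = p.E (r :: h) fun ξ => ∑ i, f (p.pos ξ h.length i) := by
  simp only [Mo]
  rw [Post_sum_E_mul]
  simp only [Post_sum_at_mul]

theorem sum_nu_mul (r : X) (h : List X) (f : X → ℝ) :
    ∑ y, p.nu r h y * f y = p.E (r :: h) fun ξ => f (p.pos ξ h.length (p.j ξ h.length)) := by
  classical
  simp only [nu]
  rw [Post_sum_E_mul]
  simp

theorem tot_nu (H : ℕ) : p.tot H (fun r h => ∑ y, p.nu r h y * dist y r) = p.cost H := by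
  have e := p.tot_E H fun ξ t => p.d ξ t
  rw [cost, ← e]
  have key : ∀ r h, 0 < p.mass (r :: h) → ∑ y, p.nu r h y * dist y r =
      p.E (r :: h) fun ξ => p.d ξ h.length := fun r h hm => by
    rw [sum_nu_mul]
    have k1 : ∀ ξ, 0 < p.pw (r :: h) ξ →
        dist (p.pos ξ h.length (p.j ξ h.length)) r = p.d ξ h.length := fun ξ hξ => by
      have h1 := p.hist_of_pw hm hξ
      simp only [List.length_cons, hist, List.cons.injEq] at h1
      rw [d, h1.1]
    exact le_antisymm (p.E_mono _ fun ξ hξ => (k1 ξ hξ).le) (p.E_mono _ fun ξ hξ => (k1 ξ hξ).ge)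
  exact le_antisymm (p.tot_mono H fun r h _ hm => (key r h hm).le)
    (p.tot_mono H fun r h _ hm => (key r h hm).ge)

/-! ### part b -/

theorem postb_W0 : ∀ (h : List X) (ξ : Ξ), 0 ≤ p.W h ξ
  | [] => p.P0
  | r :: h => res_nonneg (postb_W0 h) _ r

theorem postb_mass0 (h : List X) : 0 ≤ p.mass h := sum_nonneg fun ξ _ => p.postb_W0 h ξ

theorem postb_mE (h : List X) (g : Ξ → ℝ) : p.mass h * p.E h g = ∑ ξ, p.W h ξ * g ξ := by
  rcases (p.postb_mass0 h).eq_or_lt with h0 | h0
  · have := (sum_eq_zero_iff_of_nonneg fun ξ _ => p.postb_W0 h ξ).1 h0.symm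
    rw [← h0, zero_mul]
    exact (sum_eq_zero fun ξ hξ => by rw [this ξ hξ, zero_mul]).symm
  · rw [E, mul_sum]
    refine sum_congr rfl fun ξ _ => ?_
    rw [pw, if_pos h0]
    field_simp

theorem postb_split (h : List X) (g : Ξ → ℝ) :
    ∑ r, ∑ ξ, p.W (r :: h) ξ * g ξ = ∑ ξ, p.W h ξ * g ξ := sum_res _ _

theorem postb_jensen (h : List X) {ι : Type*} {F : (ι → ℝ) → ℝ} (hF : ConcaveOn ℝ (Set.Ici 0) F)
    (f : Ξ → ι → ℝ) (hf : ∀ ξ i, 0 ≤ f ξ i) :
    ∑ r, p.mass (r :: h) * F (fun i => p.E (r :: h) fun ξ => f ξ i) ≤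
      p.mass h * F (fun i => p.E h fun ξ => f ξ i) := by
  have hs : ∑ r, p.mass (r :: h) = p.mass h := by simpa [mass] using p.postb_split h fun _ => 1
  rcases (p.postb_mass0 h).eq_or_lt with h0 | h0
  · have := (sum_eq_zero_iff_of_nonneg fun r _ => p.postb_mass0 (r :: h)).1 (hs.trans h0.symm)
    rw [← h0, zero_mul]
    exact (sum_eq_zero fun r hr => by rw [this r hr, zero_mul]).le
  have h1 := hF.le_map_sum (t := univ) (w := fun r => p.mass (r :: h) / p.mass h)
    (p := fun r i => p.E (r :: h) fun ξ => f ξ i)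
    (fun r _ => div_nonneg (p.postb_mass0 _) h0.le) (by rw [← sum_div, hs, div_self h0.ne'])
    (fun r _ i => sum_nonneg fun ξ _ => mul_nonneg (p.pw_nonneg _ _) (hf ξ i))
  have e : (∑ r, (p.mass (r :: h) / p.mass h) • fun i => p.E (r :: h) fun ξ => f ξ i) =
      fun i => p.E h fun ξ => f ξ i := by
    ext i
    simp only [Finset.sum_apply, Pi.smul_apply, smul_eq_mul, div_mul_eq_mul_div, postb_mE]
    rw [← sum_div, postb_split, ← postb_mE, mul_div_cancel_left₀ _ h0.ne']
  simp only [e, smul_eq_mul, div_mul_eq_mul_div] at h1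
  rwa [← sum_div, div_le_iff₀' h0] at h1

/-- amortisation with a concave potential -/
theorem amort (hP : ∑ ξ, p.P ξ = 1) (H : ℕ) {ι : Type*} [Fintype ι] (F : List X → (ι → ℝ) → ℝ)
    (hF : ∀ h, ConcaveOn ℝ (Set.Ici 0) (F h)) (f : Ξ → ℕ → ι → ℝ) (hf : ∀ ξ t i, 0 ≤ f ξ t i)
    (c : X → List X → ℝ)
    (step : ∀ r h, h.length < H → 0 < p.mass (r :: h) →
      F (r :: h) (fun i => p.E (r :: h) fun ξ => f ξ (h.length + 1) i) + c r h ≤
        F h (fun i => p.E (r :: h) fun ξ => f ξ h.length i))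
    (pos : ∀ h, 0 < p.mass h → 0 ≤ F h (fun i => p.E h fun ξ => f ξ h.length i)) :
    p.tot H c ≤ F [] (fun i => p.E [] fun ξ => f ξ 0 i) := by
  have key : ∀ (m : ℕ) (h : List X), h.length + m ≤ H →
      ∑ ξ, p.W h ξ * ∑ u ∈ range m, c (p.σ ξ (h.length + u)) (p.hist ξ (h.length + u)) ≤
        p.mass h * F h (fun i => p.E h fun ξ => f ξ h.length i) := by
    intro m
    induction m with
    | zero =>
      intro h _
      simp only [range_zero, sum_empty, mul_zero, sum_const_zero]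
      rcases (p.postb_mass0 h).eq_or_lt with h0 | h0
      · rw [← h0, zero_mul]
      · exact mul_nonneg h0.le (pos h h0)
    | succ m ih =>
      intro h hm
      rw [← postb_split]
      refine le_trans (sum_le_sum fun r _ => ?_)
        (p.postb_jensen h (hF h) (fun ξ => f ξ h.length) fun ξ => hf ξ _)
      have h1 := ih (r :: h) (by rw [List.length_cons]; omega)
      have h2 : ∑ ξ, p.W (r :: h) ξ * c (p.σ ξ h.length) (p.hist ξ h.length) =
          p.mass (r :: h) * c r h := by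
        rw [mass, sum_mul]
        refine sum_congr rfl fun ξ _ => ?_
        rw [W_eq]
        split_ifs with h3
        · obtain ⟨h4, h5⟩ := List.cons.inj h3
          rw [h4, h5]
        · rw [zero_mul, zero_mul]
      simp only [List.length_cons, add_assoc, add_comm 1] at h1
      simp only [sum_range_succ', mul_add, sum_add_distrib, add_zero, h2]
      rcases (p.postb_mass0 (r :: h)).eq_or_lt with h0 | h0
      · rw [← h0, zero_mul] at h1
        rw [← h0, zero_mul, zero_mul, add_zero]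
        exact h1
      · have h3 := mul_le_mul_of_nonneg_left (step r h (by omega) h0) h0.le
        linarith
  simpa [tot, W, mass, hP] using key H [] (by simp)

theorem amortM (hP : ∑ ξ, p.P ξ = 1) (H : ℕ) (F : List X → (X → ℝ) → ℝ)
    (hF : ∀ h, ConcaveOn ℝ (Set.Ici 0) (F h)) (c : X → List X → ℝ) (A : ℝ)
    (step : ∀ r h, h.length < H → 0 < p.mass (r :: h) →
      F (r :: h) (p.Mh (r :: h)) + c r h ≤ F h (p.Mo r h) + A * ∑ y, p.nu r h y * dist y r)
    (pos : ∀ h, 0 ≤ F h (p.Mh h)) :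
    p.tot H c ≤ F [] (p.Mh []) + A * p.cost H := by
  have h1 := p.amort hP H F hF p.at_
    (fun ξ t y => sum_nonneg fun i _ => by split_ifs <;> norm_num)
    (fun r h => c r h + -A * ∑ y, p.nu r h y * dist y r)
    (fun r h h1 h2 => by
      have := step r h h1 h2
      change F (r :: h) (p.Mh (r :: h)) + _ ≤ F h (p.Mo r h)
      linarith) (fun h _ => pos h)
  rw [tot_add, tot_mul, tot_nu] at h1
  change _ ≤ F [] (p.Mh []) at h1
  linarith

/-! ### part c -/

theorem U_le_of_couplings_min {A : Type*} [Fintype A] {ν : A → ℝ} (hν : ∀ b, 0 ≤ ν b) (B : A → ℝ) :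
    ∃ b : Option A, (∀ a, 0 < ∑ b, ν b → 0 < ν (b.getD a)) ∧
      ∀ a, (∑ b, ν b) * B (b.getD a) ≤ ∑ b, ν b * B b := by
  classical
  rcases (univ.filter fun b => 0 < ν b).eq_empty_or_nonempty with h | h
  · have : ν = fun _ => 0 := funext fun b => ((hν b).eq_or_lt.resolve_right
      (filter_eq_empty_iff.1 h (mem_univ b))).symm
    exact ⟨none, by simp [this]⟩
  obtain ⟨b, hb, h2⟩ := exists_min_image _ B h
  refine ⟨some b, fun _ _ => (mem_filter.1 hb).2, fun _ => ?_⟩
  rw [sum_mul]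
  refine sum_le_sum fun b' _ => ?_
  rcases (hν b').eq_or_lt with h3 | h3
  · simp [← h3]
  exact mul_le_mul_of_nonneg_left (h2 b' (mem_filter.2 ⟨mem_univ _, h3⟩)) h3.le

open Classical in
theorem U_le_of_couplings (hk : 0 < k) (H : ℕ) {A : Type*} [Fintype A]
    (conf : List X → A → Fin k → X) (G : List X → (A → ℝ) → Prop) (c : X → List X → ℝ)
    (hG : ∀ h μ, G h μ → (∀ a, 0 ≤ μ a) ∧ ∑ a, μ a = 1)
    (step : ∀ r h μ, h.length < H → 0 < p.mass (r :: h) → G h μ → ∃ ν : A → A → ℝ,
      (∀ a b, 0 ≤ ν a b) ∧ (∀ a, ∑ b, ν a b = μ a) ∧ G (r :: h) (fun b => ∑ a, ν a b) ∧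
      (∀ a b, 0 < ν a b → ∃ i, conf (r :: h) b i = r) ∧
      ∑ a, ∑ b, ν a b * ∑ i, dist (conf h a i) (conf (r :: h) b i) ≤ c r h)
    (a₀ : A) (h0 : G [] fun a => if a = a₀ then 1 else 0) :
    U p.σ H p.P 0 (conf [] a₀) ≤ p.tot H c := by
  have hW : ∀ h ξ, 0 ≤ p.W h ξ := fun h ξ => by
    rw [W_eq]
    split_ifs
    exacts [p.P0 ξ, le_rfl]
  suffices key : ∀ m h μ, h.length + m = H → G h μ → ∑ a, μ a * U p.σ m (p.W h) h.length (conf h a) ≤
      ∑ ξ, p.W h ξ * ∑ u ∈ range m, c (p.σ ξ (h.length + u)) (p.hist ξ (h.length + u)) by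
    simpa [W, tot] using key H [] _ (zero_add H) h0
  intro m
  induction m with
  | zero => simp [U]
  | succ m ih =>
    intro h μ hm hμ
    have hr : ∀ r, ∃ b : A → A, (0 < p.mass (r :: h) → ∀ a, 0 < μ a → ∃ i, conf (r :: h) (b a) i = r) ∧
        ∑ a, μ a * (U p.σ m (p.W (r :: h)) (h.length + 1) (conf (r :: h) (b a)) +
          p.mass (r :: h) * ∑ i, dist (conf h a i) (conf (r :: h) (b a) i)) ≤ ∑ ξ, p.W (r :: h) ξ *
            ∑ u ∈ range (m + 1), c (p.σ ξ (h.length + u)) (p.hist ξ (h.length + u)) := fun r => by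
      rcases (show 0 ≤ p.mass (r :: h) from sum_nonneg fun ξ _ => hW _ ξ).eq_or_lt with h1 | h1
      · have h2 : p.W (r :: h) = fun _ => 0 := funext fun ξ =>
          (sum_eq_zero_iff_of_nonneg fun ξ _ => hW _ ξ).1 h1.symm ξ (mem_univ _)
        exact ⟨id, fun h3 => absurd h1 h3.ne, by simp [← h1, h2, U_zero]⟩
      obtain ⟨ν, n1, n2, n3, n4, n5⟩ := step r h μ (by omega) h1 hμ
      choose b b1 b2 using fun a => U_le_of_couplings_min (n1 a) fun b => U p.σ m (p.W (r :: h)) (h.length + 1)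
        (conf (r :: h) b) + p.mass (r :: h) * ∑ i, dist (conf h a i) (conf (r :: h) b i)
      simp only [n2] at b1 b2
      refine ⟨fun a => (b a).getD a, fun _ a ha => n4 a _ (b1 a a ha), (sum_le_sum fun a _ => b2 a a).trans ?_⟩
      simp only [mul_add, sum_add_distrib, sum_range_succ']
      refine add_le_add ?_ ?_
      · rw [sum_comm]
        simpa only [sum_mul, List.length_cons, add_assoc, add_comm 1] using
          ih (r :: h) _ (by rw [List.length_cons]; omega) n3
      · simp only [mul_left_comm _ (p.mass _), ← mul_sum]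
        refine (mul_le_mul_of_nonneg_left n5 h1.le).trans_eq ?_
        rw [mass, sum_mul]
        refine sum_congr rfl fun ξ _ => ?_
        rw [W_eq]
        split_ifs with h2
        · obtain ⟨h3, h4⟩ := List.cons.inj h2
          rw [add_zero, h3, h4]
        · simp
    choose b b1 b2 using hr
    rw [← sum_res (σ := p.σ) h.length]
    refine le_trans ?_ (sum_le_sum fun r _ => b2 r)
    rw [sum_comm]
    refine sum_le_sum fun a _ => ?_
    rw [← mul_sum]
    rcases ((hG _ _ hμ).1 a).eq_or_lt with h1 | h1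
    · simp [← h1]
    exact mul_le_mul_of_nonneg_left (U_step (hW h) m _ _ (fun r => conf (r :: h) (b r a)) (fun _ => 1) hk
      fun r h2 => b1 r h2 a h1) h1.le

end Proc

end Crest.Agent.R314
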