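import Crest.Agent.R314.EmbHH
import Crest.Agent.R314.Post

/-!
# Row 314, part II: the credits of a king at `u` (all concave in the measure `M`)

* `Wm_end`: for `t ≥ 1/5` use `t a`; for `t < 1/5` every `y` within `r` of `x` has `39 r ≤ d(y,u) ≤ 322 r`, so
  `Hq ≥ (23/48 - 1/5)²`.
* `Ys_end`: either `Dp ≥ 5` on `B(x, r)`, or `Dp y₀ < 5` for some such `y₀` and then
  `Dp y ≥ min (d(y,y₀)/r) 16 - Dp y₀ ≥ 10` for `d(y,x) ≥ 16 r`.
* `sens_W`: `t*` a minimiser at `M'`, `s = 48 ((d(x,u)/r - 16)/48 - t*)₊`; compare with `t* + s/96` (`Hq` decreases in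
  `t`, by `≥ (s/96)²` on `B(x, s r/2)`); then `Wm a'' M'' ≤ t* a'' + Vt t* M''`, convexity of `(·)₊²`.
* `sens_Y`: `π*` a minimiser, `s = (Dp x - 4)₊ ≤ 12`; compare with `(1-ε) π* + ε δ_x`, `ε = s/16`: gain `≥ ε s/72` on
  `B(x, s r/2)`, loss `≤ 8 ε/3`, only where `d(y,x) > 4 r` and the cut-off is positive; `Ys ≤ Yp δ_x`.
-/

set_option autoImplicit false
set_option linter.unusedSectionVars false
set_option linter.unusedVariables false

namespace Crest.Agent.R314

open Finset Function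
open scoped Classical

variable {X : Type*} [MetricSpace X] [Fintype X]

/-- mass of a closed ball -/
noncomputable def Mb (M : X → ℝ) (x : X) (ρ : ℝ) : ℝ := ∑ y, if dist y x ≤ ρ then M y else 0
/-- mass of a closed annulus -/
noncomputable def Ma (M : X → ℝ) (x : X) (a b : ℝ) : ℝ := ∑ y, if a ≤ dist y x ∧ dist y x ≤ b then M y else 0
noncomputable def nf (ν : X → ℝ) (x : X) (r : ℝ) : ℝ := ∑ y, if r < dist y x then ν y else 0
noncomputable def nmin (ν : X → ℝ) (x : X) (r : ℝ) : ℝ := ∑ y, ν y * min (dist y x / r) 1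
noncomputable def nsen (ν : X → ℝ) (x : X) (r s : ℝ) : ℝ :=
  ∑ y, ν y * if dist y x ≤ r then s * (dist y x / r) else 1

noncomputable def Hq (r : ℝ) (u : X) (t : ℝ) (y : X) : ℝ :=
  clamp (323 - dist y u / r) * max ((min (dist y u / r) 64 - 16) / 48 - t) 0 ^ 2
noncomputable def Vt (r : ℝ) (u : X) (t : ℝ) (M : X → ℝ) : ℝ := 1 / 40 * ∑ y, M y * Hq r u t y
noncomputable def Wm (r : ℝ) (u : X) (a : ℝ) (M : X → ℝ) : ℝ :=
  sInf ((fun t => t * a + Vt r u t M) '' Set.Icc 0 1)
noncomputable def Dp (r : ℝ) (π : X → ℝ) (y : X) : ℝ := ∑ z, π z * min (dist y z / r) 16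
noncomputable def fp (r : ℝ) (π : X → ℝ) (y : X) : ℝ := (max (Dp r π y - 4) 0 / 12) ^ 2
noncomputable def Yp (r : ℝ) (u : X) (π M : X → ℝ) : ℝ :=
  ∑ y, M y * (clamp (410882 - dist y u / r) * fp r π y)
noncomputable def Ys (r : ℝ) (u : X) (M : X → ℝ) : ℝ := sInf ((fun π => Yp r u π M) '' stdSimplex ℝ X)

variable {r : ℝ} {u x : X} {a a' : ℝ} {M M' M'' ν : X → ℝ} {k : ℕ}

/-! ### part a -/

theorem creda_clamp (s : ℝ) : 0 ≤ clamp s ∧ clamp s ≤ 1 :=
  ⟨le_min zero_le_one (le_max_left _ _), min_le_left _ _⟩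

theorem creda_Vt_lin (r : ℝ) (u : X) (t : ℝ) (M M' : X → ℝ) (α β : ℝ) :
    Vt r u t (α • M + β • M') = α * Vt r u t M + β * Vt r u t M' := by
  simp only [Vt, Pi.add_apply, Pi.smul_apply, smul_eq_mul, mul_sum, ← sum_add_distrib]
  exact sum_congr rfl fun y _ => by ring

theorem creda_Yp_lin (r : ℝ) (u : X) (π M M' : X → ℝ) (α β : ℝ) :
    Yp r u π (α • M + β • M') = α * Yp r u π M + β * Yp r u π M' := by
  simp only [Yp, Pi.add_apply, Pi.smul_apply, smul_eq_mul, mul_sum, ← sum_add_distrib]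
  exact sum_congr rfl fun y _ => by ring

theorem Wm_min (r : ℝ) (u : X) (a : ℝ) (M : X → ℝ) : ∃ t ∈ Set.Icc (0 : ℝ) 1, Wm r u a M = t * a + Vt r u t M ∧
    ∀ t' ∈ Set.Icc (0 : ℝ) 1, Wm r u a M ≤ t' * a + Vt r u t' M := by
  have hc : Continuous fun t => t * a + Vt r u t M := by
    unfold Vt Hq
    fun_prop
  obtain ⟨t, ht, h1, h2⟩ := isCompact_Icc.exists_sInf_image_eq_and_le
    (Set.nonempty_Icc.2 (zero_le_one' ℝ)) hc.continuousOn
  exact ⟨t, ht, h1, fun t' ht' => h1.trans_le (h2 t' ht')⟩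

theorem Ys_min (r : ℝ) (u : X) (M : X → ℝ) : ∃ π ∈ stdSimplex ℝ X, Ys r u M = Yp r u π M ∧
    ∀ π' ∈ stdSimplex ℝ X, Ys r u M ≤ Yp r u π' M := by
  have hc : Continuous fun π => Yp r u π M := by
    unfold Yp fp Dp
    fun_prop
  obtain ⟨t, ht, h1, h2⟩ := (isCompact_stdSimplex ℝ X).exists_sInf_image_eq_and_le
    ⟨_, single_mem_stdSimplex ℝ u⟩ hc.continuousOn
  exact ⟨t, ht, h1, fun t' ht' => h1.trans_le (h2 t' ht')⟩

theorem Vt_nonneg (hM : ∀ y, 0 ≤ M y) (t : ℝ) : 0 ≤ Vt r u t M := by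
  refine mul_nonneg (by norm_num) (sum_nonneg fun y _ => mul_nonneg (hM y) ?_)
  exact mul_nonneg (creda_clamp _).1 (sq_nonneg _)

theorem Ys_nonneg (hM : ∀ y, 0 ≤ M y) : 0 ≤ Ys r u M := by
  obtain ⟨π, -, h, -⟩ := Ys_min r u M
  rw [h]
  exact sum_nonneg fun y _ => mul_nonneg (hM y) (mul_nonneg (creda_clamp _).1 (sq_nonneg _))

theorem Wm_nonneg (hM : ∀ y, 0 ≤ M y) (ha : 0 ≤ a) : 0 ≤ Wm r u a M := by
  obtain ⟨t, ht, h, -⟩ := Wm_min r u a M
  rw [h]
  exact add_nonneg (mul_nonneg ht.1 ha) (Vt_nonneg hM t)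

theorem Wm_le_V (r : ℝ) (u : X) (a : ℝ) (M : X → ℝ) : Wm r u a M ≤ Vt r u 0 M := by
  obtain ⟨t, ht, -, h⟩ := Wm_min r u a M
  simpa using h 0 ⟨le_rfl, zero_le_one⟩

theorem Wm_lip (r : ℝ) (u : X) (a a' : ℝ) (M : X → ℝ) : Wm r u a' M ≤ Wm r u a M + max (a' - a) 0 := by
  obtain ⟨t, ht, h, -⟩ := Wm_min r u a M
  obtain ⟨-, -, -, h'⟩ := Wm_min r u a' M
  have h1 := h' t ht
  have h2 : t * (a' - a) ≤ max (a' - a) 0 :=
    (mul_le_mul_of_nonneg_left (le_max_left _ 0) ht.1).trans
      (mul_le_of_le_one_left (le_max_right _ _) ht.2)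
  linarith

theorem V_le (hr : 0 < r) (hM : ∀ y, 0 ≤ M y) : Vt r u 0 M ≤ 1 / 40 * Ma M u (16 * r) (323 * r) := by
  refine mul_le_mul_of_nonneg_left (sum_le_sum fun y _ => ?_) (by norm_num)
  have hc := creda_clamp (323 - dist y u / r)
  split_ifs with h
  · refine mul_le_of_le_one_right (hM y) ?_
    refine mul_le_one₀ hc.2 (sq_nonneg _) (pow_le_one₀ (le_max_right _ _) (max_le ?_ zero_le_one))
    linarith [min_le_right (dist y u / r) 64]
  · have : Hq r u 0 y = 0 := by
      unfold Hq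
      rcases not_and_or.1 h with h | h
      · have h1 : dist y u / r ≤ 16 := by
          rw [div_le_iff₀ hr]
          exact (not_le.1 h).le
        rw [max_eq_right (by linarith [min_le_left (dist y u / r) 64])]
        simp
      · have h1 : 323 ≤ dist y u / r := by
          rw [le_div_iff₀ hr]
          exact (not_le.1 h).le
        unfold clamp
        rw [max_eq_left (by linarith), min_eq_right zero_le_one, zero_mul]
    rw [this, mul_zero]

theorem Vt_concave (r : ℝ) (u : X) (t : ℝ) : ConcaveOn ℝ (Set.Ici 0) (Vt r u t) := by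
  refine ⟨convex_Ici 0, fun M _ M' _ α β _ _ _ => ?_⟩
  rw [creda_Vt_lin]
  exact le_rfl

theorem Wm_concave (r : ℝ) (u : X) (a : ℝ) : ConcaveOn ℝ (Set.Ici 0) (Wm r u a) := by
  refine ⟨convex_Ici 0, fun M _ M' _ α β hα hβ hαβ => ?_⟩
  obtain ⟨t, ht, h, -⟩ := Wm_min r u a (α • M + β • M')
  obtain ⟨-, -, -, h1⟩ := Wm_min r u a M
  obtain ⟨-, -, -, h2⟩ := Wm_min r u a M'
  rw [h, creda_Vt_lin, smul_eq_mul, smul_eq_mul]
  have e : t * a = α * (t * a) + β * (t * a) := by rw [← add_mul, hαβ, one_mul]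
  have := mul_le_mul_of_nonneg_left (h1 t ht) hα
  have := mul_le_mul_of_nonneg_left (h2 t ht) hβ
  linarith

theorem WY_concave (r : ℝ) (u : X) : ConcaveOn ℝ (Set.Ici 0) fun M => Wm r u (Ys r u M) M := by
  refine ⟨convex_Ici 0, fun M _ M' _ α β hα hβ hαβ => ?_⟩
  obtain ⟨t, ht, h, -⟩ := Wm_min r u (Ys r u (α • M + β • M')) (α • M + β • M')
  obtain ⟨π, hπ, g, -⟩ := Ys_min r u (α • M + β • M')
  obtain ⟨-, -, -, h1⟩ := Wm_min r u (Ys r u M) M
  obtain ⟨-, -, -, h2⟩ := Wm_min r u (Ys r u M') M'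
  obtain ⟨-, -, -, g1⟩ := Ys_min r u M
  obtain ⟨-, -, -, g2⟩ := Ys_min r u M'
  simp only [smul_eq_mul]
  rw [h, g, creda_Vt_lin, creda_Yp_lin]
  have := mul_le_mul_of_nonneg_left (h1 t ht) hα
  have := mul_le_mul_of_nonneg_left (h2 t ht) hβ
  have := mul_le_mul_of_nonneg_left (g1 π hπ) (mul_nonneg hα ht.1)
  have := mul_le_mul_of_nonneg_left (g2 π hπ) (mul_nonneg hβ ht.1)
  linarith

/-! ### part b -/

theorem credb_clamp_one {s : ℝ} (h : 1 ≤ s) : clamp s = 1 := by
  unfold clamp
  exact min_eq_left (h.trans (le_max_right _ _))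

theorem credb_clamp_zero {s : ℝ} (h : s ≤ 0) : clamp s = 0 := by
  unfold clamp
  rw [max_eq_left h, min_eq_right zero_le_one]

theorem credb_clamp_lip {s s' δ : ℝ} (hδ : 0 ≤ δ) (h : s - s' ≤ δ) : clamp s - clamp s' ≤ δ := by
  unfold clamp
  simp only [min_def, max_def]
  split_ifs <;> linarith

theorem credb_prod {c c' g g' δ : ℝ} (hc : 0 ≤ c ∧ c ≤ 1) (hc' : 0 ≤ c' ∧ c' ≤ 1) (hg : 0 ≤ g ∧ g ≤ 1)
    (hg' : 0 ≤ g' ∧ g' ≤ 1) (hδ : 0 ≤ δ) (h1 : c - c' ≤ δ) (h2 : g - g' ≤ δ / 2) :
    c * g ^ 2 - c' * g' ^ 2 ≤ 2 * min δ 1 := by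
  have a1 : g ^ 2 ≤ 1 := pow_le_one₀ hg.1 hg.2
  have a2 : (c - c') * g ^ 2 ≤ δ :=
    (mul_le_mul_of_nonneg_right h1 (sq_nonneg g)).trans (mul_le_of_le_one_right hδ a1)
  have a3 : (g - g') * (g + g') ≤ δ := by
    have : (g - g') * (g + g') ≤ δ / 2 * (g + g') := mul_le_mul_of_nonneg_right h2 (by linarith [hg.1, hg'.1])
    nlinarith [hg.2, hg'.2]
  have a4 : c' * ((g - g') * (g + g')) ≤ δ :=
    (mul_le_mul_of_nonneg_left a3 hc'.1).trans (mul_le_of_le_one_left hδ hc'.2)
  have a5 : c * g ^ 2 ≤ 1 := mul_le_one₀ hc.2 (sq_nonneg _) a1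
  have a6 : 0 ≤ c' * g' ^ 2 := mul_nonneg hc'.1 (sq_nonneg _)
  rw [mul_min_of_nonneg _ _ (by norm_num : (0 : ℝ) ≤ 2)]
  refine le_min ?_ (by linarith)
  nlinarith

theorem credb_move (h : Mv k M' ν M'' x) (F : X → ℝ) :
    ∑ y, M'' y * F y = ∑ y, M' y * F y + ∑ y, ν y * (F x - F y) := by
  have e1 : ∑ y, M'' y * F y = ∑ y, M' y * F y - ∑ y, ν y * F y + F x := by
    simp only [h.new, add_mul, sub_mul, sum_add_distrib, sum_sub_distrib, ite_mul, one_mul, zero_mul]
    simp
  have e2 : ∑ y, ν y * (F x - F y) = F x - ∑ y, ν y * F y := by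
    simp only [mul_sub, sum_sub_distrib, ← sum_mul, h.nu1, one_mul]
  rw [e1, e2]; ring

theorem credb_gen (h : Mv k M' ν M'' x) (F : X → ℝ) (p : Prop) [Decidable p] (h0 : ∀ y, 0 ≤ F y)
    (h1 : ∀ y, F x - F y ≤ 2 * min (dist y x / r) 1) (h2 : ¬ p → F x = 0) :
    ∑ y, M'' y * F y ≤ ∑ y, M' y * F y + if p then 2 * nmin ν x r else 0 := by
  rw [credb_move h F]
  refine add_le_add le_rfl ?_
  split_ifs with hp
  · unfold nmin
    rw [mul_sum]
    refine sum_le_sum fun y _ => ?_
    have := mul_le_mul_of_nonneg_left (h1 y) (h.nu0 y)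
    linarith
  · refine sum_nonpos fun y _ => mul_nonpos_of_nonneg_of_nonpos (h.nu0 y) ?_
    rw [h2 hp]
    linarith [h0 y]

theorem credb_div_tri (hr : 0 < r) (x y z : X) : dist x z / r - dist y z / r ≤ dist y x / r := by
  rw [← sub_div]
  refine div_le_div_of_nonneg_right ?_ hr.le
  linarith [dist_triangle_left x z y]

theorem credb_Dp_bd (hr : 0 < r) {π : X → ℝ} (hπ : π ∈ stdSimplex ℝ X) (y : X) : Dp r π y ≤ 16 := by
  unfold Dp
  calc ∑ z, π z * min (dist y z / r) 16 ≤ ∑ z, π z * 16 :=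
        sum_le_sum fun z _ => mul_le_mul_of_nonneg_left (min_le_right _ _) (hπ.1 z)
    _ = 16 := by rw [← sum_mul, hπ.2, one_mul]

theorem credb_Dp_lip (hr : 0 < r) {π : X → ℝ} (hπ : π ∈ stdSimplex ℝ X) (x y : X) :
    Dp r π x - Dp r π y ≤ dist y x / r := by
  unfold Dp
  rw [← sum_sub_distrib]
  calc ∑ z, (π z * min (dist x z / r) 16 - π z * min (dist y z / r) 16) ≤ ∑ z, π z * (dist y x / r) := by
        refine sum_le_sum fun z _ => ?_
        rw [← mul_sub]
        refine mul_le_mul_of_nonneg_left ?_ (hπ.1 z)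
        have h1 := credb_div_tri hr x y z
        have h2 : 0 ≤ dist y x / r := div_nonneg dist_nonneg hr.le
        simp only [min_def]
        split_ifs <;> linarith
    _ = dist y x / r := by rw [← sum_mul, hπ.2, one_mul]

theorem credb_Dp_add (hr : 0 < r) {π : X → ℝ} (hπ : π ∈ stdSimplex ℝ X) (x y : X) :
    min (dist y x / r) 16 ≤ Dp r π x + Dp r π y := by
  unfold Dp
  rw [← sum_add_distrib]
  calc min (dist y x / r) 16 = ∑ z, π z * min (dist y x / r) 16 := by rw [← sum_mul, hπ.2, one_mul]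
    _ ≤ _ := by
        refine sum_le_sum fun z _ => ?_
        rw [← mul_add]
        refine mul_le_mul_of_nonneg_left ?_ (hπ.1 z)
        have h1 : dist y x / r ≤ dist x z / r + dist y z / r := by
          rw [← add_div]
          refine div_le_div_of_nonneg_right ?_ hr.le
          linarith [dist_triangle_right y x z]
        have h2 : 0 ≤ dist x z / r := div_nonneg dist_nonneg hr.le
        have h3 : 0 ≤ dist y z / r := div_nonneg dist_nonneg hr.le
        simp only [min_def]
        split_ifs <;> linarith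

theorem Wm_end (hr : 0 < r) (hM : ∀ y, 0 ≤ M y) (ha : 0 ≤ a) (h40 : 40 * r < dist u x) (h321 : dist u x ≤ 321 * r) :
    min (a / 5) (Mb M x r / 520) ≤ Wm r u a M := by
  obtain ⟨t, ht, h, -⟩ := Wm_min r u a M
  rw [h]
  by_cases h5 : 1 / 5 ≤ t
  · refine (min_le_left _ _).trans ?_
    have := Vt_nonneg (r := r) (u := u) hM t
    nlinarith
  · refine (min_le_right _ _).trans ?_
    have h0 : 0 ≤ t * a := mul_nonneg ht.1 ha
    have h1 : Mb M x r / 520 ≤ Vt r u t M := by
      unfold Mb Vt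
      rw [mul_sum, sum_div]
      refine sum_le_sum fun y _ => ?_
      split_ifs with hy
      · have d1 : 39 ≤ dist y u / r := by
          rw [le_div_iff₀ hr]
          linarith [dist_triangle_left u x y]
        have d2 : dist y u / r ≤ 322 := by
          rw [div_le_iff₀ hr]
          linarith [dist_triangle_right y u x]
        have d3 : 39 ≤ min (dist y u / r) 64 := le_min d1 (by norm_num)
        have d4 : 67 / 240 ≤ max ((min (dist y u / r) 64 - 16) / 48 - t) 0 :=
          le_max_of_le_left (by linarith [not_le.1 h5])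
        have d5 : (67 / 240 : ℝ) ^ 2 ≤ Hq r u t y := by
          unfold Hq
          rw [credb_clamp_one (by linarith), one_mul]
          exact pow_le_pow_left₀ (by norm_num) d4 2
        have := mul_le_mul_of_nonneg_left d5 (hM y)
        have := hM y
        nlinarith
      · rw [zero_div]
        exact mul_nonneg (by norm_num) (mul_nonneg (hM y) (mul_nonneg (creda_clamp _).1 (sq_nonneg _)))
    linarith

theorem Ys_end (hr : 0 < r) (hM : ∀ y, 0 ≤ M y) (h321 : dist u x ≤ 321 * r) :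
    min (Ma M x (16 * r) (410560 * r) / 4) (Mb M x r / 144) ≤ Ys r u M := by
  obtain ⟨π, hπ, h, -⟩ := Ys_min r u M
  rw [h]
  have hnn : ∀ y, 0 ≤ M y * (clamp (410882 - dist y u / r) * fp r π y) := fun y =>
    mul_nonneg (hM y) (mul_nonneg (creda_clamp _).1 (sq_nonneg _))
  have hcl : ∀ y, dist y x ≤ 410560 * r → clamp (410882 - dist y u / r) = 1 := by
    intro y hy
    have d2 : dist y u / r ≤ 410881 := by
      rw [div_le_iff₀ hr]
      linarith [dist_triangle_right y u x]
    exact credb_clamp_one (by linarith)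
  by_cases hA : ∀ y, dist y x ≤ r → 5 ≤ Dp r π y
  · refine (min_le_right _ _).trans ?_
    unfold Mb Yp
    rw [sum_div]
    refine sum_le_sum fun y _ => ?_
    split_ifs with hy
    · rw [hcl y (by linarith), one_mul]
      have d4 : 1 / 12 ≤ max (Dp r π y - 4) 0 / 12 :=
        div_le_div_of_nonneg_right (le_max_of_le_left (by linarith [hA y hy])) (by norm_num)
      have d5 : (1 / 12 : ℝ) ^ 2 ≤ fp r π y := pow_le_pow_left₀ (by norm_num) d4 2
      have := mul_le_mul_of_nonneg_left d5 (hM y)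
      linarith
    · rw [zero_div]; exact hnn y
  · refine (min_le_left _ _).trans ?_
    obtain ⟨y₀, hy₀⟩ := not_forall.1 hA
    obtain ⟨hy1, hy2⟩ := Classical.not_imp.1 hy₀
    unfold Ma Yp
    rw [sum_div]
    refine sum_le_sum fun y _ => ?_
    split_ifs with hy
    · rw [hcl y hy.2, one_mul]
      have d1 : 15 ≤ dist y y₀ / r := by
        rw [le_div_iff₀ hr]
        linarith [dist_triangle y y₀ x, hy.1]
      have d2 := credb_Dp_add hr hπ y₀ y
      have d3 : 15 ≤ min (dist y y₀ / r) 16 := le_min d1 (by norm_num)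
      have d4 : 6 / 12 ≤ max (Dp r π y - 4) 0 / 12 :=
        div_le_div_of_nonneg_right (le_max_of_le_left (by linarith [not_le.1 hy2])) (by norm_num)
      have d5 : (6 / 12 : ℝ) ^ 2 ≤ fp r π y := pow_le_pow_left₀ (by norm_num) d4 2
      have := mul_le_mul_of_nonneg_left d5 (hM y)
      linarith
    · rw [zero_div]; exact hnn y

theorem credd_U (hr : 0 < r) (M : X → ℝ) (x : X) : Mb M x (4096 ^ 2 * r) - Mb M x r =
    ∑ y, M y * if r < dist y x ∧ dist y x ≤ 4096 ^ 2 * r then 1 else 0 := by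
  unfold Mb
  rw [← sum_sub_distrib]
  refine sum_congr rfl fun y _ => ?_
  by_cases h1 : dist y x ≤ r
  · rw [if_pos h1, if_pos (by linarith), if_neg fun h => not_lt.2 h1 h.1]; ring
  · by_cases h2 : dist y x ≤ 4096 ^ 2 * r
    · rw [if_pos h2, if_neg h1, if_pos ⟨not_le.1 h1, h2⟩]; ring
    · rw [if_neg h2, if_neg h1, if_neg fun h => h2 h.2]; ring

theorem credd_single (r : ℝ) (x y : X) : Dp r (Pi.single x 1) y = min (dist y x / r) 16 := by
  unfold Dp
  rw [sum_eq_single x (fun z _ hz => by simp [hz]) (by simp)]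
  simp

theorem credd_mix (r ε : ℝ) (π : X → ℝ) (x y : X) :
    Dp r ((1 - ε) • π + ε • (Pi.single x 1 : X → ℝ)) y = (1 - ε) * Dp r π y + ε * min (dist y x / r) 16 := by
  rw [← credd_single]
  simp only [Dp, Pi.add_apply, Pi.smul_apply, smul_eq_mul, mul_sum, ← sum_add_distrib]
  exact sum_congr rfl fun z _ => by ring

theorem credd_le16 (r : ℝ) {π : X → ℝ} (hπ : π ∈ stdSimplex ℝ X) (y : X) : Dp r π y ≤ 16 := by
  calc Dp r π y ≤ ∑ z, π z * 16 :=
        sum_le_sum fun z _ => mul_le_mul_of_nonneg_left (min_le_right _ _) (hπ.1 z)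
    _ = 16 := by rw [← sum_mul, hπ.2, one_mul]

theorem credd_lip (hr : 0 < r) {π : X → ℝ} (hπ : π ∈ stdSimplex ℝ X) (x y : X) :
    Dp r π x ≤ Dp r π y + dist y x / r := by
  calc Dp r π x ≤ ∑ z, π z * (min (dist y z / r) 16 + dist y x / r) := by
        refine sum_le_sum fun z _ => mul_le_mul_of_nonneg_left ?_ (hπ.1 z)
        have h1 : dist x z / r ≤ dist y z / r + dist y x / r := by
          rw [← add_div]
          exact div_le_div_of_nonneg_right (by linarith [dist_triangle_left x z y]) hr.le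
        have h2 : 0 ≤ dist y x / r := by positivity
        rcases le_total (dist y z / r) 16 with h | h
        · rw [min_eq_left h]; exact (min_le_left _ _).trans h1
        · rw [min_eq_right h]; linarith [min_le_right (dist x z / r) 16]
    _ = _ := by
        simp only [mul_add, sum_add_distrib, ← sum_mul, hπ.2, one_mul]; rfl

theorem credd_cut (hr : 0 < r) (hx : dist u x ≤ 40 * r) {y : X} (hy : dist y x / r ≤ 6) :
    clamp (410882 - dist y u / r) = 1 := by
  rw [div_le_iff₀ hr] at hy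
  have h1 : dist y u / r ≤ 46 := by
    rw [div_le_iff₀ hr]
    linarith [dist_triangle_right y u x]
  exact min_eq_left (le_max_of_le_right (by linarith))

theorem credd_far (hr : 0 < r) (hx : dist u x ≤ 40 * r) (y : X) :
    clamp (410882 - dist y u / r) * (max (min (dist y x / r) 16 - 4) 0 / 12) ^ 2 ≤
      if r < dist y x ∧ dist y x ≤ 4096 ^ 2 * r then 1 else 0 := by
  have hc := creda_clamp (410882 - dist y u / r)
  split_ifs with h
  · refine mul_le_one₀ hc.2 (sq_nonneg _) (pow_le_one₀ (by positivity) ?_)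
    rw [div_le_one (by norm_num)]
    exact max_le (by linarith [min_le_right (dist y x / r) 16]) (by norm_num)
  · rcases not_and_or.1 h with h | h
    · have h1 : dist y x / r ≤ 1 := (div_le_one hr).2 (not_lt.1 h)
      rw [max_eq_right (by linarith [min_le_left (dist y x / r) 16])]
      simp
    · have h1 : 410882 ≤ dist y u / r := by
        rw [le_div_iff₀ hr]
        linarith [dist_triangle y u x, not_le.1 h]
      unfold clamp
      rw [max_eq_left (by linarith), min_eq_right zero_le_one, zero_mul]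

theorem credd_convex {ε : ℝ} (h0 : 0 ≤ ε) (h1 : ε ≤ 1) (D m : ℝ) :
    (max ((1 - ε) * D + ε * m - 4) 0 / 12) ^ 2 ≤
      (max (D - 4) 0 / 12) ^ 2 + ε * (max (m - 4) 0 / 12) ^ 2 := by
  set p := max (D - 4) 0
  set q := max (m - 4) 0
  have hp : D - 4 ≤ p := le_max_left _ _
  have hq : m - 4 ≤ q := le_max_left _ _
  have hp0 : 0 ≤ p := le_max_right _ _
  have hq0 : 0 ≤ q := le_max_right _ _
  have h1' : 0 ≤ 1 - ε := by linarith
  have e1 : max ((1 - ε) * D + ε * m - 4) 0 ≤ (1 - ε) * p + ε * q :=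
    max_le (by nlinarith) (by positivity)
  have e2 := pow_le_pow_left₀ (le_max_right _ _) e1 2
  rw [div_pow, div_pow, div_pow]
  nlinarith [mul_nonneg (mul_nonneg h0 h1') (sq_nonneg (p - q)), mul_nonneg h0 (sq_nonneg p)]

/-- `Hq ≤ 1` is `2/r`-Lipschitz and vanishes at `x` if `x` is out of range -/
theorem gen_V (hr : 0 < r) (h : Mv k M' ν M'' x) {t : ℝ} (ht : 0 ≤ t) :
    Vt r u t M'' ≤ Vt r u t M' + if dist u x ≤ 323 * r then 2 * nmin ν x r else 0 := by
  have hg : ∀ y, 0 ≤ max ((min (dist y u / r) 64 - 16) / 48 - t) 0 ∧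
      max ((min (dist y u / r) 64 - 16) / 48 - t) 0 ≤ 1 := fun y =>
    ⟨le_max_right _ _, max_le (by linarith [min_le_right (dist y u / r) 64]) zero_le_one⟩
  have key := credb_gen (r := r) h (Hq r u t) (dist u x ≤ 323 * r)
    (fun y => mul_nonneg (creda_clamp _).1 (sq_nonneg _)) (fun y => by
      have h2 : 0 ≤ dist y x / r := div_nonneg dist_nonneg hr.le
      have h3 := credb_div_tri hr x y u
      have h4 := credb_div_tri hr y x u
      rw [dist_comm x y] at h4
      refine credb_prod (creda_clamp _) (creda_clamp _) (hg x) (hg y) h2 (credb_clamp_lip h2 (by linarith)) ?_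
      simp only [min_def, max_def]
      split_ifs <;> linarith) (fun hp => by
      have : 323 ≤ dist x u / r := by
        rw [le_div_iff₀ hr, dist_comm]
        exact (not_le.1 hp).le
      unfold Hq
      rw [credb_clamp_zero (by linarith), zero_mul])
  have h0 : (0 : ℝ) ≤ if dist u x ≤ 323 * r then 2 * nmin ν x r else 0 := by
    split_ifs
    · exact mul_nonneg (by norm_num) (sum_nonneg fun y _ => mul_nonneg (h.nu0 y)
        (le_min (div_nonneg dist_nonneg hr.le) zero_le_one))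
    · exact le_rfl
  unfold Vt
  linarith

theorem gen_W (hr : 0 < r) (h : Mv k M' ν M'' x) :
    Wm r u a M'' ≤ Wm r u a M' + if dist u x ≤ 323 * r then 2 * nmin ν x r else 0 := by
  obtain ⟨t, ht, h1, -⟩ := Wm_min r u a M'
  obtain ⟨-, -, -, h2⟩ := Wm_min r u a M''
  have := h2 t ht
  have := gen_V (u := u) hr h ht.1
  linarith

theorem gen_Y (hr : 0 < r) (h : Mv k M' ν M'' x) :
    Ys r u M'' ≤ Ys r u M' + if dist u x ≤ 410882 * r then 2 * nmin ν x r else 0 := by
  obtain ⟨π, hπ, h1, -⟩ := Ys_min r u M'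
  obtain ⟨-, -, -, h2⟩ := Ys_min r u M''
  have h3 := h2 π hπ
  have hg : ∀ y, 0 ≤ max (Dp r π y - 4) 0 / 12 ∧ max (Dp r π y - 4) 0 / 12 ≤ 1 := fun y =>
    ⟨div_nonneg (le_max_right _ _) (by norm_num), by
      rw [div_le_one (by norm_num)]
      exact max_le (by linarith [credb_Dp_bd hr hπ y]) (by norm_num)⟩
  have key := credb_gen (r := r) h (fun y => clamp (410882 - dist y u / r) * fp r π y) (dist u x ≤ 410882 * r)
    (fun y => mul_nonneg (creda_clamp _).1 (sq_nonneg _)) (fun y => by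
      have h2 : 0 ≤ dist y x / r := div_nonneg dist_nonneg hr.le
      have h3 := credb_Dp_lip hr hπ x y
      have h4 := credb_div_tri hr y x u
      rw [dist_comm x y] at h4
      refine credb_prod (creda_clamp _) (creda_clamp _) (hg x) (hg y) h2 (credb_clamp_lip h2 (by linarith)) ?_
      simp only [max_def]
      split_ifs <;> linarith) (fun hp => by
      have : 410882 ≤ dist x u / r := by
        rw [le_div_iff₀ hr, dist_comm]
        exact (not_le.1 hp).le
      rw [credb_clamp_zero (by linarith), zero_mul])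
  rw [h1]
  exact h3.trans key

/-! ### part c -/

theorem credc_Hq {y : X} (h : dist y u / r ≤ 64) (t : ℝ) :
    Hq r u t y = max ((dist y u / r - 16) / 48 - t) 0 ^ 2 := by
  rw [Hq, clamp, min_eq_left h, max_eq_right (by linarith), min_eq_left (by linarith), one_mul]

theorem credc_anti (y : X) {t t' : ℝ} (h : t ≤ t') : Hq r u t' y ≤ Hq r u t y :=
  mul_le_mul_of_nonneg_left (pow_le_pow_left₀ (le_max_right _ _) (max_le_max_right _ (by linarith)) 2)
    (creda_clamp _).1

theorem credc_new (h : Mv k M' ν M'' x) (f : X → ℝ) :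
    ∑ y, M'' y * f y = ∑ y, M' y * f y + ∑ y, ν y * (f x - f y) := by
  simp only [h.new, add_mul, sub_mul, mul_sub, sum_add_distrib, sum_sub_distrib, ← sum_mul, h.nu1,
    ite_mul, one_mul, zero_mul, sum_ite_eq', mem_univ, if_true]
  ring

theorem credc_dist (hr : 0 < r) (y : X) :
    dist y u / r ≤ dist x u / r + dist y x / r ∧ dist x u / r ≤ dist y u / r + dist y x / r := by
  rw [← add_div, ← add_div, div_le_div_iff_of_pos_right hr, div_le_div_iff_of_pos_right hr]
  constructor
  · linarith [dist_triangle y x u]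
  · linarith [dist_triangle x y u, dist_comm x y]

theorem sens_W (hr : 0 < r) (h : Mv k M' ν M'' x) (ha : 0 ≤ a) (hx : dist u x ≤ 40 * r) :
    ∃ s, 0 ≤ s ∧ s ≤ 24 ∧ s * Mb M' x (s * r / 2) ≤ 3840 * a ∧ Wm r u a M'' ≤ Wm r u a M' + nsen ν x r s := by
  obtain ⟨t, ht, h1, h2⟩ := Wm_min r u a M'
  obtain ⟨-, -, -, h3⟩ := Wm_min r u a M''
  have hD : dist x u / r ≤ 40 := by rw [div_le_iff₀ hr, dist_comm]; exact hx
  have hM : ∀ y, 0 ≤ M' y := fun y => (h.nu0 y).trans (h.nule y)
  set σ := max ((dist x u / r - 16) / 48 - t) 0 with hσ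
  have hσ0 : 0 ≤ σ := le_max_right _ _
  have hσ1 : σ ≤ 1 / 2 := max_le (by linarith [ht.1]) (by norm_num)
  have hHx : Hq r u t x = σ ^ 2 := credc_Hq (by linarith) t
  refine ⟨48 * σ, by positivity, by linarith, ?_, ?_⟩
  · rcases hσ0.eq_or_lt with h0 | h0
    · rw [← h0, mul_zero, zero_mul]; positivity
    have hσ' : σ = (dist x u / r - 16) / 48 - t := by
      rcases le_total ((dist x u / r - 16) / 48 - t) 0 with h4 | h4
      · rw [hσ, max_eq_right h4] at h0; exact absurd h0 (lt_irrefl _)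
      · exact max_eq_left h4
    have h4 := h2 (t + σ / 2) ⟨by linarith [ht.1], by linarith⟩
    have h5 : σ ^ 2 / 4 * Mb M' x (48 * σ * r / 2) ≤
        ∑ y, M' y * Hq r u t y - ∑ y, M' y * Hq r u (t + σ / 2) y := by
      rw [Mb, mul_sum, ← sum_sub_distrib]
      refine sum_le_sum fun y _ => ?_
      rw [← mul_sub]
      split_ifs with hy
      · have h6 : dist y x / r ≤ 24 * σ := by rw [div_le_iff₀ hr]; linarith
        obtain ⟨h7, h8⟩ := credc_dist (u := u) (x := x) hr y
        rw [mul_comm, credc_Hq (by linarith), credc_Hq (by linarith), max_eq_left (by linarith),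
          max_eq_left (by linarith)]
        refine mul_le_mul_of_nonneg_left ?_ (hM y)
        nlinarith [mul_le_mul_of_nonneg_left
          (show σ / 2 ≤ (dist y u / r - 16) / 48 - t by linarith) hσ0]
      · rw [mul_zero]
        exact mul_nonneg (hM y) (sub_nonneg.2 (credc_anti y (by linarith)))
    rw [h1, Vt, Vt] at h4
    refine le_of_mul_le_mul_left ?_ h0
    nlinarith
  · refine (h3 t ht).trans ?_
    rw [h1, Vt, Vt, credc_new h, mul_add, ← add_assoc, nsen]
    refine add_le_add le_rfl ((mul_sum _ _ _).trans_le (sum_le_sum fun y _ => ?_))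
    rw [mul_left_comm]
    refine mul_le_mul_of_nonneg_left ?_ (h.nu0 y)
    rw [hHx]
    split_ifs with hy
    · have h6 : dist y x / r ≤ 1 := (div_le_one hr).2 hy
      have h9 : 0 ≤ dist y x / r := by positivity
      obtain ⟨h7, h8⟩ := credc_dist (u := u) (x := x) hr y
      rw [credc_Hq (by linarith)]
      have h10 := le_max_left ((dist y u / r - 16) / 48 - t) 0
      have h11 := le_max_right ((dist y u / r - 16) / 48 - t) 0
      generalize max ((dist y u / r - 16) / 48 - t) 0 = b at *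
      have h12 : σ - b ≤ dist y x / r / 48 := by
        rw [sub_le_iff_le_add]
        exact max_le (by linarith) (by linarith)
      nlinarith [mul_le_mul_of_nonneg_left h12 hσ0, sq_nonneg (σ - b), mul_nonneg hσ0 h9]
    · have : 0 ≤ Hq r u t y := mul_nonneg (creda_clamp _).1 (sq_nonneg _)
      nlinarith

/-! ### part d -/

theorem sens_Y (hr : 0 < r) (h : Mv k M' ν M'' x) (hx : dist u x ≤ 40 * r) :
    Ys r u M' ≤ Mb M' x (4096 ^ 2 * r) - Mb M' x r ∧
    ∃ s, 0 ≤ s ∧ s ≤ 24 ∧ s * Mb M' x (s * r / 2) ≤ 192 * (Mb M' x (4096 ^ 2 * r) - Mb M' x r) ∧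
      Ys r u M'' ≤ Ys r u M' + nsen ν x r s := by
  have hM : ∀ y, 0 ≤ M' y := fun y => (h.nu0 y).trans (h.nule y)
  obtain ⟨π, hπ, hmin, hle⟩ := Ys_min r u M'
  have hU := credd_U hr M' x
  have hU0 : 0 ≤ Mb M' x (4096 ^ 2 * r) - Mb M' x r := by
    rw [hU]
    exact sum_nonneg fun y _ => mul_nonneg (hM y) (by split_ifs <;> norm_num)
  constructor
  · refine (hle _ (single_mem_stdSimplex ℝ x)).trans ?_
    rw [hU]
    refine sum_le_sum fun y _ => mul_le_mul_of_nonneg_left ?_ (hM y)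
    rw [fp, credd_single]
    exact credd_far hr hx y
  set s := max (Dp r π x - 4) 0 with hs
  have hs0 : 0 ≤ s := le_max_right _ _
  have hs12 : s ≤ 12 := max_le (by linarith [credd_le16 r hπ x]) (by norm_num)
  refine ⟨s, hs0, by linarith, ?_, ?_⟩
  · rcases hs0.eq_or_lt with h0 | h0
    · rw [← h0, zero_mul]; positivity
    have hsx : Dp r π x = 4 + s := by
      rcases le_total (Dp r π x - 4) 0 with h1 | h1
      · rw [max_eq_right h1] at hs; linarith
      · rw [max_eq_left h1] at hs; linarith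
    have hε : 0 < s / 16 := by positivity
    have hπ' : (1 - s / 16) • π + (s / 16) • (Pi.single x 1 : X → ℝ) ∈ stdSimplex ℝ X :=
      convex_stdSimplex ℝ X hπ (single_mem_stdSimplex ℝ x) (by linarith) hε.le (by ring)
    have h1 := hle _ hπ'
    rw [hmin] at h1
    have h2 : Yp r u ((1 - s / 16) • π + (s / 16) • (Pi.single x 1 : X → ℝ)) M' ≤
        Yp r u π M' - s / 16 * (s / 72) * Mb M' x (s * r / 2) +
          s / 16 * (Mb M' x (4096 ^ 2 * r) - Mb M' x r) := by
      rw [hU]
      unfold Yp Mb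
      rw [mul_sum, mul_sum, ← sum_sub_distrib, ← sum_add_distrib]
      refine sum_le_sum fun y _ => ?_
      have hc := creda_clamp (410882 - dist y u / r)
      have hind : (0 : ℝ) ≤ if r < dist y x ∧ dist y x ≤ 4096 ^ 2 * r then 1 else 0 := by
        split_ifs <;> norm_num
      rw [fp, fp, credd_mix]
      by_cases hy : dist y x ≤ s * r / 2
      · rw [if_pos hy]
        have hd : dist y x / r ≤ s / 2 := by rw [div_le_iff₀ hr]; linarith
        rw [credd_cut hr hx (hd.trans (by linarith))]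
        have e1 := credd_lip hr hπ x y
        have e2 := min_le_left (dist y x / r) 16
        have e3 : max ((1 - s / 16) * Dp r π y + s / 16 * min (dist y x / r) 16 - 4) 0 ≤
            Dp r π y - 4 - s / 4 := max_le (by nlinarith) (by linarith)
        have e4 := pow_le_pow_left₀ (le_max_right _ _) e3 2
        rw [max_eq_left (by linarith : 0 ≤ Dp r π y - 4)]
        have e5 : (max ((1 - s / 16) * Dp r π y + s / 16 * min (dist y x / r) 16 - 4) 0 / 12) ^ 2 ≤
            ((Dp r π y - 4) / 12) ^ 2 - s / 16 * (s / 72) := by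
          rw [div_pow, div_pow]
          nlinarith
        have e6 := mul_le_mul_of_nonneg_left e5 (hM y)
        have e7 := mul_nonneg hε.le (mul_nonneg (hM y) hind)
        linarith
      · rw [if_neg hy]
        have e1 := credd_convex (ε := s / 16) hε.le (by linarith) (Dp r π y) (min (dist y x / r) 16)
        have e2 := credd_far hr hx y
        have e3 := mul_le_mul_of_nonneg_left e1 hc.1
        have e4 := mul_le_mul_of_nonneg_left e2 hε.le
        have e5 : clamp (410882 - dist y u / r) *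
            (max ((1 - s / 16) * Dp r π y + s / 16 * min (dist y x / r) 16 - 4) 0 / 12) ^ 2 ≤
            clamp (410882 - dist y u / r) * (max (Dp r π y - 4) 0 / 12) ^ 2 +
              s / 16 * if r < dist y x ∧ dist y x ≤ 4096 ^ 2 * r then 1 else 0 := by linarith
        have e6 := mul_le_mul_of_nonneg_left e5 (hM y)
        linarith
    have h3 : s / 16 * (s * Mb M' x (s * r / 2)) ≤
        s / 16 * (72 * (Mb M' x (4096 ^ 2 * r) - Mb M' x r)) := by linarith
    exact (le_of_mul_le_mul_left h3 hε).trans (mul_le_mul_of_nonneg_right (by norm_num) hU0)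
  · obtain ⟨-, -, -, hle'⟩ := Ys_min r u M''
    refine (hle' π hπ).trans ?_
    rw [hmin]
    set g : X → ℝ := fun y => clamp (410882 - dist y u / r) * fp r π y with hg
    have e1 : Yp r u π M'' = Yp r u π M' + ∑ y, ν y * (g x - g y) := by
      change ∑ y, M'' y * g y = ∑ y, M' y * g y + _
      simp only [h.new, add_mul, sub_mul, mul_sub, sum_add_distrib, sum_sub_distrib, ite_mul, one_mul,
        zero_mul, sum_ite_eq', mem_univ, if_true, ← sum_mul, h.nu1]
      ring
    rw [e1]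
    refine add_le_add le_rfl (sum_le_sum fun y _ => mul_le_mul_of_nonneg_left ?_ (h.nu0 y))
    have gx : g x = (s / 12) ^ 2 := by
      simp only [hg]
      rw [credd_cut hr hx (by simp), one_mul]; rfl
    rw [gx]
    split_ifs with hy
    · have hd : dist y x / r ≤ 1 := (div_le_one hr).2 hy
      have hd0 : 0 ≤ dist y x / r := by positivity
      have gy : g y = (max (Dp r π y - 4) 0 / 12) ^ 2 := by
        simp only [hg]
        rw [credd_cut hr hx (hd.trans (by norm_num)), one_mul]; rfl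
      have e2 := credd_lip hr hπ x y
      have e3 : s ≤ max (Dp r π y - 4) 0 + dist y x / r :=
        max_le (by linarith [le_max_left (Dp r π y - 4) 0]) (by positivity)
      have e4 := le_max_right (Dp r π y - 4) 0
      rw [gy, div_pow, div_pow]
      nlinarith [sq_nonneg (s - max (Dp r π y - 4) 0), mul_le_mul_of_nonneg_left e3 hs0,
        mul_nonneg hs0 hd0]
    · have e2 : 0 ≤ g y := mul_nonneg (creda_clamp _).1 (sq_nonneg _)
      have e3 : (s / 12) ^ 2 ≤ 1 := pow_le_one₀ (by positivity) (by linarith)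
      linarith

end Crest.Agent.R314
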