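import Crest.Agent.R314.EmbCred

/-!
# Row 314, part II: heavy scales, classes, and the sums over scales

* `lam_sum`: non-heavy implies `2^cls ≤ 101 log (μ/inner)` (`cls = 0`: `log 1.01 ≥ 1/101`; `cls = i + 1`:
  `μ > inner · 2^(2^i)`), and `∑ j, log (m (j+2) / m j) ≤ 2 log k` as `1 ≤ m ≤ k` is monotone.
* `sens_total`: see (Sum) in `notes314/II.md`.  `l₀` least with `2 d̄ ≤ rr l₀`; `m l = Mb M' x (rr l) ≥ 1/2` for
  `l ≥ l₀` (Markov, `ν ≤ M'`).  `sens_real` is the statement on real sequences.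
-/

set_option autoImplicit false
set_option linter.unusedSectionVars false
set_option linter.unusedVariables false

namespace Crest.Agent.R314

open Finset Function
open scoped Classical

variable {X : Type*} [MetricSpace X] [Fintype X]

noncomputable def rr (r₀ : ℝ) (j : ℕ) : ℝ := r₀ * 4096 ^ j

def heavy (r : ℝ) (M : X → ℝ) (x : X) : Prop := Mb M x (4096 ^ 2 * r) ≤ 101 / 100 * Mb M x r

noncomputable def cls (k : ℕ) (r : ℝ) (M : X → ℝ) (x : X) : ℕ :=
  Nat.find (⟨k, Or.inl le_rfl⟩ : ∃ i : ℕ, k ≤ i ∨ Mb M x (4096 ^ 2 * r) ≤ Mb M x r * 2 ^ (2 ^ i))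

noncomputable def lam (k : ℕ) (r : ℝ) (M : X → ℝ) (x : X) : ℝ := if heavy r M x then 0 else 2 ^ cls k r M x

variable {r r₀ : ℝ} {x : X} {M' M'' ν : X → ℝ} {k : ℕ}

/-! ### part a -/

theorem cls_le (k : ℕ) (r : ℝ) (M : X → ℝ) (x : X) : cls k r M x ≤ k := by
  exact Nat.find_min' _ (Or.inl le_rfl)

theorem Mv.new_nonneg (h : Mv k M' ν M'' x) (y : X) : 0 ≤ M'' y := by
  rw [h.new]
  have := h.nule y
  split_ifs <;> linarith

theorem Mv.old_nonneg (h : Mv k M' ν M'' x) (y : X) : 0 ≤ M' y := by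
  exact (h.nu0 y).trans (h.nule y)

theorem Mv.Mb_new (h : Mv k M' ν M'' x) (hr : 0 ≤ r) : Mb M'' x r = Mb M' x r + nf ν x r := by
  have h1 : ∑ y, (if y = x then (1 : ℝ) else 0) = ∑ y, ν y := by simp [h.nu1]
  have h2 : ∀ y, (if dist y x ≤ r then M'' y else 0) = (if dist y x ≤ r then M' y else 0) +
      (if r < dist y x then ν y else 0) + ((if y = x then 1 else 0) - ν y) := by
    intro y
    rw [h.new]
    by_cases hy : dist y x ≤ r
    · rw [if_pos hy, if_pos hy, if_neg (not_lt.2 hy)]; ring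
    · have : y ≠ x := by
        rintro rfl
        exact hy (by simpa using hr)
      rw [if_neg hy, if_neg hy, if_pos (not_le.1 hy), if_neg this]; ring
  simp only [Mb, nf, h2, sum_add_distrib, sum_sub_distrib, h1, sub_self, add_zero]

theorem Mv.Mb_bd (h : Mv k M' ν M'' x) (hr : 0 ≤ r) : 1 ≤ Mb M'' x r ∧ Mb M'' x r ≤ k := by
  constructor
  · refine le_trans ?_ (single_le_sum (f := fun y => if dist y x ≤ r then M'' y else 0)
      (fun y _ => by split_ifs <;> simp [h.new_nonneg]) (mem_univ x))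
    have := h.nule x
    simp only [dist_self, if_pos hr, h.new, if_true]
    linarith
  · calc _ ≤ ∑ y, M'' y := sum_le_sum fun y _ => by split_ifs <;> simp [h.new_nonneg]
      _ = k := by simp [h.new, sum_add_distrib, sum_sub_distrib, h.nu1, h.tot]

theorem Mb_mono {M : X → ℝ} (hM : ∀ y, 0 ≤ M y) (x : X) {a b : ℝ} (h : a ≤ b) : Mb M x a ≤ Mb M x b := by
  refine sum_le_sum fun y _ => ?_
  by_cases h1 : dist y x ≤ a
  · rw [if_pos h1, if_pos (h1.trans h)]
  · rw [if_neg h1]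
    split_ifs <;> simp [hM]

theorem nf_bd (h : Mv k M' ν M'' x) (hr : 0 < r) {s : ℝ} (hs : 0 ≤ s) :
    0 ≤ nf ν x r ∧ nf ν x r ≤ 1 ∧ nf ν x r ≤ nmin ν x r ∧ nf ν x r ≤ nsen ν x r s := by
  refine ⟨sum_nonneg fun y _ => by split_ifs <;> simp [h.nu0],
    le_trans (sum_le_sum fun y _ => by split_ifs <;> simp [h.nu0]) h.nu1.le,
    sum_le_sum fun y _ => ?_, sum_le_sum fun y _ => ?_⟩
  · have := h.nu0 y
    split_ifs with h1
    · rw [min_eq_right ((one_le_div hr).2 h1.le), mul_one]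
    · positivity
  · have := h.nu0 y
    by_cases h1 : r < dist y x
    · rw [if_pos h1, if_neg (not_le.2 h1), mul_one]
    · rw [if_neg h1, if_pos (not_lt.1 h1)]
      positivity

theorem nsen_mono (h : Mv k M' ν M'' x) (hr : 0 < r) {s s' : ℝ} (hs : s ≤ s') : nsen ν x r s ≤ nsen ν x r s' := by
  refine sum_le_sum fun y _ => mul_le_mul_of_nonneg_left ?_ (h.nu0 y)
  split_ifs
  · exact mul_le_mul_of_nonneg_right hs (by positivity)
  · exact le_rfl

theorem cls_spec (h : Mv k M' ν M'' x) (hr : 0 < r) :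
    Mb M'' x (4096 ^ 2 * r) ≤ Mb M'' x r * 2 ^ (2 ^ cls k r M'' x) := by
  rcases Nat.find_spec (⟨k, Or.inl le_rfl⟩ :
    ∃ i : ℕ, k ≤ i ∨ Mb M'' x (4096 ^ 2 * r) ≤ Mb M'' x r * 2 ^ (2 ^ i)) with h1 | h1
  · have h2 : k ≤ 2 ^ (2 ^ cls k r M'' x) :=
      h1.trans (Nat.lt_two_pow_self.le.trans Nat.lt_two_pow_self.le)
    have h3 : (k : ℝ) ≤ 2 ^ (2 ^ cls k r M'' x) := by exact_mod_cast h2
    exact (h.Mb_bd (by positivity)).2.trans (h3.trans
      (le_mul_of_one_le_left (by positivity) (h.Mb_bd hr.le).1))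
  · exact h1

theorem nmin_le (h : Mv k M' ν M'' x) (hr : 0 < r) : r * nmin ν x r ≤ ∑ y, ν y * dist y x := by
  rw [nmin, mul_sum]
  refine sum_le_sum fun y _ => ?_
  rw [mul_left_comm]
  refine mul_le_mul_of_nonneg_left ?_ (h.nu0 y)
  exact (mul_le_mul_of_nonneg_left (min_le_left _ _) hr.le).trans (le_of_eq (by field_simp))

theorem nf_sum (h : Mv k M' ν M'' x) (hr : 0 < r₀) (J : ℕ) :
    ∑ j ∈ range J, rr r₀ j * nf ν x (rr r₀ j) ≤ 2 * ∑ y, ν y * dist y x := by
  have key : ∀ d : ℝ, 0 ≤ d → ∀ J, (∑ j ∈ range J, if rr r₀ j < d then rr r₀ j else 0) ≤ 2 * d ∧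
      (∑ j ∈ range J, if rr r₀ j < d then rr r₀ j else 0) ≤ rr r₀ J := by
    intro d hd J
    induction J with
    | zero => simp [rr, hd, hr.le]
    | succ J ih =>
      have h1 : 0 < rr r₀ J := by unfold rr; positivity
      have h2 : rr r₀ (J + 1) = 4096 * rr r₀ J := by unfold rr; ring
      rw [sum_range_succ, h2]
      split_ifs <;> constructor <;> linarith [ih.1, ih.2]
  simp only [nf, mul_sum]
  rw [sum_comm]
  refine sum_le_sum fun y _ => ?_
  calc _ = ν y * ∑ j ∈ range J, if rr r₀ j < dist y x then rr r₀ j else 0 := by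
        rw [mul_sum]
        exact sum_congr rfl fun j _ => by split_ifs <;> ring
    _ ≤ ν y * (2 * dist y x) := mul_le_mul_of_nonneg_left (key _ dist_nonneg J).1 (h.nu0 y)
    _ = _ := by ring

theorem lam_sum (h : Mv k M' ν M'' x) (hr : 0 < r₀) (J : ℕ) :
    ∑ j ∈ range J, lam k (rr r₀ j) M'' x ≤ 202 * Real.log (k + 1) := by
  set m : ℕ → ℝ := fun j => Mb M'' x (rr r₀ j) with hm
  have rp : ∀ j, 0 < rr r₀ j := fun j => by unfold rr; positivity
  have m1 : ∀ j, 1 ≤ m j := fun j => (h.Mb_bd (rp j).le).1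
  have mk : ∀ j, Real.log (m j) ≤ Real.log (k + 1) := fun j =>
    Real.log_le_log (by linarith [m1 j]) (by linarith [(h.Mb_bd (rp j).le).2])
  have key : ∀ j, lam k (rr r₀ j) M'' x ≤ 101 * (Real.log (m (j + 2)) - Real.log (m j)) := by
    intro j
    have e : m (j + 2) = Mb M'' x (4096 ^ 2 * rr r₀ j) := by
      simp only [hm, rr]; congr 1; ring
    have p0 : 0 < m j := by linarith [m1 j]
    have cmp : ∀ c : ℝ, 0 < c → m j * c ≤ m (j + 2) →
        Real.log c ≤ Real.log (m (j + 2)) - Real.log (m j) := fun c hc h1 => by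
      have := Real.log_le_log (by positivity) h1
      rw [Real.log_mul p0.ne' hc.ne'] at this
      linarith
    rw [lam]
    split_ifs with hh
    · have := cmp 1 one_pos (by
        rw [mul_one, e]
        exact Mb_mono h.new_nonneg x (by nlinarith [rp j]))
      rw [Real.log_one] at this
      linarith
    · rcases hc : cls k (rr r₀ j) M'' x with _ | i
      · have h1 := cmp (101 / 100) (by norm_num) (by rw [e, mul_comm]; exact (not_le.1 hh).le)
        have h2 := Real.one_sub_inv_le_log_of_pos (by norm_num : (0 : ℝ) < 101 / 100)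
        norm_num at h2 ⊢
        linarith
      · have h1 := Nat.find_min (⟨k, Or.inl le_rfl⟩ : ∃ i : ℕ, k ≤ i ∨
          Mb M'' x (4096 ^ 2 * rr r₀ j) ≤ Mb M'' x (rr r₀ j) * 2 ^ (2 ^ i)) (m := i)
          (by rw [cls] at hc; omega)
        have h2 := cmp (2 ^ (2 ^ i)) (by positivity) (by
          rw [e]; exact (not_le.1 fun h3 => h1 (Or.inr h3)).le)
        rw [Real.log_pow] at h2
        push_cast at h2
        have h3 := Real.log_two_gt_d9
        have h4 : (0 : ℝ) < 2 ^ i := by positivity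
        rw [pow_succ]
        nlinarith
  have tel : ∑ j ∈ range J, (Real.log (m (j + 2)) - Real.log (m j)) =
      Real.log (m (J + 1)) + Real.log (m J) - Real.log (m 1) - Real.log (m 0) := by
    induction J with
    | zero => simp
    | succ J ih => rw [sum_range_succ, ih]; ring
  refine (sum_le_sum fun j _ => key j).trans ?_
  rw [← mul_sum, tel]
  linarith [mk (J + 1), mk J, Real.log_nonneg (m1 1), Real.log_nonneg (m1 0)]

/-! ### part b -/

theorem embSumB_P {g : ℕ → ℝ} (hg : Monotone g) {l j : ℕ} (h : l ≤ j) :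
    (4096 : ℝ) ^ (l + 1) * (g j - g l) ≤ ∑ a ∈ range j, (4096 : ℝ) ^ (a + 1) * (g (a + 1) - g a) := by
  induction j, h using Nat.le_induction with
  | base =>
    rw [sub_self, mul_zero]
    exact sum_nonneg fun a _ => mul_nonneg (by positivity) (sub_nonneg.2 (hg (Nat.le_succ a)))
  | succ j hj ih =>
    rw [sum_range_succ]
    have h1 : (4096 : ℝ) ^ (l + 1) ≤ 4096 ^ (j + 1) := pow_le_pow_right₀ (by norm_num) (by omega)
    have h2 := mul_le_mul_of_nonneg_right h1 (sub_nonneg.2 (hg (Nat.le_succ j)))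
    simp only [Nat.succ_eq_add_one] at h2
    linarith

theorem embSumB_step {m : ℕ → ℝ} (hm : Monotone m) (h0 : 1 / 2 ≤ m 0) {s q Q A : ℝ} (hA : 1 ≤ A) {j : ℕ}
    (hs0 : 0 ≤ s) (hs : s ≤ 24) (hq : 0 ≤ q) (hQ : 0 ≤ Q)
    (hsq : ∀ l, (4096 : ℝ) ^ l ≤ s * 4096 ^ j / 2 → s * m l ≤ q) (hsum : Q + q ≤ A * (m (j + 2) + 1)) :
    s ≤ 2 / 4096 ^ j +
      3 * ((∑ a ∈ range j, (4096 : ℝ) ^ (a + 1) * (Real.log (m (a + 1)) - Real.log (m a))) / 4096 ^ j) +
      35 * (Real.log (m (j + 2)) - Real.log (m j)) + 12 * A * (Real.log (Q + q + A) - Real.log (Q + A)) := by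
  have hmp : ∀ l, 1 / 2 ≤ m l := fun l => h0.trans (hm (Nat.zero_le l))
  have hm0 : ∀ l, 0 < m l := fun l => lt_of_lt_of_le (by norm_num) (hmp l)
  have hg : Monotone fun l => Real.log (m l) := fun a b hab => Real.log_le_log (hm0 a) (hm hab)
  have hp : (0 : ℝ) < 4096 ^ j := by positivity
  have hl2 := Real.log_two_gt_d9
  set P := (∑ a ∈ range j, (4096 : ℝ) ^ (a + 1) * (Real.log (m (a + 1)) - Real.log (m a))) with hP
  have p1 : (0 : ℝ) ≤ 2 / 4096 ^ j := by positivity
  have p2 : 0 ≤ P / 4096 ^ j := by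
    have := embSumB_P hg (le_refl j)
    rw [sub_self, mul_zero] at this
    exact div_nonneg this hp.le
  have p3 : 0 ≤ Real.log (m (j + 2)) - Real.log (m j) := sub_nonneg.2 (hg (by omega))
  have p4 : q / (Q + q + A) ≤ Real.log (Q + q + A) - Real.log (Q + A) := by
    have h1 := Real.log_le_sub_one_of_pos (show 0 < (Q + A) / (Q + q + A) by positivity)
    rw [Real.log_div (by positivity) (by positivity)] at h1
    have h2 : (Q + A) / (Q + q + A) - 1 = -(q / (Q + q + A)) := by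
      field_simp
      ring
    linarith
  have p5 : 0 ≤ 12 * A * (Real.log (Q + q + A) - Real.log (Q + A)) :=
    mul_nonneg (by linarith) (le_trans (by positivity) p4)
  by_cases ha : (4096 : ℝ) ^ 0 ≤ s * 4096 ^ j / 2
  swap
  · have : s ≤ 2 / 4096 ^ j := by
      rw [le_div_iff₀ hp]
      rw [pow_zero] at ha
      linarith [not_le.1 ha]
    linarith
  set l := Nat.findGreatest (fun l => (4096 : ℝ) ^ l ≤ s * 4096 ^ j / 2) j with hl
  have hlj : l ≤ j := Nat.findGreatest_le j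
  have hl1 : (4096 : ℝ) ^ l ≤ s * 4096 ^ j / 2 :=
    Nat.findGreatest_spec (P := fun l => (4096 : ℝ) ^ l ≤ s * 4096 ^ j / 2) (Nat.zero_le j) ha
  by_cases hb : 2 * m l < m j
  · have hlt : l < j := by
      by_contra h
      have : l = j := by omega
      rw [this] at hb
      linarith [hm0 j]
    have h1 : ¬ (4096 : ℝ) ^ (l + 1) ≤ s * 4096 ^ j / 2 :=
      Nat.findGreatest_is_greatest (P := fun l => (4096 : ℝ) ^ l ≤ s * 4096 ^ j / 2)
        (Nat.lt_succ_self l) hlt
    have h2 := embSumB_P hg hlj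
    have h3 : Real.log 2 ≤ Real.log (m j) - Real.log (m l) := by
      have := Real.log_le_log (by linarith [hm0 l]) hb.le
      rw [Real.log_mul two_ne_zero (hm0 l).ne'] at this
      linarith
    have h4 : (0 : ℝ) < 4096 ^ (l + 1) := by positivity
    have h5 : s ≤ 3 * (P / 4096 ^ j) := by
      rw [mul_div_assoc', le_div_iff₀ hp]
      have := mul_le_mul_of_nonneg_left (show 2 / 3 ≤ Real.log (m j) - Real.log (m l) by linarith) h4.le
      linarith [not_le.1 h1]
    linarith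
  by_cases hc : 2 * m j ≤ m (j + 2)
  · have h3 : Real.log 2 ≤ Real.log (m (j + 2)) - Real.log (m j) := by
      have := Real.log_le_log (by linarith [hm0 j]) hc
      rw [Real.log_mul two_ne_zero (hm0 j).ne'] at this
      linarith
    linarith
  have h1 := hsq l hl1
  have h2 : s * m j ≤ 2 * q := by nlinarith [not_lt.1 hb]
  have h3 : Q + q + A ≤ 6 * A * m j := by nlinarith [not_le.1 hc, hmp j]
  have h4 : s ≤ 12 * A * (q / (Q + q + A)) := by
    rw [mul_div_assoc', le_div_iff₀ (by positivity)]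
    have := mul_le_mul_of_nonneg_left h3 hs0
    have := mul_le_mul_of_nonneg_left h2 (show 0 ≤ 6 * A by linarith)
    linarith
  have h5 := mul_le_mul_of_nonneg_left p4 (show 0 ≤ 12 * A by linarith)
  linarith

/-- `μ ρ` is the mass of the ball of radius `ρ` (unit `rr l₀ = 1`) -/
theorem sens_real {k : ℕ} (hk : 0 < k) {μ : ℝ → ℝ} (hμ : Monotone μ) (h0 : 1 / 2 ≤ μ 1) (h1 : ∀ ρ, μ ρ ≤ k)
    {s q : ℕ → ℝ} {A : ℝ} (hA : 1 ≤ A) (J : ℕ) (hs : ∀ j, 0 ≤ s j ∧ s j ≤ 24) (hq : ∀ j, 0 ≤ q j)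
    (hsq : ∀ j < J, s j * μ (s j * 4096 ^ j / 2) ≤ q j)
    (hsum : ∀ j < J, ∑ a ∈ range (j + 1), q a ≤ A * (μ (4096 ^ (j + 2)) + 1)) :
    ∑ j ∈ range J, s j ≤ 500 * A * Real.log (k + 1) := by
  set m : ℕ → ℝ := fun l => μ (4096 ^ l) with hmd
  have hm : Monotone m := fun a b hab => hμ (pow_le_pow_right₀ (by norm_num) hab)
  have h0' : 1 / 2 ≤ m 0 := by simpa [hmd] using h0
  have hm0 : ∀ l, 0 < m l := fun l => lt_of_lt_of_le (by norm_num) (h0'.trans (hm (Nat.zero_le l)))
  have hg : Monotone fun l => Real.log (m l) := fun a b hab => Real.log_le_log (hm0 a) (hm hab)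
  set P : ℕ → ℝ := fun j =>
    (∑ a ∈ range j, (4096 : ℝ) ^ (a + 1) * (Real.log (m (a + 1)) - Real.log (m a))) / 4096 ^ j with hP
  have hP0 : ∀ j, 0 ≤ P j := fun j => by
    have := embSumB_P hg (le_refl j)
    rw [sub_self, mul_zero] at this
    exact div_nonneg this (by positivity)
  have hPs : ∀ j, P (j + 1) = P j / 4096 + (Real.log (m (j + 1)) - Real.log (m j)) := fun j => by
    simp only [hP, sum_range_succ]
    rw [add_div, mul_div_cancel_left₀ _ (by positivity), pow_succ (4096 : ℝ) j, div_div]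
  set Φ : ℕ → ℝ := fun j => -(3 / 4096 ^ j) - 6 * P j + 6 * Real.log (m j) +
    35 * (Real.log (m j) + Real.log (m (j + 1))) + 12 * A * Real.log (∑ a ∈ range j, q a + A) with hΦ
  have key : ∀ j < J, s j ≤ Φ (j + 1) - Φ j := by
    intro j hj
    have h := embSumB_step hm h0' hA (j := j) (hs j).1 (hs j).2 (hq j) (sum_nonneg fun a _ => hq a)
      (fun l hl => (mul_le_mul_of_nonneg_left (hμ hl) (hs j).1).trans (hsq j hj))
      (by rw [← sum_range_succ]; exact hsum j hj)
    have e1 : (3 : ℝ) / 4096 ^ (j + 1) = 3 / 4096 * (1 / 4096 ^ j) := by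
      field_simp
      ring
    have e2 : (3 : ℝ) / 4096 ^ j = 3 * (1 / 4096 ^ j) := by ring
    have e3 : (2 : ℝ) / 4096 ^ j = 2 * (1 / 4096 ^ j) := by ring
    have e4 : (0 : ℝ) ≤ 1 / 4096 ^ j := by positivity
    have e5 := hP0 j
    simp only [hΦ, hPs, sum_range_succ, e1, e2]
    rw [e3] at h
    change s j ≤ _ + 3 * P j + _ + _ at h
    linarith
  have hk1 : (1 : ℝ) ≤ k := by exact_mod_cast hk
  have hl2 := Real.log_two_gt_d9
  have hT : Real.log 2 ≤ Real.log (k + 1) := Real.log_le_log (by norm_num) (by linarith)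
  have hup : ∀ l, Real.log (m l) ≤ Real.log (k + 1) := fun l =>
    Real.log_le_log (hm0 l) ((h1 _).trans (by linarith))
  have hlo : ∀ l, -Real.log 2 ≤ Real.log (m l) := fun l => by
    rw [← Real.log_inv]
    exact Real.log_le_log (by norm_num) (le_trans (by norm_num) (h0'.trans (hm (Nat.zero_le l))))
  have hQ : ∑ a ∈ range J, q a ≤ A * (k + 1) := by
    rcases J with _ | J
    · simp only [range_zero, sum_empty]
      positivity
    · refine (hsum J (Nat.lt_succ_self J)).trans ?_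
      gcongr
      exact h1 _
  have hQ' : Real.log (∑ a ∈ range J, q a + A) ≤ Real.log A + 2 * Real.log (k + 1) := by
    have hQ0 : 0 ≤ ∑ a ∈ range J, q a := sum_nonneg fun a _ => hq a
    have : Real.log (∑ a ∈ range J, q a + A) ≤ Real.log (A * (k + 1) ^ 2) :=
      Real.log_le_log (by linarith) (by nlinarith [mul_nonneg (show 0 ≤ A by linarith) (show (0 : ℝ) ≤ k ^ 2 + k - 1 by nlinarith)])
    rw [Real.log_mul (by linarith) (by positivity), Real.log_pow] at this
    exact_mod_cast this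
  calc ∑ j ∈ range J, s j ≤ ∑ j ∈ range J, (Φ (j + 1) - Φ j) := sum_le_sum fun j hj => key j (mem_range.1 hj)
    _ = Φ J - Φ 0 := sum_range_sub Φ J
    _ ≤ _ := by
      have e1 : (0 : ℝ) ≤ 3 / 4096 ^ J := by positivity
      have e2 : P 0 = 0 := by simp [hP]
      have e3 := mul_le_mul_of_nonneg_left hQ' (show 0 ≤ 12 * A by linarith)
      have e4 := mul_le_mul_of_nonneg_right hA (show 0 ≤ Real.log (k + 1) by linarith)
      simp only [hΦ, e2, pow_zero, range_zero, sum_empty, zero_add]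
      linarith [hP0 J, hup J, hup (J + 1), hlo 0, hlo 1]

/-! ### part c -/

theorem EmbSumC_rr_pos (hr : 0 < r₀) (j : ℕ) : 0 < rr r₀ j := by
  unfold rr
  positivity

theorem EmbSumC_rr_add (r₀ : ℝ) (l j : ℕ) : rr r₀ (l + j) = rr r₀ l * 4096 ^ j := by
  unfold rr
  rw [pow_add, mul_assoc]

theorem EmbSumC_geom (hr : 0 < r₀) (l : ℕ) : ∑ j ∈ range (l + 1), rr r₀ j ≤ 2 * rr r₀ l := by
  induction l with
  | zero =>
    have := EmbSumC_rr_pos hr 0
    simp only [zero_add, range_one, sum_singleton]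
    linarith
  | succ l ih =>
    rw [sum_range_succ, EmbSumC_rr_add r₀ l 1]
    have := EmbSumC_rr_pos hr l
    linarith

/-- the near part of the cost -/
noncomputable def EmbSumC_t (ν : X → ℝ) (x : X) (r s : ℝ) : ℝ :=
  ∑ y, ν y * if dist y x ≤ r then s * dist y x else 0

theorem EmbSumC_split (hr : 0 < r) (s : ℝ) : r * nsen ν x r s = EmbSumC_t ν x r s + r * nf ν x r := by
  unfold nsen EmbSumC_t nf
  rw [mul_sum, mul_sum, ← sum_add_distrib]
  refine sum_congr rfl fun y _ => ?_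
  by_cases hy : dist y x ≤ r
  · rw [if_pos hy, if_pos hy, if_neg (not_lt.2 hy)]
    field_simp
    ring
  · rw [if_neg hy, if_neg hy, if_pos (not_le.1 hy)]
    ring

theorem EmbSumC_t_bd (h : Mv k M' ν M'' x) (hr : 0 < r) {s : ℝ} (hs : 0 ≤ s) :
    0 ≤ EmbSumC_t ν x r s ∧ EmbSumC_t ν x r s ≤ s * r ∧ EmbSumC_t ν x r s ≤ s * ∑ y, ν y * dist y x := by
  unfold EmbSumC_t
  refine ⟨sum_nonneg fun y _ => mul_nonneg (h.nu0 y) (by split_ifs <;> positivity), ?_, ?_⟩
  · calc _ ≤ ∑ y, ν y * (s * r) := sum_le_sum fun y _ => mul_le_mul_of_nonneg_left (by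
          split_ifs with hy
          · exact mul_le_mul_of_nonneg_left hy hs
          · positivity) (h.nu0 y)
      _ = s * r := by rw [← sum_mul, h.nu1, one_mul]
  · rw [mul_sum]
    refine sum_le_sum fun y _ => ?_
    have h0 := h.nu0 y
    split_ifs
    · exact le_of_eq (by ring)
    · rw [mul_zero]
      positivity

theorem EmbSumC_half (h : Mv k M' ν M'' x) (hr : 0 < r) (hd : 2 * ∑ y, ν y * dist y x ≤ r) :
    1 / 2 ≤ Mb M' x r := by
  have h1 := (nf_bd h hr (le_refl (0 : ℝ))).2.2.1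
  have h2 := nmin_le h hr
  have h3 : nf ν x r ≤ 1 / 2 := by
    refine h1.trans (le_of_mul_le_mul_left ?_ hr)
    linarith
  have h4 : 1 - nf ν x r ≤ Mb M' x r := by
    unfold nf Mb
    rw [← h.nu1, ← sum_sub_distrib]
    refine sum_le_sum fun y _ => ?_
    by_cases hy : dist y x ≤ r
    · rw [if_pos hy, if_neg (not_lt.2 hy), sub_zero]
      exact h.nule y
    · rw [if_neg hy, if_pos (not_le.1 hy), sub_self]
  linarith

theorem EmbSumC_Mb_le (h : Mv k M' ν M'' x) (ρ : ℝ) : Mb M' x ρ ≤ k := by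
  rw [← h.tot]
  refine sum_le_sum fun y _ => ?_
  split_ifs
  · exact le_rfl
  · exact h.old_nonneg y

theorem sens_total (hk : 0 < k) (h : Mv k M' ν M'' x) (hr : 0 < r₀) {s q : ℕ → ℝ} {A : ℝ} (hA : 1 ≤ A) (J : ℕ)
    (hs : ∀ j, 0 ≤ s j ∧ s j ≤ 24) (hq : ∀ j, 0 ≤ q j)
    (hsq : ∀ j < J, s j * Mb M' x (s j * rr r₀ j / 2) ≤ q j)
    (hsum : ∀ j < J, ∑ a ∈ range (j + 1), q a ≤ A * (Mb M' x (rr r₀ (j + 2)) + 1)) :
    ∑ j ∈ range J, rr r₀ j * nsen ν x (rr r₀ j) (s j) ≤ 1000 * A * Real.log (k + 1) * ∑ y, ν y * dist y x := by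
  set d := ∑ y, ν y * dist y x with hd
  have d0 : 0 ≤ d := sum_nonneg fun y _ => mul_nonneg (h.nu0 y) dist_nonneg
  have hex : ∃ l : ℕ, 2 * d ≤ rr r₀ l := by
    obtain ⟨l, hl⟩ := pow_unbounded_of_one_lt (2 * d / r₀) (by norm_num : (1 : ℝ) < 4096)
    refine ⟨l, ?_⟩
    rw [div_lt_iff₀ hr] at hl
    unfold rr
    linarith
  set l := Nat.find hex with hl
  have hl1 : 2 * d ≤ rr r₀ l := Nat.find_spec hex
  have hp := EmbSumC_rr_pos hr
  have hlow : ∑ j ∈ range l, rr r₀ j ≤ 4 * d := by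
    rcases Nat.eq_zero_or_pos l with h0 | h0
    · rw [h0, range_zero, sum_empty]
      linarith
    · have h1 : ¬ 2 * d ≤ rr r₀ (l - 1) := Nat.find_min hex (by omega)
      have h2 := EmbSumC_geom hr (l - 1)
      rw [Nat.sub_add_cancel h0] at h2
      linarith [not_le.1 h1]
  have hreal : ∑ j ∈ range (J - l), s (l + j) ≤ 500 * A * Real.log (k + 1) := by
    refine sens_real (μ := fun ρ => Mb M' x (rr r₀ l * ρ)) (q := fun j => q (l + j)) hk
      (fun a b hab => Mb_mono h.old_nonneg x (mul_le_mul_of_nonneg_left hab (hp l).le)) ?_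
      (fun ρ => EmbSumC_Mb_le h _) hA (J - l) (fun j => hs _) (fun j => hq _) (fun j hj => ?_)
      (fun j hj => ?_)
    · simp only [mul_one]
      exact EmbSumC_half h (hp l) hl1
    · have h1 := hsq (l + j) (by omega)
      rw [EmbSumC_rr_add] at h1
      rw [show rr r₀ l * (s (l + j) * 4096 ^ j / 2) = s (l + j) * (rr r₀ l * 4096 ^ j) / 2 by ring]
      exact h1
    · have h1 := hsum (l + j) (by omega)
      rw [add_assoc l j 2, EmbSumC_rr_add, add_assoc l j 1, sum_range_add] at h1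
      have h2 : 0 ≤ ∑ a ∈ range l, q a := sum_nonneg fun a _ => hq a
      linarith
  have ht : ∑ j ∈ range J, EmbSumC_t ν x (rr r₀ j) (s j) ≤ 96 * d + 500 * A * Real.log (k + 1) * d := by
    calc _ ≤ ∑ j ∈ range (l + (J - l)), EmbSumC_t ν x (rr r₀ j) (s j) :=
          sum_le_sum_of_subset_of_nonneg (range_subset_range.2 (by omega))
            fun j _ _ => (EmbSumC_t_bd h (hp j) (hs j).1).1
      _ ≤ ∑ j ∈ range l, 24 * rr r₀ j + ∑ j ∈ range (J - l), s (l + j) * d := by
          rw [sum_range_add]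
          refine add_le_add (sum_le_sum fun j _ => ?_) (sum_le_sum fun j _ => ?_)
          · exact (EmbSumC_t_bd h (hp j) (hs j).1).2.1.trans
              (mul_le_mul_of_nonneg_right (hs j).2 (hp j).le)
          · exact (EmbSumC_t_bd h (hp _) (hs _).1).2.2
      _ ≤ _ := by
          rw [← mul_sum, ← sum_mul]
          have := mul_le_mul_of_nonneg_right hreal d0
          linarith
  have hnf := nf_sum h hr J
  rw [sum_congr rfl fun j _ => EmbSumC_split (hp j) (s j), sum_add_distrib]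
  have hlog : 1 / 2 ≤ Real.log (k + 1) := by
    have h1 : (2 : ℝ) ≤ k + 1 := by
      have : (1 : ℝ) ≤ k := by exact_mod_cast hk
      linarith
    have h2 := Real.log_le_log (by norm_num) h1
    linarith [Real.log_two_gt_d9]
  have h5 : 1 / 2 ≤ A * Real.log (k + 1) := by nlinarith
  have h6 := mul_le_mul_of_nonneg_right h5 d0
  nlinarith

end Crest.Agent.R314
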