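import Crest.Agent.R314.EmbPath
import Crest.Agent.R314.EmbSum

/-!
# Row 314, part II: the states along a history, the probability of an advance, labels and centres

`Sd = coins × radii`.
* `R_congr`: the random state at `h` only depends on the coins before time `|h|`.
* `stg_tail`: induction on `h`.  If `v` is aged and `thr i m < age + 1`, then `stg ≥ m` (`hi`), so `stg' ≤ m` forces
  `stg = m` and a failed coin (`av_indep`, `av_lt`).  A centre that is new at the step has age `0 < thr`.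
* `adv_prob`: coin part: the owner does not depend on the coin of the step, and the coin succeeds with probability
  `≤ 1/NN i + 1/G`.  Forced part: for each `m ≤ k` at most `thr i (m+1) = N⁴` centres (`count`), each with
  probability `≤ (1 - 1/N)^(N⁴ - 1 - N²) ≤ N⁻⁵`, `N = NN (i+m)`, and `∑ m, 1/NN (i+m) ≤ 2/NN i`.
-/

set_option autoImplicit false
set_option linter.unusedSectionVars false
set_option linter.unusedVariables false

namespace Crest.Agent.R314

open Finset Function
open scoped Classical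

/-- global data: first scale, number of scales, servers, horizon, resolution, posterior measures -/
structure Ctx (X : Type*) where
  r₀ : ℝ
  J : ℕ
  k : ℕ
  T : ℕ
  G : ℕ
  M : List X → X → ℝ
  x₀ : X

variable {X : Type*} [MetricSpace X] [Fintype X]

namespace Ctx

variable (c : Ctx X)

structure Ok : Prop where
  r0 : 0 < c.r₀
  G0 : 0 < c.G
  k0 : 0 < c.k
  diam : ∀ y y' : X, dist y y' ≤ rr c.r₀ c.J

abbrev Sd : Type := (Fin c.T → Fin c.G) × (Fin c.T → Fin c.G)
abbrev Lab : Type := Fin (c.T + 1) ⊕ Fin (Fintype.card X)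

noncomputable def r (j : ℕ) : ℝ := rr c.r₀ j

noncomputable def e (j : ℕ) (x : X) (h : List X) : Ev X :=
  ⟨h.length, x, heavy (c.r j) (c.M (x :: h)) x, cls c.k (c.r j) (c.M (x :: h)) x⟩

noncomputable def S (j : ℕ) : List X → Sc X
  | [] => ⟨∅, ∅, fun _ => c.x₀, fun _ => 0, fun _ => 0, fun _ => 0⟩
  | x :: h => (S j h).upd (c.r j) (c.e j x h)

noncomputable def R (j : ℕ) (co : ℕ → ℕ) : List X → Rs
  | [] => ⟨fun _ => 0, fun _ => 0⟩
  | x :: h => (c.S j h).rupd (c.r j) (c.e j x h) c.k c.G (R j co h) (co h.length)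

noncomputable def tok (ω : c.Sd) (j : ℕ) (h : List X) (y : X) : ℝ :=
  (c.S j h).tok (c.r j) c.k c.G (c.R j (val ω.1) h) (val ω.2) y

noncomputable def lb (ω : c.Sd) (j : ℕ) (h : List X) (y : X) : ℕ ⊕ X :=
  (c.S j h).lb (c.r j) c.G (c.R j (val ω.1) h) (val ω.2) y

noncomputable def pt (y : X) : c.Lab := Sum.inr (Fintype.equivFin X y)
def nam (a : ℕ) : c.Lab := Sum.inl (Fin.ofNat (c.T + 1) a)

noncomputable def lab (ω : c.Sd) (j : ℕ) (h : List X) (y : X) : c.Lab := Sum.elim c.nam c.pt (c.lb ω j h y)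

noncomputable def ctr (j : ℕ) (h : List X) : c.Lab → X
  | Sum.inr a => (Fintype.equivFin X).symm a
  | Sum.inl a => if H : ∃ v ∈ (c.S j h).C, (c.S j h).nm v = a then (c.S j h).loc (Classical.choose H) else c.x₀

noncomputable def dr (j : ℕ) (x : X) (h : List X) (l : c.Lab) : ℝ :=
  if ∃ u ∈ (c.S j h).Sw (c.r j) (c.e j x h), l = c.nam ((c.S j h).nm u) then 321 * c.r j else 0

variable {c}

/-! ### part a -/

theorem r_pos (hc : c.Ok) (j : ℕ) : 0 < c.r j := by
  have := hc.r0
  unfold r rr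
  positivity

theorem r_succ (c : Ctx X) (j : ℕ) : c.r (j + 1) = 4096 * c.r j := by
  unfold r rr
  ring

theorem inv (hc : c.Ok) (j : ℕ) (h : List X) : (c.S j h).Inv (c.r j) c.k h.length := by
  induction h with
  | nil => constructor <;> simp [S]
  | cons x h ih => exact Sc.inv_upd (e := c.e j x h) (r_pos hc j) ih (cls_le _ _ _ _)

theorem rinv (hc : c.Ok) (j : ℕ) (co : ℕ → ℕ) (h : List X) : (c.S j h).RInv c.k (c.R j co h) h.length := by
  induction h with
  | nil => constructor <;> simp [S]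
  | cons x h ih => exact Sc.rinv_upd (e := c.e j x h) (r_pos hc j) (inv hc j h) ih _

theorem ctr_pt (c : Ctx X) (j : ℕ) (h : List X) (y : X) : c.ctr j h (c.pt y) = y := by
  simp [ctr, pt]

theorem nam_inj {a b : ℕ} (ha : a ≤ c.T) (hb : b ≤ c.T) (h : c.nam a = c.nam b) : a = b := by
  have h1 := congrArg Fin.val (Sum.inl_injective h)
  simp only [Fin.val_ofNat] at h1
  rwa [Nat.mod_eq_of_lt (Nat.lt_succ_of_le ha), Nat.mod_eq_of_lt (Nat.lt_succ_of_le hb)] at h1

theorem ctr_nam (hc : c.Ok) (j : ℕ) {h : List X} (hT : h.length ≤ c.T) {v : ℕ} (hv : v ∈ (c.S j h).C) :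
    c.ctr j h (c.nam ((c.S j h).nm v)) = (c.S j h).loc v := by
  have hI := inv hc j h
  have e1 : ((Fin.ofNat (c.T + 1) ((c.S j h).nm v) : Fin (c.T + 1)) : ℕ) = (c.S j h).nm v := by
    rw [Fin.val_ofNat, Nat.mod_eq_of_lt]
    have := hI.nm_lt v hv
    omega
  have H : ∃ w ∈ (c.S j h).C, (c.S j h).nm w = (Fin.ofNat (c.T + 1) ((c.S j h).nm v) : Fin (c.T + 1)) :=
    ⟨v, hv, e1.symm⟩
  have h2 := Classical.choose_spec H
  simp only [nam, ctr]
  rw [dif_pos H, hI.nm_inj h2.1 hv (h2.2.trans e1)]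

theorem eca_none {ω : c.Sd} {j : ℕ} {h : List X} {y : X}
    (ho : (c.S j h).own (c.r j) c.G (c.R j (val ω.1) h) (val ω.2) y = none) : c.lab ω j h y = c.pt y := by
  simp [lab, lb, Sc.lb, ho]

theorem eca_some {ω : c.Sd} {j : ℕ} {h : List X} {y : X} {v : ℕ}
    (ho : (c.S j h).own (c.r j) c.G (c.R j (val ω.1) h) (val ω.2) y = some v) :
    c.lab ω j h y = c.nam ((c.S j h).nm v) := by
  simp [lab, lb, Sc.lb, ho]

theorem d1 (hc : c.Ok) (ω : c.Sd) (j : ℕ) {h : List X} (hT : h.length ≤ c.T) (y : X) :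
    dist y (c.ctr j h (c.lab ω j h y)) ≤ 320 * c.r j := by
  have hr := r_pos hc j
  rcases ho : (c.S j h).own (c.r j) c.G (c.R j (val ω.1) h) (val ω.2) y with _ | v
  · rw [eca_none ho, ctr_pt, dist_self]
    positivity
  · obtain ⟨h1, h2, -⟩ := Sc.own_some.1 ho
    rw [eca_some ho, ctr_nam hc j hT h1]
    exact (Sc.cov_dist hr h2).le.trans (mul_le_mul_of_nonneg_right (AA_bd _).2.le hr.le)

theorem d2 (hc : c.Ok) (ω : c.Sd) (j : ℕ) (x : X) {h : List X} (hT : h.length < c.T) (y : X) :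
    dist (c.ctr j h (c.lab ω j h y)) (c.ctr j (x :: h) (c.lab ω j h y)) ≤ c.dr j x h (c.lab ω j h y) := by
  have hr := r_pos hc j
  have h0 : ∀ l, 0 ≤ c.dr j x h l := fun l => by
    unfold dr
    split_ifs
    · positivity
    · exact le_rfl
  rcases ho : (c.S j h).own (c.r j) c.G (c.R j (val ω.1) h) (val ω.2) y with _ | v
  · rw [eca_none ho, ctr_pt, ctr_pt, dist_self]
    exact h0 _
  obtain ⟨h1, -, -⟩ := Sc.own_some.1 ho
  have hI := inv hc j h
  have hvt : v ≠ (c.e j x h).t := (hI.lt v h1).ne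
  have hT' : (x :: h).length ≤ c.T := hT
  rw [eca_some ho, ctr_nam hc j hT.le h1]
  by_cases hv : v ∈ (c.S j h).Sw (c.r j) (c.e j x h)
  · have hK : (c.S j h).isK (c.r j) (c.e j x h) := (mem_filter.1 hv).2.1
    have ht : (c.e j x h).t ∈ (c.S j (x :: h)).C := by simp [S, Sc.upd, hK]
    have e1 : (c.S j (x :: h)).nm (c.e j x h).t = (c.S j h).nm v := by
      simp [S, Sc.upd, Sc.Sw_eq hr hI hv]
    have e2 : (c.S j (x :: h)).loc (c.e j x h).t = x := by simp [S, Sc.upd, e]
    have e3 := ctr_nam hc j hT' ht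
    rw [e1, e2] at e3
    rw [e3, dr, if_pos ⟨v, hv, rfl⟩]
    exact (mem_filter.1 hv).2.2
  · have e1 : (c.S j (x :: h)).nm v = (c.S j h).nm v := by simp [S, Sc.upd, hvt, hv]
    have e3 := ctr_nam hc j hT' (v := v) (Sc.epa_C h1)
    rw [e1] at e3
    rw [e3, show (c.S j (x :: h)).loc v = (c.S j h).loc v from Sc.epa_loc hvt, dist_self]
    exact h0 _

theorem R_congr (c : Ctx X) (j : ℕ) {co co' : ℕ → ℕ} (h : List X) (hco : ∀ s < h.length, co s = co' s) :
    c.R j co h = c.R j co' h := by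
  induction h with
  | nil => rfl
  | cons x h ih =>
    simp only [R]
    rw [ih fun s hs => hco s (Nat.lt_succ_of_lt hs), hco h.length (Nat.lt_succ_self _)]

/-! ### part b -/

theorem stg_tail (hc : c.Ok) (j : ℕ) {h : List X} (hT : h.length ≤ c.T) {v : ℕ} (hv : v ∈ (c.S j h).C) {m : ℕ}
    (hm : m ≤ c.k) (ha : thr ((c.S j h).org v) m ≤ (c.S j h).age v) :
    av (fun u : Fin c.T → Fin c.G => if (c.R j (val u) h).stg v ≤ m then (1 : ℝ) else 0) ≤
      (1 - 1 / (NN ((c.S j h).org v + m) : ℝ)) ^ ((c.S j h).age v - thr ((c.S j h).org v) m) := by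
  have : Nonempty (Fin c.G) := ⟨⟨0, hc.G0⟩⟩
  induction h with
  | nil => simp [S] at hv
  | cons x h ih =>
    have hT' : h.length < c.T := hT
    set S0 := c.S j h with hS0
    set e0 := c.e j x h with he0
    have het : e0.t = h.length := rfl
    have hS : c.S j (x :: h) = S0.upd (c.r j) e0 := rfl
    have hR : ∀ co : ℕ → ℕ, c.R j co (x :: h) = S0.rupd (c.r j) e0 c.k c.G (c.R j co h) (co h.length) :=
      fun _ => rfl
    rw [hS] at hv ha ⊢
    by_cases hvt : v = e0.t
    · exfalso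
      have h1 : (S0.upd (c.r j) e0).age v = 0 := if_pos hvt
      have h2 := NN_ge ((S0.upd (c.r j) e0).org v + m)
      rw [h1, thr] at ha
      have : 0 < NN ((S0.upd (c.r j) e0).org v + m) ^ 2 := by positivity
      omega
    have hv0 : v ∈ S0.C := by
      simp only [Sc.upd] at hv
      split_ifs at hv
      · exact (Finset.mem_insert.1 hv).resolve_left hvt
      · exact hv
    have ho : (S0.upd (c.r j) e0).org v = S0.org v := update_of_ne hvt _ _
    have hage : (S0.upd (c.r j) e0).age v = if v ∈ S0.aged (c.r j) e0 then S0.age v + 1 else S0.age v :=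
      if_neg hvt
    have hstg : ∀ co : ℕ → ℕ, (c.R j co (x :: h)).stg v =
        if v ∈ S0.adv (c.r j) e0 c.k c.G (c.R j co h) (co h.length) then (c.R j co h).stg v + 1
        else (c.R j co h).stg v := fun co => if_neg hvt
    rw [ho, hage] at ha ⊢
    by_cases hag : v ∈ S0.aged (c.r j) e0
    swap
    · rw [if_neg hag] at ha ⊢
      refine le_trans (le_of_eq ?_) (ih hT'.le hv0 ha)
      congr 1
      funext u
      have hna : v ∉ S0.adv (c.r j) e0 c.k c.G (c.R j (val u) h) (val u h.length) :=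
        fun hh => hag (Finset.mem_filter.1 hh).1
      rw [hstg, if_neg hna]
    rw [if_pos hag] at ha ⊢
    rcases ha.eq_or_lt with ha | ha
    · rw [ha, Nat.sub_self, pow_zero]
      refine le_trans (av_mono fun u => ?_) (av_const (Ω := Fin c.T → Fin c.G) 1).le
      split_ifs <;> norm_num
    have ha' : thr (S0.org v) m ≤ S0.age v := Nat.lt_succ_iff.1 ha
    have IH := ih hT'.le hv0 ha'
    set N : ℝ := (NN (S0.org v + m) : ℝ) with hN
    have hN1 : (256 : ℝ) ≤ N := by rw [hN]; exact_mod_cast NN_ge _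
    have ha0 : 0 ≤ 1 / N := by positivity
    have ha1 : 1 / N ≤ 1 := by rw [div_le_one (by linarith)]; linarith
    let f : (Fin c.T → Fin c.G) → ℕ → ℝ := fun u a =>
      (if (c.R j (val u) h).stg v ≤ m then (1 : ℝ) else 0) * (1 - if (a : ℝ) < c.G * (1 / N) then (1 : ℝ) else 0)
    have h1 : ∀ u : Fin c.T → Fin c.G,
        (if (c.R j (val u) (x :: h)).stg v ≤ m then (1 : ℝ) else 0) ≤ f u (val u h.length) := by
      intro u
      have hf0 : 0 ≤ f u (val u h.length) := by
        simp only [f]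
        split_ifs <;> norm_num
      split_ifs with hle
      swap
      · exact hf0
      rw [hstg] at hle
      have hle' : (c.R j (val u) h).stg v ≤ m := by
        split_ifs at hle <;> omega
      have hi := (rinv hc j (val u) h).hi v hv0 (by omega)
      have heq : (c.R j (val u) h).stg v = m := by
        by_contra hne
        have := thr_mono (S0.org v) (show (c.R j (val u) h).stg v + 1 ≤ m by omega)
        rw [← hS0] at hi
        omega
      have hnc : ¬ ((val u h.length : ℕ) : ℝ) < c.G * (1 / N) := by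
        intro hlt
        rw [if_pos] at hle
        · omega
        · refine Finset.mem_filter.2 ⟨hag, by omega, by rw [heq]; exact ha, Or.inl ?_⟩
          rw [heq, ← hN]
          rwa [mul_one_div] at hlt
      simp only [f]
      rw [if_pos hle', if_neg hnc]
      norm_num
    refine (av_mono h1).trans ?_
    rw [av_indep hc.G0 hT' f (fun u u' huu => by
      simp only [f]
      rw [R_congr c j h (co := val u) (co' := val u') fun s hs => huu s hs.ne])]
    have h2 : ∀ u : Fin c.T → Fin c.G, av (fun a : Fin c.G => f u a) ≤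
        (1 - 1 / N) * (if (c.R j (val u) h).stg v ≤ m then (1 : ℝ) else 0) := by
      intro u
      simp only [f]
      rw [av_mul, av_sub, av_const, mul_comm]
      refine mul_le_mul_of_nonneg_right ?_ (by split_ifs <;> norm_num)
      linarith [(av_lt hc.G0 ha0 ha1).1]
    refine (av_mono h2).trans ?_
    rw [av_mul, Nat.succ_sub ha', pow_succ']
    exact mul_le_mul_of_nonneg_left IH (by linarith)

/-! ### part c -/

theorem ctxC_mono (i m : ℕ) : NN i ≤ NN (i + m) :=
  Nat.pow_le_pow_right (by norm_num) (Nat.pow_le_pow_right (by norm_num) (by omega))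

theorem ctxC_sum (i n : ℕ) : ∑ m ∈ range n, (1 : ℝ) / NN (i + m) ≤ 2 / NN i - 2 / NN (i + n) := by
  induction n with
  | zero => simp
  | succ n ih =>
    rw [sum_range_succ, ← add_assoc, NN_succ]
    have h : (256 : ℝ) ≤ NN (i + n) := by exact_mod_cast NN_ge _
    have k : (2 : ℝ) / ((NN (i + n) ^ 2 : ℕ) : ℝ) ≤ 1 / NN (i + n) := by
      push_cast
      rw [div_le_div_iff₀ (by positivity) (by positivity)]
      nlinarith
    have e : (2 : ℝ) / NN (i + n) = 2 * (1 / NN (i + n)) := by ring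
    linarith

theorem ctxC_pow {N n : ℕ} (hN : 1 ≤ N) (hn : 5 * N ^ 2 ≤ n) : (1 - 1 / (N : ℝ)) ^ n ≤ 1 / (N : ℝ) ^ 5 := by
  have p : (1 : ℝ) ≤ N := by exact_mod_cast hN
  have q : (5 : ℝ) * N ^ 2 ≤ n := by exact_mod_cast hn
  have a : 0 ≤ 1 - 1 / (N : ℝ) := sub_nonneg.2 ((div_le_one (by linarith)).2 p)
  calc (1 - 1 / (N : ℝ)) ^ n ≤ Real.exp (-(1 / N)) ^ n :=
        pow_le_pow_left₀ a (by linarith [Real.add_one_le_exp (-(1 / (N : ℝ)))]) n
    _ = Real.exp (-(n / N)) := by
        rw [← Real.exp_nat_mul]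
        congr 1
        ring
    _ ≤ Real.exp (-((5 : ℕ) * N)) := by
        refine Real.exp_le_exp.2 (neg_le_neg ?_)
        rw [le_div_iff₀ (by linarith)]
        push_cast
        nlinarith
    _ = 1 / Real.exp N ^ 5 := by rw [Real.exp_neg, Real.exp_nat_mul, one_div]
    _ ≤ 1 / (N : ℝ) ^ 5 := by
        gcongr
        linarith [Real.add_one_le_exp (N : ℝ)]

theorem adv_prob (hc : c.Ok) (j : ℕ) (x : X) {h : List X} (hT : h.length < c.T)
    (hN : (c.S j h).isN (c.r j) (c.e j x h)) (U : ℕ → ℕ) (y : X) :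
    av (fun u : Fin c.T → Fin c.G =>
      if ∃ v, (c.S j h).own (c.r j) c.G (c.R j (val u) h) U y = some v ∧
        v ∈ (c.S j h).adv (c.r j) (c.e j x h) c.k c.G (c.R j (val u) h) (val u h.length) then (1 : ℝ) else 0) ≤
      6 / NN (c.e j x h).i + 1 / c.G := by
  set S := c.S j h with hS
  set e := c.e j x h with he
  have hr := r_pos hc j
  have I : S.Inv (c.r j) c.k h.length := inv hc j h
  have hK : ¬ S.isK (c.r j) e := fun k => hN.1 k.1
  have n0 : (0 : ℝ) < NN e.i := by have := NN_ge e.i; positivity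
  have n1 : (1 : ℝ) ≤ NN e.i := by have := NN_ge e.i; exact_mod_cast (by omega : 1 ≤ NN e.i)
  set F : ℕ → Finset ℕ := fun m => (S.C \ S.K).filter fun v =>
    S.org v = e.i ∧ S.age v + 1 = thr e.i (m + 1) ∧ dist (S.loc v) y ≤ 320 * c.r j with hF
  have step : ∀ u : Fin c.T → Fin c.G,
      (if ∃ v, S.own (c.r j) c.G (c.R j (val u) h) U y = some v ∧
        v ∈ S.adv (c.r j) e c.k c.G (c.R j (val u) h) (val u h.length) then (1 : ℝ) else 0) ≤
      (if ((val u h.length : ℕ) : ℝ) < c.G * (1 / NN e.i) then (1 : ℝ) else 0) +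
        ∑ m ∈ range (c.k + 1), ∑ v ∈ F m, if (c.R j (val u) h).stg v ≤ m then (1 : ℝ) else 0 := by
    intro u
    have z1 : ∀ m v, (0 : ℝ) ≤ if (c.R j (val u) h).stg v ≤ m then (1 : ℝ) else 0 := fun m v => by
      split_ifs <;> norm_num
    have z2 : ∀ m, (0 : ℝ) ≤ ∑ v ∈ F m, if (c.R j (val u) h).stg v ≤ m then (1 : ℝ) else 0 :=
      fun m => sum_nonneg fun v _ => z1 m v
    have z3 : (0 : ℝ) ≤ ∑ m ∈ range (c.k + 1), ∑ v ∈ F m,
        if (c.R j (val u) h).stg v ≤ m then (1 : ℝ) else 0 := sum_nonneg fun m _ => z2 m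
    have z4 : (0 : ℝ) ≤ if ((val u h.length : ℕ) : ℝ) < c.G * (1 / NN e.i) then (1 : ℝ) else 0 := by
      split_ifs <;> norm_num
    by_cases hE : ∃ v, S.own (c.r j) c.G (c.R j (val u) h) U y = some v ∧
        v ∈ S.adv (c.r j) e c.k c.G (c.R j (val u) h) (val u h.length)
    swap
    · rw [if_neg hE]
      linarith
    rw [if_pos hE]
    obtain ⟨v, ho, ha⟩ := hE
    obtain ⟨hag, hs, -, hor⟩ := mem_filter.1 ha
    obtain ⟨hv, hag⟩ := mem_filter.1 hag
    have org : S.org v = e.i := by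
      rcases hag with ⟨-, w, hw, -⟩ | hag
      · exact absurd (mem_filter.1 hw).2.1 hK
      · exact hag.2.1
    rw [org] at hor
    rcases hor with hor | hor
    · have : ((val u h.length : ℕ) : ℝ) < c.G * (1 / NN e.i) := by
        refine hor.trans_le ?_
        rw [mul_one_div]
        exact div_le_div_of_nonneg_left (Nat.cast_nonneg _) n0 (by exact_mod_cast ctxC_mono _ _)
      rw [if_pos this]
      linarith
    · have d := Sc.cov_dist hr (Sc.own_some.1 ho).2.1
      have vF : v ∈ F ((c.R j (val u) h).stg v) := by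
        refine mem_filter.2 ⟨hv, org, hor, ?_⟩
        rw [dist_comm]
        exact d.le.trans (mul_le_mul_of_nonneg_right (AA_bd _).2.le hr.le)
      have a1 := single_le_sum (fun w _ => z1 ((c.R j (val u) h).stg v) w) vF
      have a2 := single_le_sum (fun m _ => z2 m) (mem_range.2 hs)
      rw [if_pos le_rfl] at a1
      linarith
  refine (av_mono step).trans ?_
  rw [av_add, av_sum]
  have : Nonempty (Fin c.T → Fin c.G) := ⟨fun _ => ⟨0, hc.G0⟩⟩
  have coin : av (fun u : Fin c.T → Fin c.G =>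
      if ((val u h.length : ℕ) : ℝ) < c.G * (1 / NN e.i) then (1 : ℝ) else 0) ≤ 1 / NN e.i + 1 / c.G := by
    rw [av_indep hc.G0 hT (fun _ a => if ((a : ℕ) : ℝ) < c.G * (1 / NN e.i) then (1 : ℝ) else 0)
      fun _ _ _ => rfl, av_const]
    exact (av_lt hc.G0 (by positivity) ((div_le_one n0).2 n1)).2
  have forced : ∀ m ∈ range (c.k + 1), av (fun u : Fin c.T → Fin c.G =>
      ∑ v ∈ F m, if (c.R j (val u) h).stg v ≤ m then (1 : ℝ) else 0) ≤ 1 / NN (e.i + m) := by
    intro m hm
    have N0 := NN_ge (e.i + m)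
    have t1 : thr e.i (m + 1) = NN (e.i + m) ^ 4 := by
      unfold thr
      rw [← add_assoc, NN_succ, ← pow_mul]
    have t0 : thr e.i m = NN (e.i + m) ^ 2 := rfl
    have t2 : 6 * NN (e.i + m) ^ 2 + 1 ≤ NN (e.i + m) ^ 4 := by
      have : 256 ^ 2 ≤ NN (e.i + m) ^ 2 := Nat.pow_le_pow_left N0 2
      rw [show NN (e.i + m) ^ 4 = NN (e.i + m) ^ 2 * NN (e.i + m) ^ 2 by ring]
      nlinarith
    have card : (F m).card ≤ NN (e.i + m) ^ 4 := by
      refine le_trans (card_le_card fun v hv => ?_)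
        ((I.count y e.i (NN (e.i + m) ^ 4 - 1)).trans (by omega))
      obtain ⟨a, b, d, f⟩ := mem_filter.1 hv
      exact mem_filter.2 ⟨a, b, by omega, f⟩
    rw [av_sum]
    have one : ∀ v ∈ F m, av (fun u : Fin c.T → Fin c.G =>
        if (c.R j (val u) h).stg v ≤ m then (1 : ℝ) else 0) ≤ 1 / (NN (e.i + m) : ℝ) ^ 5 := by
      intro v hv
      obtain ⟨a, b, d, f⟩ := mem_filter.1 hv
      have := stg_tail hc j hT.le (mem_sdiff.1 a).1 (Nat.lt_succ_iff.1 (mem_range.1 hm))
        (by rw [← hS, b]; omega)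
      rw [← hS, b] at this
      exact this.trans (ctxC_pow (by omega) (by omega))
    refine (sum_le_card_nsmul _ _ _ one).trans ?_
    have p : (0 : ℝ) < NN (e.i + m) := by positivity
    rw [nsmul_eq_mul]
    calc ((F m).card : ℝ) * (1 / (NN (e.i + m) : ℝ) ^ 5) ≤
          (NN (e.i + m) : ℝ) ^ 4 * (1 / (NN (e.i + m) : ℝ) ^ 5) := by
          gcongr
          exact_mod_cast card
      _ = _ := by field_simp
  have tot := (sum_le_sum forced).trans (ctxC_sum e.i (c.k + 1))
  have p1 : (0 : ℝ) ≤ 2 / NN (e.i + (c.k + 1)) := by positivity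
  have p2 : (0 : ℝ) ≤ 1 / NN e.i := by positivity
  have e2 : (2 : ℝ) / NN e.i = 2 * (1 / NN e.i) := by ring
  have e6 : (6 : ℝ) / NN e.i = 6 * (1 / NN e.i) := by ring
  linarith

end Ctx

end Crest.Agent.R314
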