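import Mathlib

/-!
# Row 314, part II: one scale of the dynamic labelling -- definitions and invariants

See `notes314/II.md`.  `r` is the scale; `409600 = D_K`, `410560 = S_pay`, `410881 = S_1`.
`Sc`: deterministic state, `Ev`: the event (time, request, heavy?, class), `Rs`: random stages and entry times,
`c` the coin of the step, `U` the radii variables.
-/

set_option autoImplicit false
set_option linter.unusedSectionVars false
set_option linter.unusedVariables false

namespace Crest.Agent.R314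

open Finset Function
open scoped Classical

variable {X : Type*} [MetricSpace X]

def NN (b : ℕ) : ℕ := 2 ^ (2 ^ (b + 3))
def thr (i m : ℕ) : ℕ := NN (i + m) ^ 2

structure Sc (X : Type*) where
  C : Finset ℕ
  K : Finset ℕ
  loc : ℕ → X
  org : ℕ → ℕ
  age : ℕ → ℕ
  nm : ℕ → ℕ

structure Ev (X : Type*) where
  t : ℕ
  x : X
  hv : Prop
  i : ℕ

structure Rs where
  stg : ℕ → ℕ
  ent : ℕ → ℕ

namespace Sc

variable (S : Sc X) (r : ℝ) (e : Ev X)

/-- a new king is created -/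
def isK : Prop := e.hv ∧ ¬ ∃ u ∈ S.K, dist (S.loc u) e.x ≤ 40 * r
/-- a new ordinary centre is created -/
def isN : Prop := ¬ e.hv ∧ ¬ ∃ u ∈ S.C, S.org u ≤ e.i ∧ S.age u < thr (S.org u) 0 ∧ dist (S.loc u) e.x ≤ 160 * r
/-- dethroned kings -/
noncomputable def Dth : Finset ℕ := S.K.filter fun u => S.isK r e ∧ dist (S.loc u) e.x ≤ 409600 * r
/-- the king that gives its name -/
noncomputable def Sw : Finset ℕ := S.K.filter fun u => S.isK r e ∧ dist (S.loc u) e.x ≤ 321 * r
noncomputable def aged : Finset ℕ := (S.C \ S.K).filter fun v =>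
  (S.org v = 0 ∧ ∃ u ∈ S.Dth r e, dist (S.loc v) (S.loc u) ≤ 640 * r) ∨
    (S.isN r e ∧ S.org v = e.i ∧ dist (S.loc v) e.x ≤ 640 * r)

noncomputable def upd : Sc X where
  C := if S.isK r e ∨ S.isN r e then insert e.t S.C else S.C
  K := if S.isK r e then insert e.t (S.K \ S.Dth r e) else S.K
  loc := update S.loc e.t e.x
  org := update S.org e.t (if S.isK r e then 0 else e.i)
  age := fun v => if v = e.t then 0 else if v ∈ S.aged r e then S.age v + 1 else S.age v
  nm := fun v => if v = e.t then (if h : (S.Sw r e).Nonempty then S.nm ((S.Sw r e).min' h) else e.t)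
    else if v ∈ S.Sw r e then e.t else S.nm v

structure Inv (k t : ℕ) : Prop where
  lt : ∀ v ∈ S.C, v < t
  KC : S.K ⊆ S.C
  sep : ∀ u ∈ S.K, ∀ u' ∈ S.K, u ≠ u' → 409600 * r < dist (S.loc u) (S.loc u')
  king : ∀ u ∈ S.K, S.org u = 0 ∧ S.age u = 0
  org_le : ∀ v ∈ S.C, S.org v ≤ k
  nm_lt : ∀ v ∈ S.C, S.nm v < t
  nm_inj : Set.InjOn S.nm S.C
  count : ∀ (y : X) (i A : ℕ),
    ((S.C \ S.K).filter fun v => S.org v = i ∧ S.age v ≤ A ∧ dist (S.loc v) y ≤ 320 * r).card ≤ A + 1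

variable (k G : ℕ) (R : Rs)

/-- centres that advance -/
noncomputable def adv (c : ℕ) : Finset ℕ := (S.aged r e).filter fun v =>
  R.stg v < k + 1 ∧ thr (S.org v) (R.stg v) < S.age v + 1 ∧
    ((c : ℝ) < G / NN (S.org v + R.stg v) ∨ S.age v + 1 = thr (S.org v) (R.stg v + 1))

noncomputable def rupd (c : ℕ) : Rs where
  stg := fun v => if v = e.t then 0 else if v ∈ S.adv r e k G R c then R.stg v + 1 else R.stg v
  ent := fun v => if v = e.t ∨ v ∈ S.Dth r e ∨ v ∈ S.adv r e k G R c then e.t else R.ent v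

structure RInv (t : ℕ) : Prop where
  ent_lt : ∀ v ∈ S.C, R.ent v < t
  cap : ∀ v ∈ S.C, R.stg v ≤ k + 1
  lo : ∀ v ∈ S.C, 0 < R.stg v → thr (S.org v) 0 < S.age v
  hi : ∀ v ∈ S.C, R.stg v < k + 1 → S.age v < thr (S.org v) (R.stg v + 1)

end Sc

noncomputable def AA (m : ℕ) : ℝ := 320 - 160 / 2 ^ m
noncomputable def et (c m : ℕ) : ℝ := 2 * Real.exp (-(80 * 2 ^ c / 2 ^ m))
/-- covering probability at distance `s` for class `c`, stage `m` -/
noncomputable def Fb (c m : ℕ) (s : ℝ) : ℝ :=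
  max 0 ((1 + et c m) * Real.exp (-(2 ^ c * max (s - AA m) 0)) - et c m)

namespace Sc

variable (S : Sc X) (r : ℝ) (k G : ℕ) (R : Rs) (U : ℕ → ℕ)

def cl (v : ℕ) : ℕ := S.org v + 2 * R.stg v
def cov (y : X) (v : ℕ) : Prop := (U v : ℝ) < G * Fb (S.cl R v) (R.stg v) (dist y (S.loc v) / r)
noncomputable def key (v : ℕ) : ℕ ×ₗ ℕ ×ₗ ℕ :=
  toLex (if v ∈ S.K then 0 else S.cl R v + 1, toLex (R.ent v, v))
/-- the covering centre of least key -/
noncomputable def own (y : X) : Option ℕ :=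
  if h : (S.C.filter (S.cov r G R U y)).Nonempty then
    some (Classical.choose (Finset.exists_min_image _ (S.key R) h)) else none
noncomputable def tok (y : X) : ℝ :=
  match S.own r G R U y with
  | none => 3 * k + 5
  | some v => if v ∈ S.K then 0 else S.cl R v + 2
noncomputable def lb (y : X) : ℕ ⊕ X :=
  match S.own r G R U y with
  | none => Sum.inr y
  | some v => Sum.inl (S.nm v)

end Sc

/-! ### part a: arithmetic, `Fb`, owners -/

theorem NN_ge (b : ℕ) : 256 ≤ NN b := by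
  have h : 8 ≤ 2 ^ (b + 3) :=
    calc 8 = 2 ^ 3 := by norm_num
      _ ≤ 2 ^ (b + 3) := Nat.pow_le_pow_right (by norm_num) (by omega)
  calc 256 = 2 ^ 8 := by norm_num
    _ ≤ NN b := Nat.pow_le_pow_right (by norm_num) h

theorem NN_succ (b : ℕ) : NN (b + 1) = NN b ^ 2 := by
  unfold NN
  rw [← pow_mul, show b + 1 + 3 = b + 3 + 1 by omega, pow_succ]

theorem thr_lt (i m : ℕ) : thr i m < thr i (m + 1) := by
  unfold thr
  rw [← add_assoc, NN_succ]
  have := NN_ge (i + m)
  refine Nat.pow_lt_pow_left ?_ (by norm_num)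
  nlinarith

theorem thr_mono (i : ℕ) {m m' : ℕ} (h : m ≤ m') : thr i m ≤ thr i m' := by
  exact (strictMono_nat_of_lt_succ (thr_lt i)).monotone h

theorem AA_bd (m : ℕ) : 160 ≤ AA m ∧ AA m < 320 := by
  unfold AA
  have h1 : (1 : ℝ) ≤ 2 ^ m := one_le_pow₀ (by norm_num)
  have h2 : (160 : ℝ) / 2 ^ m ≤ 160 := div_le_self (by norm_num) h1
  have h3 : (0 : ℝ) < 160 / 2 ^ m := by positivity
  constructor <;> linarith

theorem embA_et (c m : ℕ) : 0 < et c m := by
  unfold et
  positivity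

theorem Fb_mem (c m : ℕ) (s : ℝ) : 0 ≤ Fb c m s ∧ Fb c m s ≤ 1 := by
  refine ⟨le_max_left _ _, max_le zero_le_one ?_⟩
  have h1 := embA_et c m
  have h2 : Real.exp (-(2 ^ c * max (s - AA m) 0)) ≤ 1 :=
    Real.exp_le_one_iff.2 (neg_nonpos.2 (mul_nonneg (by positivity) (le_max_right _ _)))
  nlinarith

theorem Fb_one (c m : ℕ) {s : ℝ} (h : s ≤ AA m) : Fb c m s = 1 := by
  unfold Fb
  rw [max_eq_right (sub_nonpos.2 h)]
  simp

theorem Fb_zero {c m : ℕ} (hm : m ≤ c) {s : ℝ} (h : AA (m + 1) ≤ s) : Fb c m s = 0 := by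
  refine max_eq_left ?_
  have p : (0 : ℝ) < 2 ^ m := by positivity
  have h0 : (80 : ℝ) / 2 ^ m ≤ max (s - AA m) 0 := by
    refine le_max_of_le_left ?_
    have : AA (m + 1) = AA m + 80 / 2 ^ m := by
      unfold AA
      rw [pow_succ]
      field_simp
      ring
    linarith
  have h1 : Real.exp (-(2 ^ c * max (s - AA m) 0)) ≤ et c m / 2 := by
    unfold et
    rw [mul_div_cancel_left₀ _ (two_ne_zero)]
    refine Real.exp_le_exp.2 (neg_le_neg ?_)
    calc (80 : ℝ) * 2 ^ c / 2 ^ m = 2 ^ c * (80 / 2 ^ m) := by ring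
      _ ≤ _ := by gcongr
  have h2 : et c m ≤ 1 := by
    unfold et
    have a1 : (2 : ℝ) ^ m ≤ 2 ^ c := pow_le_pow_right₀ (by norm_num) hm
    have a2 : (1 : ℝ) ≤ 80 * 2 ^ c / 2 ^ m := by
      rw [le_div_iff₀ p]
      linarith
    have a3 := Real.add_one_le_exp (80 * 2 ^ c / 2 ^ m : ℝ)
    rw [Real.exp_neg, ← div_eq_mul_inv, div_le_one (Real.exp_pos _)]
    linarith
  have h3 := embA_et c m
  nlinarith

theorem Fb_anti (c m : ℕ) {s s' : ℝ} (h : s ≤ s') : Fb c m s' ≤ Fb c m s := by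
  refine max_le_max le_rfl (sub_le_sub_right ?_ _)
  have h3 := embA_et c m
  gcongr

theorem Fb_lip (c m : ℕ) {s s' : ℝ} (h : s ≤ s') :
    Fb c m s - Fb c m s' ≤ 2 ^ c * (s' - s) * (Fb c m s + et c m) := by
  have h3 := embA_et c m
  have p : (0 : ℝ) < 2 ^ c := by positivity
  have d : 0 ≤ 2 ^ c * (s' - s) := mul_nonneg p.le (sub_nonneg.2 h)
  have b1 : (1 + et c m) * Real.exp (-(2 ^ c * max (s' - AA m) 0)) - et c m ≤ Fb c m s' := le_max_right _ _
  have b0 := (Fb_mem c m s').1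
  rcases le_total ((1 + et c m) * Real.exp (-(2 ^ c * max (s - AA m) 0)) - et c m) 0 with g | g
  · have e : Fb c m s = 0 := max_eq_left g
    rw [e]
    have := mul_nonneg d h3.le
    linarith
  · have e : Fb c m s = (1 + et c m) * Real.exp (-(2 ^ c * max (s - AA m) 0)) - et c m := max_eq_right g
    have k1 : max (s' - AA m) 0 ≤ max (s - AA m) 0 + (s' - s) := by
      refine max_le ?_ ?_
      · linarith [le_max_left (s - AA m) 0]
      · linarith [le_max_right (s - AA m) 0]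
    have k2 : Real.exp (-(2 ^ c * max (s - AA m) 0)) * (1 - 2 ^ c * (s' - s)) ≤
        Real.exp (-(2 ^ c * max (s' - AA m) 0)) := by
      calc _ ≤ Real.exp (-(2 ^ c * max (s - AA m) 0)) * Real.exp (-(2 ^ c * (s' - s))) := by
            gcongr
            linarith [Real.add_one_le_exp (-(2 ^ c * (s' - s)))]
        _ = Real.exp (-(2 ^ c * (max (s - AA m) 0 + (s' - s)))) := by
            rw [← Real.exp_add]
            congr 1
            ring
        _ ≤ _ := by gcongr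
    have k3 := mul_le_mul_of_nonneg_left k2 (by linarith : 0 ≤ 1 + et c m)
    rw [e]
    linarith

namespace Sc

variable {S : Sc X} {r : ℝ} {k G t : ℕ} {R : Rs} {U : ℕ → ℕ} {e : Ev X}

theorem key_inj (S : Sc X) (R : Rs) : Injective (S.key R) := by
  intro v w h
  have := congrArg (fun q : ℕ ×ₗ ℕ ×ₗ ℕ => (ofLex (ofLex q).2).2) h
  simpa [key] using this

theorem own_some {y : X} {v : ℕ} : S.own r G R U y = some v ↔
    v ∈ S.C ∧ S.cov r G R U y v ∧ ∀ w ∈ S.C, S.cov r G R U y w → S.key R v ≤ S.key R w := by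
  unfold own
  split_ifs with h
  · obtain ⟨h1, h2⟩ := Classical.choose_spec (Finset.exists_min_image _ (S.key R) h)
    rw [mem_filter] at h1
    rw [Option.some_inj]
    constructor
    · rintro rfl
      exact ⟨h1.1, h1.2, fun w hw hc => h2 w (mem_filter.2 ⟨hw, hc⟩)⟩
    · rintro ⟨a, b, c⟩
      exact key_inj S R (le_antisymm (h2 v (mem_filter.2 ⟨a, b⟩)) (c _ h1.1 h1.2))
  · simp only [false_iff]
    rintro ⟨a, b, -⟩
    exact h ⟨v, mem_filter.2 ⟨a, b⟩⟩

theorem own_none {y : X} : S.own r G R U y = none ↔ ∀ w ∈ S.C, ¬ S.cov r G R U y w := by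
  unfold own
  split_ifs with h
  · simp only [false_iff]
    obtain ⟨w, hw⟩ := h
    rw [mem_filter] at hw
    exact fun k => k w hw.1 hw.2
  · simp only [true_iff]
    exact fun w hw hc => h ⟨w, mem_filter.2 ⟨hw, hc⟩⟩

theorem cov_dist (hr : 0 < r) {y : X} {v : ℕ} (h : S.cov r G R U y v) :
    dist y (S.loc v) < AA (R.stg v + 1) * r := by
  by_contra c
  have z : Fb (S.cl R v) (R.stg v) (dist y (S.loc v) / r) = 0 :=
    Fb_zero (by unfold cl; omega) ((le_div_iff₀ hr).2 (not_lt.1 c))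
  unfold cov at h
  rw [z, mul_zero] at h
  exact absurd h (not_lt.2 (Nat.cast_nonneg _))

theorem cov_of_dist (hr : 0 < r) {y : X} {v : ℕ} (hU : U v < G) (h : dist y (S.loc v) ≤ AA (R.stg v) * r) :
    S.cov r G R U y v := by
  unfold cov
  rw [Fb_one _ _ ((div_le_iff₀ hr).2 h), mul_one]
  exact_mod_cast hU

theorem tok_bd (hS : S.Inv r k t) (hR : S.RInv k R t) (y : X) :
    0 ≤ S.tok r k G R U y ∧ S.tok r k G R U y ≤ 3 * k + 5 := by
  have k0 : (0 : ℝ) ≤ k := Nat.cast_nonneg _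
  unfold tok
  rcases h : S.own r G R U y with _ | v
  · exact ⟨by positivity, le_rfl⟩
  · have hv := (own_some.1 h).1
    have a : S.cl R v + 2 ≤ 3 * k + 5 := by
      have := hS.org_le v hv
      have := hR.cap v hv
      unfold cl
      omega
    simp only
    split_ifs
    · exact ⟨le_rfl, by positivity⟩
    · exact ⟨by positivity, by exact_mod_cast a⟩

theorem king_stg (hS : S.Inv r k t) (hR : S.RInv k R t) {u : ℕ} (hu : u ∈ S.K) : R.stg u = 0 := by
  by_contra c
  have := hR.lo u (hS.KC hu) (Nat.pos_of_ne_zero c)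
  rw [(hS.king u hu).2] at this
  exact absurd this (Nat.not_lt_zero _)

/-! ### part b: invariants -/

theorem edb_king_eq (hr : 0 < r) (hS : S.Inv r k t) {u v : ℕ} (hu : u ∈ S.K) (hv : v ∈ S.K) {y : X}
    (h1 : dist (S.loc u) y ≤ 321 * r) (h2 : dist (S.loc v) y ≤ 321 * r) : u = v := by
  by_contra hne
  have := hS.sep u hu v hv hne
  have := dist_triangle_right (S.loc u) (S.loc v) y
  linarith

theorem edb_mem_Dth {u : ℕ} : u ∈ S.Dth r e ↔ u ∈ S.K ∧ S.isK r e ∧ dist (S.loc u) e.x ≤ 409600 * r := mem_filter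

theorem edb_mem_Sw {u : ℕ} : u ∈ S.Sw r e ↔ u ∈ S.K ∧ S.isK r e ∧ dist (S.loc u) e.x ≤ 321 * r := mem_filter

theorem edb_mem_aged {v : ℕ} : v ∈ S.aged r e ↔ (v ∈ S.C ∧ v ∉ S.K) ∧
    ((S.org v = 0 ∧ ∃ u ∈ S.Dth r e, dist (S.loc v) (S.loc u) ≤ 640 * r) ∨
      (S.isN r e ∧ S.org v = e.i ∧ dist (S.loc v) e.x ≤ 640 * r)) := by
  rw [aged, mem_filter, mem_sdiff]

theorem edb_mem_C {v : ℕ} : v ∈ (S.upd r e).C ↔ (v = e.t ∧ (S.isK r e ∨ S.isN r e)) ∨ v ∈ S.C := by
  by_cases h : S.isK r e ∨ S.isN r e <;> simp [upd, h]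

theorem edb_mem_K {v : ℕ} : v ∈ (S.upd r e).K ↔ (v = e.t ∧ S.isK r e) ∨ (v ∈ S.K ∧ v ∉ S.Dth r e) := by
  by_cases h : S.isK r e <;> simp [upd, h, edb_mem_Dth]

theorem edb_loc_t : (S.upd r e).loc e.t = e.x := update_self ..

theorem edb_loc {v : ℕ} (h : v ≠ e.t) : (S.upd r e).loc v = S.loc v := update_of_ne h ..

theorem edb_org_t : (S.upd r e).org e.t = if S.isK r e then 0 else e.i := update_self ..

theorem edb_org {v : ℕ} (h : v ≠ e.t) : (S.upd r e).org v = S.org v := update_of_ne h ..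

theorem edb_age_t : (S.upd r e).age e.t = 0 := if_pos rfl

theorem edb_age_aged {v : ℕ} (h : v ≠ e.t) (h' : v ∈ S.aged r e) : (S.upd r e).age v = S.age v + 1 :=
  (if_neg h).trans (if_pos h')

theorem edb_age_not {v : ℕ} (h : v ≠ e.t) (h' : v ∉ S.aged r e) : (S.upd r e).age v = S.age v :=
  (if_neg h).trans (if_neg h')

theorem edb_age_le {v : ℕ} (h : v ≠ e.t) : S.age v ≤ (S.upd r e).age v := by
  by_cases h' : v ∈ S.aged r e
  · rw [edb_age_aged h h']; omega
  · rw [edb_age_not h h']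

theorem edb_not_KN (h : S.isK r e) (h' : S.isN r e) : False := h'.1 h.1

theorem edb_thr_pos (i m : ℕ) : 0 < thr i m := by
  unfold thr NN
  positivity

theorem Sw_eq (hr : 0 < r) (hS : S.Inv r k t) {u : ℕ} (hu : u ∈ S.Sw r e) : S.Sw r e = {u} := by
  refine eq_singleton_iff_unique_mem.2 ⟨hu, fun v hv => ?_⟩
  rw [edb_mem_Sw] at hu hv
  exact edb_king_eq hr hS hv.1 hu.1 hv.2.2 hu.2.2

theorem Sw_sub (hr : 0 < r) : S.Sw r e ⊆ S.Dth r e := by
  intro u hu
  rw [edb_mem_Sw] at hu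
  exact edb_mem_Dth.2 ⟨hu.1, hu.2.1, by linarith [hu.2.2]⟩

theorem edb_nm_inj (hr : 0 < r) (hS : S.Inv r k e.t) : Set.InjOn (S.upd r e).nm (S.upd r e).C := by
  have hC : ∀ v ∈ (S.upd r e).C, v ≠ e.t → v ∈ S.C := fun v hv h => (edb_mem_C.1 hv).resolve_left fun h' => h h'.1
  have hlt := hS.nm_lt
  have hinj := hS.nm_inj
  by_cases hne : (S.Sw r e).Nonempty
  · obtain ⟨u, hu⟩ := id hne
    have hsw := Sw_eq hr hS hu
    have huC : u ∈ S.C := hS.KC (edb_mem_Sw.1 hu).1
    have hmin : (S.Sw r e).min' hne = u := by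
      have h0 : ∀ v ∈ S.Sw r e, v = u := fun v hv => by rwa [hsw, mem_singleton] at hv
      exact h0 _ (min'_mem _ hne)
    have h1 : (S.upd r e).nm e.t = S.nm u := by
      have : (S.upd r e).nm e.t = S.nm ((S.Sw r e).min' hne) := (if_pos rfl).trans (dif_pos hne)
      rw [this, hmin]
    have h2 : ∀ v, v ≠ e.t → (S.upd r e).nm v = if v = u then e.t else S.nm v := fun v hv => by
      have : (S.upd r e).nm v = if v ∈ S.Sw r e then e.t else S.nm v := if_neg hv
      rw [this, hsw]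
      simp
    have key : ∀ v ∈ (S.upd r e).C, v ≠ e.t → (S.upd r e).nm v ≠ (S.upd r e).nm e.t := fun v hv h => by
      rw [h1, h2 v h]
      split_ifs with h3
      · exact (hlt u huC).ne'
      · exact fun h4 => h3 (hinj (hC v hv h) huC h4)
    intro v hv w hw h
    by_cases hvt : v = e.t
    · by_cases hwt : w = e.t
      · rw [hvt, hwt]
      · exact absurd (hvt ▸ h).symm (key w hw hwt)
    · by_cases hwt : w = e.t
      · exact absurd (hwt ▸ h) (key v hv hvt)
      · rw [h2 v hvt, h2 w hwt] at h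
        have h5 := hlt v (hC v hv hvt)
        have h6 := hlt w (hC w hw hwt)
        split_ifs at h with h3 h4 h4
        · rw [h3, h4]
        · omega
        · omega
        · exact hinj (hC v hv hvt) (hC w hw hwt) h
  · have h1 : (S.upd r e).nm e.t = e.t := (if_pos rfl).trans (dif_neg hne)
    have h2 : ∀ v, v ≠ e.t → (S.upd r e).nm v = S.nm v := fun v hv =>
      (if_neg hv).trans (if_neg fun h => hne ⟨v, h⟩)
    intro v hv w hw h
    by_cases hvt : v = e.t
    · by_cases hwt : w = e.t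
      · rw [hvt, hwt]
      · rw [hvt, h1, h2 w hwt] at h
        exact absurd h (hlt w (hC w hw hwt)).ne'
    · by_cases hwt : w = e.t
      · rw [hwt, h1, h2 v hvt] at h
        exact absurd h (hlt v (hC v hv hvt)).ne
      · rw [h2 v hvt, h2 w hwt] at h
        exact hinj (hC v hv hvt) (hC w hw hwt) h

theorem edb_count (hr : 0 < r) (hS : S.Inv r k e.t) (y : X) (i A : ℕ) :
    (((S.upd r e).C \ (S.upd r e).K).filter fun v => (S.upd r e).org v = i ∧ (S.upd r e).age v ≤ A ∧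
      dist ((S.upd r e).loc v) y ≤ 320 * r).card ≤ A + 1 := by
  set F' := ((S.upd r e).C \ (S.upd r e).K).filter fun v => (S.upd r e).org v = i ∧ (S.upd r e).age v ≤ A ∧
      dist ((S.upd r e).loc v) y ≤ 320 * r with hF'
  have hmem : ∀ v ∈ F', (v = e.t ∧ S.isN r e ∧ e.i = i ∧ dist e.x y ≤ 320 * r) ∨
      (v ≠ e.t ∧ v ∈ S.C ∧ (v ∉ S.K ∨ v ∈ S.Dth r e) ∧ S.org v = i ∧ (S.upd r e).age v ≤ A ∧
        dist (S.loc v) y ≤ 320 * r) := by
    intro v hv
    rw [hF', mem_filter, mem_sdiff, edb_mem_C, edb_mem_K] at hv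
    obtain ⟨⟨h1, h2⟩, h3, h4, h5⟩ := hv
    by_cases hvt : v = e.t
    · left
      have hK : ¬ S.isK r e := fun h => h2 (Or.inl ⟨hvt, h⟩)
      rw [hvt] at h3 h5
      rw [edb_org_t, if_neg hK] at h3
      rw [edb_loc_t] at h5
      refine ⟨hvt, ?_, h3, h5⟩
      rcases h1 with h1 | h1
      · exact h1.2.resolve_left hK
      · exact absurd (hS.lt v h1) (by omega)
    · right
      rw [edb_org hvt] at h3
      rw [edb_loc hvt] at h5
      refine ⟨hvt, h1.resolve_left fun h => hvt h.1, ?_, h3, h4, h5⟩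
      by_contra h6
      push Not at h6
      exact h2 (Or.inr h6)
  -- either there is no entry, or all the other centres have been aged
  have hcase : (∀ v ∈ F', v ≠ e.t ∧ v ∉ S.K) ∨ ∃ u, ∀ v ∈ F', v ≠ u → v ≠ e.t ∧ v ∈ S.aged r e := by
    by_contra hcon
    rw [not_or] at hcon
    obtain ⟨hc1, hc2⟩ := hcon
    push Not at hc1
    obtain ⟨u, hu, hu2⟩ := hc1
    refine hc2 ⟨u, fun v hv hvu => ?_⟩
    rcases hmem u hu with ⟨u1, u2, u3, u4⟩ | ⟨u1, u2, u3, u4, u5, u6⟩
    · rcases hmem v hv with ⟨v1, -⟩ | ⟨v1, v2, v3, v4, v5, v6⟩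
      · exact absurd (v1.trans u1.symm) hvu
      · refine ⟨v1, edb_mem_aged.2 ⟨⟨v2, ?_⟩, Or.inr ⟨u2, v4.trans u3.symm, ?_⟩⟩⟩
        · exact v3.resolve_right fun h => edb_not_KN (edb_mem_Dth.1 h).2.1 u2
        · have := dist_triangle_right (S.loc v) e.x y
          linarith
    · have huK : u ∈ S.K := hu2 u1
      have huD : u ∈ S.Dth r e := u3.resolve_left fun h => h huK
      rcases hmem v hv with ⟨v1, v2, -⟩ | ⟨v1, v2, v3, v4, v5, v6⟩
      · exact (edb_not_KN (edb_mem_Dth.1 huD).2.1 v2).elim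
      · have hvK : v ∉ S.K := fun h => hvu (edb_king_eq hr hS h huK (y := y) (by linarith) (by linarith))
        refine ⟨v1, edb_mem_aged.2 ⟨⟨v2, hvK⟩, Or.inl ⟨?_, u, huD, ?_⟩⟩⟩
        · rw [v4, ← u4]; exact (hS.king u huK).1
        · have := dist_triangle_right (S.loc v) (S.loc u) y
          linarith
  rcases hcase with h | ⟨u, h⟩
  · refine le_trans (card_le_card fun v hv => ?_) (hS.count y i A)
    rcases hmem v hv with ⟨v1, -⟩ | ⟨v1, v2, v3, v4, v5, v6⟩
    · exact absurd v1 (h v hv).1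
    · exact mem_filter.2 ⟨mem_sdiff.2 ⟨v2, (h v hv).2⟩, v4, (edb_age_le v1).trans v5, v6⟩
  · have h2 : ∀ v ∈ F', v ≠ u → v ∈ S.C \ S.K ∧ S.org v = i ∧ S.age v + 1 ≤ A ∧ dist (S.loc v) y ≤ 320 * r := by
      intro v hv hvu
      obtain ⟨v1, va⟩ := h v hv hvu
      rcases hmem v hv with ⟨v1', -⟩ | ⟨-, v2, v3, v4, v5, v6⟩
      · exact absurd v1' v1
      · rw [edb_age_aged v1 va] at v5
        exact ⟨mem_sdiff.2 (edb_mem_aged.1 va).1, v4, v5, v6⟩
    rcases A with _ | A
    · refine le_trans (card_le_card (t := {u}) fun v hv => ?_) (by simp)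
      by_contra hvu
      have := (h2 v hv fun h => hvu (mem_singleton.2 h)).2.2.1
      omega
    · refine le_trans (card_le_card (t := insert u _) fun v hv => ?_)
        ((card_insert_le _ _).trans (Nat.succ_le_succ (hS.count y i A)))
      by_cases hvu : v = u
      · exact mem_insert.2 (Or.inl hvu)
      · obtain ⟨v1, v2, v3, v4⟩ := h2 v hv hvu
        exact mem_insert.2 (Or.inr (mem_filter.2 ⟨v1, v2, by omega, v4⟩))

/-- `count`: if an entry (the new centre, or a dethroned king; at most one is within `320 r` of `y`) is counted,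
all the other counted centres have been aged -/
theorem inv_upd (hr : 0 < r) (hS : S.Inv r k e.t) (hi : e.i ≤ k) : (S.upd r e).Inv r k (e.t + 1) := by
  have hC : ∀ v ∈ (S.upd r e).C, v ≠ e.t → v ∈ S.C := fun v hv h => (edb_mem_C.1 hv).resolve_left fun h' => h h'.1
  have hKt : ∀ v ∈ S.K, v ≠ e.t := fun v hv => (hS.lt v (hS.KC hv)).ne
  refine ⟨fun v hv => ?_, fun v hv => ?_, ?_, fun u hu => ?_, fun v hv => ?_, fun v hv => ?_, edb_nm_inj hr hS,
    edb_count hr hS⟩
  · by_cases h : v = e.t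
    · omega
    · have := hS.lt v (hC v hv h)
      omega
  · rcases edb_mem_K.1 hv with h | h
    · exact edb_mem_C.2 (Or.inl ⟨h.1, Or.inl h.2⟩)
    · exact edb_mem_C.2 (Or.inr (hS.KC h.1))
  · have key : S.isK r e → ∀ u, u ∈ S.K → u ∉ S.Dth r e → 409600 * r < dist (S.loc u) e.x := fun h u h1 h2 =>
      lt_of_not_ge fun h3 => h2 (edb_mem_Dth.2 ⟨h1, h, h3⟩)
    intro u hu u' hu' hne
    rcases edb_mem_K.1 hu with h | h
    · rcases edb_mem_K.1 hu' with h' | h'
      · exact absurd (h.1.trans h'.1.symm) hne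
      · rw [h.1, edb_loc_t, edb_loc (hKt _ h'.1), dist_comm]
        exact key h.2 _ h'.1 h'.2
    · rcases edb_mem_K.1 hu' with h' | h'
      · rw [h'.1, edb_loc_t, edb_loc (hKt _ h.1)]
        exact key h'.2 _ h.1 h.2
      · rw [edb_loc (hKt _ h.1), edb_loc (hKt _ h'.1)]
        exact hS.sep u h.1 u' h'.1 hne
  · rcases edb_mem_K.1 hu with h | h
    · rw [h.1, edb_org_t, edb_age_t, if_pos h.2]
      exact ⟨rfl, rfl⟩
    · rw [edb_org (hKt _ h.1), edb_age_not (hKt _ h.1) fun h' => (edb_mem_aged.1 h').1.2 h.1]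
      exact hS.king u h.1
  · by_cases h : v = e.t
    · rw [h, edb_org_t]
      split_ifs <;> omega
    · rw [edb_org h]
      exact hS.org_le v (hC v hv h)
  · by_cases h : v = e.t
    · by_cases hne : (S.Sw r e).Nonempty
      · have h1 : (S.upd r e).nm v = S.nm ((S.Sw r e).min' hne) := (if_pos h).trans (dif_pos hne)
        have := hS.nm_lt _ (hS.KC (edb_mem_Sw.1 (min'_mem _ hne)).1)
        omega
      · have h1 : (S.upd r e).nm v = e.t := (if_pos h).trans (dif_neg hne)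
        omega
    · have h1 : (S.upd r e).nm v = if v ∈ S.Sw r e then e.t else S.nm v := if_neg h
      have := hS.nm_lt v (hC v hv h)
      rw [h1]
      split_ifs <;> omega

theorem rinv_upd (hr : 0 < r) (hS : S.Inv r k e.t) (hR : S.RInv k R e.t) (c : ℕ) :
    (S.upd r e).RInv k (S.rupd r e k G R c) (e.t + 1) := by
  have hC : ∀ v ∈ (S.upd r e).C, v ≠ e.t → v ∈ S.C := fun v hv h => (edb_mem_C.1 hv).resolve_left fun h' => h h'.1
  have s0 : (S.rupd r e k G R c).stg e.t = 0 := if_pos rfl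
  have s1 : ∀ v, v ≠ e.t → v ∈ S.adv r e k G R c → (S.rupd r e k G R c).stg v = R.stg v + 1 := fun v h h' =>
    (if_neg h).trans (if_pos h')
  have s2 : ∀ v, v ≠ e.t → v ∉ S.adv r e k G R c → (S.rupd r e k G R c).stg v = R.stg v := fun v h h' =>
    (if_neg h).trans (if_neg h')
  refine ⟨fun v hv => ?_, fun v hv => ?_, fun v hv hs => ?_, fun v hv hs => ?_⟩
  · by_cases h : v = e.t ∨ v ∈ S.Dth r e ∨ v ∈ S.adv r e k G R c
    · have : (S.rupd r e k G R c).ent v = e.t := if_pos h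
      omega
    · have h1 : (S.rupd r e k G R c).ent v = R.ent v := if_neg h
      have := hR.ent_lt v (hC v hv fun h' => h (Or.inl h'))
      omega
  · by_cases h : v = e.t
    · rw [h, s0]; omega
    · by_cases h' : v ∈ S.adv r e k G R c
      · rw [s1 v h h']
        exact (mem_filter.1 h').2.1
      · rw [s2 v h h']
        exact hR.cap v (hC v hv h)
  · by_cases h : v = e.t
    · rw [h, s0] at hs; omega
    · rw [edb_org h]
      by_cases h' : v ∈ S.adv r e k G R c
      · rw [edb_age_aged h (mem_filter.1 h').1]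
        exact (thr_mono _ (Nat.zero_le _)).trans_lt (mem_filter.1 h').2.2.1
      · rw [s2 v h h'] at hs
        exact (hR.lo v (hC v hv h) hs).trans_le (edb_age_le h)
  · by_cases h : v = e.t
    · rw [h, edb_age_t]
      exact edb_thr_pos _ _
    · rw [edb_org h]
      by_cases h' : v ∈ S.adv r e k G R c
      · rw [s1 v h h', edb_age_aged h (mem_filter.1 h').1]
        have h1 := hR.hi v (hC v hv h) (mem_filter.1 h').2.1
        have h2 := thr_lt (S.org v) (R.stg v + 1)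
        omega
      · rw [s2 v h h'] at hs ⊢
        have h1 := hR.hi v (hC v hv h) hs
        by_cases ha : v ∈ S.aged r e
        · rw [edb_age_aged h ha]
          refine lt_of_le_of_ne h1 fun h2 => h' (mem_filter.2 ⟨ha, hs, ?_, Or.inr h2⟩)
          rw [h2]
          exact thr_lt _ _
        · rw [edb_age_not h ha]
          exact h1

theorem post_heavy (hr : 0 < r) (hS : S.Inv r k e.t) (h : e.hv) :
    ∃ u ∈ (S.upd r e).K, dist ((S.upd r e).loc u) e.x ≤ 40 * r := by
  by_cases hK : S.isK r e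
  · refine ⟨e.t, edb_mem_K.2 (Or.inl ⟨rfl, hK⟩), ?_⟩
    rw [edb_loc_t, dist_self]
    positivity
  · obtain ⟨u, hu, hd⟩ : ∃ u ∈ S.K, dist (S.loc u) e.x ≤ 40 * r := by
      by_contra h'
      exact hK ⟨h, h'⟩
    refine ⟨u, edb_mem_K.2 (Or.inr ⟨hu, fun h' => hK (edb_mem_Dth.1 h').2.1⟩), ?_⟩
    rwa [edb_loc (hS.lt u (hS.KC hu)).ne]

theorem post_light (hr : 0 < r) (hS : S.Inv r k e.t) (h : ¬ e.hv) :
    ∃ u ∈ (S.upd r e).C, (S.upd r e).org u ≤ e.i ∧ (S.upd r e).age u < thr ((S.upd r e).org u) 0 ∧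
      dist ((S.upd r e).loc u) e.x ≤ 160 * r := by
  have hK : ¬ S.isK r e := fun h' => h h'.1
  by_cases hN : S.isN r e
  · refine ⟨e.t, edb_mem_C.2 (Or.inl ⟨rfl, Or.inr hN⟩), ?_, ?_, ?_⟩
    · rw [edb_org_t, if_neg hK]
    · rw [edb_age_t]
      exact edb_thr_pos _ _
    · rw [edb_loc_t, dist_self]
      positivity
  · obtain ⟨u, hu, h1, h2, h3⟩ : ∃ u ∈ S.C, S.org u ≤ e.i ∧ S.age u < thr (S.org u) 0 ∧
        dist (S.loc u) e.x ≤ 160 * r := by
      by_contra h'
      exact hN ⟨h, h'⟩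
    have hut : u ≠ e.t := (hS.lt u hu).ne
    have ha : u ∉ S.aged r e := fun h' => by
      rcases (edb_mem_aged.1 h').2 with ⟨-, w, hw, -⟩ | ⟨h4, -⟩
      · exact hK (edb_mem_Dth.1 hw).2.1
      · exact hN h4
    refine ⟨u, edb_mem_C.2 (Or.inr hu), ?_⟩
    rw [edb_org hut, edb_age_not hut ha, edb_loc hut]
    exact ⟨h1, h2, h3⟩

end Sc

/-! ### part c: uniform averages -/

noncomputable def av {Ω : Type*} [Fintype Ω] (f : Ω → ℝ) : ℝ := (∑ ω, f ω) / Fintype.card Ω

/-- coordinate `t` of a seed -/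
def val {T G : ℕ} (u : Fin T → Fin G) (t : ℕ) : ℕ := if h : t < T then u ⟨t, h⟩ else 0

section av

variable {Ω : Type*} [Fintype Ω]

theorem av_mono {f g : Ω → ℝ} (h : ∀ ω, f ω ≤ g ω) : av f ≤ av g := by
  unfold av
  exact div_le_div_of_nonneg_right (Finset.sum_le_sum fun ω _ => h ω) (Nat.cast_nonneg _)

theorem av_add (f g : Ω → ℝ) : av (fun ω => f ω + g ω) = av f + av g := by
  unfold av
  rw [Finset.sum_add_distrib, add_div]

theorem av_sub (f g : Ω → ℝ) : av (fun ω => f ω - g ω) = av f - av g := by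
  unfold av
  rw [Finset.sum_sub_distrib, sub_div]

theorem av_mul (a : ℝ) (f : Ω → ℝ) : av (fun ω => a * f ω) = a * av f := by
  unfold av
  rw [← Finset.mul_sum, mul_div_assoc]

theorem av_sum {ι : Type*} (s : Finset ι) (f : ι → Ω → ℝ) : av (fun ω => ∑ i ∈ s, f i ω) = ∑ i ∈ s, av (f i) := by
  unfold av
  rw [Finset.sum_comm, Finset.sum_div]

theorem av_const [Nonempty Ω] (a : ℝ) : av (fun _ : Ω => a) = a := by
  unfold av
  have : (Fintype.card Ω : ℝ) ≠ 0 := by exact_mod_cast Fintype.card_ne_zero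
  rw [Finset.sum_const, Finset.card_univ, nsmul_eq_mul]
  field_simp

theorem exists_le_av [Nonempty Ω] (f : Ω → ℝ) : ∃ ω, f ω ≤ av f := by
  obtain ⟨ω, -, h⟩ := Finset.exists_min_image Finset.univ f Finset.univ_nonempty
  refine ⟨ω, ?_⟩
  rw [← av_const (Ω := Ω) (f ω)]
  exact av_mono fun ω' => h ω' (Finset.mem_univ _)

theorem av_prod {Ω' : Type*} [Fintype Ω'] (f : Ω × Ω' → ℝ) :
    av f = av (fun a => av fun b => f (a, b)) ∧ av f = av (fun b => av fun a => f (a, b)) := by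
  unfold av
  rw [Fintype.card_prod, Nat.cast_mul]
  constructor
  · rw [Fintype.sum_prod_type, ← Finset.sum_div, div_div, mul_comm]
  · rw [Fintype.sum_prod_type_right, ← Finset.sum_div, div_div]

theorem val_lt {T G : ℕ} (hG : 0 < G) (u : Fin T → Fin G) (t : ℕ) : val u t < G := by
  unfold val
  split_ifs with h
  · exact (u ⟨t, h⟩).2
  · exact hG

/-- independence of coordinate `t` from the others -/
theorem av_indep {T G : ℕ} (hG : 0 < G) {t : ℕ} (ht : t < T) (f : (Fin T → Fin G) → ℕ → ℝ)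
    (hf : ∀ u u' : Fin T → Fin G, (∀ s, s ≠ t → val u s = val u' s) → f u = f u') :
    av (fun u => f u (val u t)) = av fun u => av fun c : Fin G => f u c := by
  have : Nonempty (Fin G) := ⟨⟨0, hG⟩⟩
  let τ : Fin T := ⟨t, ht⟩
  let σ : (Fin T → Fin G) × Fin G → (Fin T → Fin G) × Fin G := fun p => (update p.1 τ p.2, p.1 τ)
  have hσ : Involutive σ := by
    rintro ⟨u, c⟩
    simp [σ]
  have h1 : av (fun p : (Fin T → Fin G) × Fin G => f p.1 p.2) =
      av (fun p : (Fin T → Fin G) × Fin G => f p.1 (val p.1 t)) := by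
    unfold av
    congr 1
    rw [← Equiv.sum_comp hσ.toPerm]
    refine Finset.sum_congr rfl fun p _ => ?_
    have e1 : f (update p.1 τ p.2) = f p.1 := by
      refine hf _ _ fun s hs => ?_
      unfold val
      split_ifs with h
      · rw [update_of_ne]
        intro e
        exact hs (congrArg Fin.val e)
      · rfl
    have e2 : val p.1 t = (p.1 τ : ℕ) := dif_pos ht
    show f (update p.1 τ p.2) (p.1 τ : ℕ) = f p.1 (val p.1 t)
    rw [e1, e2]
  rw [← (av_prod fun p : (Fin T → Fin G) × Fin G => f p.1 p.2).1, h1, (av_prod _).1]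
  simp only [av_const]

theorem av_lt {G : ℕ} (hG : 0 < G) {a : ℝ} (h0 : 0 ≤ a) (h1 : a ≤ 1) :
    a ≤ av (fun c : Fin G => if ((c : ℕ) : ℝ) < G * a then (1 : ℝ) else 0) ∧
      av (fun c : Fin G => if ((c : ℕ) : ℝ) < G * a then (1 : ℝ) else 0) ≤ a + 1 / G := by
  have hG' : (0 : ℝ) < G := by exact_mod_cast hG
  have hc : ⌈(G : ℝ) * a⌉₊ ≤ G := Nat.ceil_le.2 (by nlinarith)
  have e : av (fun c : Fin G => if ((c : ℕ) : ℝ) < G * a then (1 : ℝ) else 0) = (⌈(G : ℝ) * a⌉₊ : ℝ) / G := by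
    unfold av
    rw [Fintype.card_fin, Finset.sum_boole]
    congr 2
    simp only [← Nat.lt_ceil]
    rw [Fin.card_filter_val_lt, min_eq_right hc]
  rw [e]
  have h2 := Nat.le_ceil ((G : ℝ) * a)
  have h3 := Nat.ceil_lt_add_one (mul_nonneg hG'.le h0)
  constructor
  · rw [le_div_iff₀ hG']
    linarith
  · rw [div_le_iff₀ hG', add_mul, one_div, inv_mul_cancel₀ hG'.ne']
    linarith

end av

end Crest.Agent.R314
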