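import Crest.Agent.R314.EmbDefs

/-!
# Row 314, part II: the creation credit `hh` (use `Finset.fold_min_le`, `Finset.le_fold_min`)
-/

set_option autoImplicit false
set_option linter.unusedSectionVars false
set_option linter.unusedVariables false

namespace Crest.Agent.R314

open Finset Function
open scoped Classical

variable {X : Type*} [MetricSpace X]

noncomputable def clamp (s : ℝ) : ℝ := min 1 (max 0 s)

namespace Sc

noncomputable def hval (S : Sc X) (r : ℝ) (y : X) (v : ℕ) : ℝ :=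
  max (clamp ((dist y (S.loc v) / r - 40) / 40)) (min 1 ((S.age v : ℝ) / thr (S.org v) 0))
noncomputable def hcl (S : Sc X) (r : ℝ) (i : ℕ) (y : X) : ℝ :=
  (S.C.filter fun v => S.org v ≤ i).fold min 1 (S.hval r y)
noncomputable def hh (S : Sc X) (r : ℝ) (k : ℕ) (y : X) : ℝ := ∑ i ∈ range (k + 1), (1 / 2) ^ i * S.hcl r i y

variable {S : Sc X} {r : ℝ} {k t : ℕ} {e : Ev X}

theorem hh_clamp_mem (s : ℝ) : 0 ≤ clamp s ∧ clamp s ≤ 1 :=
  ⟨le_min zero_le_one (le_max_left _ _), min_le_left _ _⟩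

theorem hh_clamp_one {s : ℝ} (h : 1 ≤ s) : clamp s = 1 := min_eq_left (le_max_of_le_right h)

theorem hh_clamp_zero {s : ℝ} (h : s ≤ 0) : clamp s = 0 := by
  rw [clamp, max_eq_left h, min_eq_right zero_le_one]

theorem hh_clamp_lip {s s' a : ℝ} (ha : 0 ≤ a) (h : s ≤ s' + a) : clamp s ≤ clamp s' + a := by
  unfold clamp
  rw [← min_add_add_right, ← max_add_add_right]
  exact min_le_min (by linarith) (max_le_max (by linarith) h)

theorem hh_val_mem (S : Sc X) (r : ℝ) (y : X) (v : ℕ) : 0 ≤ S.hval r y v ∧ S.hval r y v ≤ 1 :=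
  ⟨le_max_of_le_left (hh_clamp_mem _).1, max_le (hh_clamp_mem _).2 (min_le_left _ _)⟩

theorem hh_val_far (hr : 0 < r) {y : X} {v : ℕ} (h : 80 * r ≤ dist y (S.loc v)) : S.hval r y v = 1 := by
  refine le_antisymm (hh_val_mem S r y v).2 (le_max_of_le_left (hh_clamp_one ?_).ge)
  have : 80 ≤ dist y (S.loc v) / r := (le_div_iff₀ hr).2 h
  linarith

theorem hh_val_zero (hr : 0 < r) {y : X} {v : ℕ} (h : dist y (S.loc v) ≤ 40 * r) (ha : S.age v = 0) :
    S.hval r y v = 0 := by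
  have : dist y (S.loc v) / r ≤ 40 := (div_le_iff₀ hr).2 h
  rw [hval, hh_clamp_zero (by linarith), ha]
  simp

theorem hh_cl_mem (S : Sc X) (r : ℝ) (i : ℕ) (y : X) : 0 ≤ S.hcl r i y ∧ S.hcl r i y ≤ 1 :=
  ⟨(Finset.le_fold_min _).2 ⟨zero_le_one, fun v _ => (hh_val_mem S r y v).1⟩,
    (Finset.fold_min_le _).2 (.inl le_rfl)⟩

theorem hh_cl_le {i v : ℕ} (y : X) (hv : v ∈ S.C) (ho : S.org v ≤ i) : S.hcl r i y ≤ S.hval r y v :=
  (Finset.fold_min_le _).2 (.inr ⟨v, mem_filter.2 ⟨hv, ho⟩, le_rfl⟩)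

theorem hh_cl_cmp {S' : Sc X} {i : ℕ} {y y' : X} {a : ℝ} (ha : 0 ≤ a)
    (h : ∀ v ∈ S.C, S.org v ≤ i → v ∈ S'.C ∧ S'.org v ≤ i ∧ S'.hval r y' v ≤ S.hval r y v + a) :
    S'.hcl r i y' ≤ S.hcl r i y + a := by
  rw [← sub_le_iff_le_add]
  refine (Finset.le_fold_min _).2 ⟨by linarith [(hh_cl_mem S' r i y').2], fun v hv => ?_⟩
  obtain ⟨h1, h2, h3⟩ := h v (mem_filter.1 hv).1 (mem_filter.1 hv).2
  linarith [hh_cl_le (r := r) y' h1 h2]

theorem hh_sum_le {f g : ℕ → ℝ} {a : ℝ} (ha : 0 ≤ a) (k : ℕ) (h : ∀ i, f i ≤ g i + a) :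
    ∑ i ∈ range (k + 1), (1 / 2) ^ i * f i ≤ ∑ i ∈ range (k + 1), (1 / 2) ^ i * g i + 2 * a := by
  refine le_trans ?_ (add_le_add le_rfl (mul_le_mul_of_nonneg_right (sum_geometric_two_le (k + 1)) ha))
  rw [sum_mul, ← sum_add_distrib]
  exact sum_le_sum fun i _ => by rw [← mul_add]; exact mul_le_mul_of_nonneg_left (h i) (by positivity)

theorem hh_thr_pos (i : ℕ) : (0 : ℝ) < thr i 0 := by
  unfold thr NN; positivity

theorem hh_old (hS : S.Inv r k e.t) {v : ℕ} (hv : v ∈ S.C) (y : X) :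
    v ∈ (S.upd r e).C ∧ (S.upd r e).org v = S.org v ∧ (S.upd r e).loc v = S.loc v ∧
      (v ∉ S.aged r e → (S.upd r e).hval r y v = S.hval r y v) ∧
      (S.upd r e).hval r y v ≤ S.hval r y v + 1 / thr (S.org v) 0 := by
  have hne : v ≠ e.t := (hS.lt v hv).ne
  have h1 : (S.upd r e).org v = S.org v := update_of_ne hne _ _
  have h2 : (S.upd r e).loc v = S.loc v := update_of_ne hne _ _
  have h3 : (S.upd r e).age v = if v ∈ S.aged r e then S.age v + 1 else S.age v := if_neg hne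
  have h4 := hh_thr_pos (S.org v)
  refine ⟨?_, h1, h2, fun h => by rw [hval, hval, h1, h2, h3, if_neg h], ?_⟩
  · simp only [upd]
    split_ifs
    · exact mem_insert_of_mem hv
    · exact hv
  · rw [hval, hval, h1, h2, h3, ← max_add_add_right, ← min_add_add_right]
    refine max_le_max (le_add_of_nonneg_right (by positivity))
      (min_le_min (le_add_of_nonneg_right (by positivity)) ?_)
    rw [← add_div]
    refine div_le_div_of_nonneg_right ?_ h4.le
    split_ifs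
    · simp
    · simp

theorem hh_new (hr : 0 < r) (h : S.isK r e ∨ S.isN r e) {i : ℕ}
    (hi : (if S.isK r e then 0 else e.i) ≤ i) {y : X} (hy : dist y e.x ≤ 40 * r) :
    (S.upd r e).hcl r i y = 0 := by
  refine le_antisymm ((hh_cl_le (v := e.t) y ?_ ?_).trans_eq (hh_val_zero hr ?_ ?_))
    (hh_cl_mem _ _ _ _).1
  · simp only [upd, if_pos h, mem_insert_self]
  · simpa only [upd, update_self] using hi
  · simpa only [upd, update_self] using hy
  · simp only [upd, if_true]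

theorem hh_bd (S : Sc X) (r : ℝ) (k : ℕ) (y : X) : 0 ≤ S.hh r k y ∧ S.hh r k y ≤ 2 := by
  refine ⟨sum_nonneg fun i _ => mul_nonneg (by positivity) (hh_cl_mem S r i y).1, ?_⟩
  have := hh_sum_le (f := fun i => S.hcl r i y) (g := fun _ => 0) zero_le_one k
    fun i => by simpa using (hh_cl_mem S r i y).2
  simpa [hh] using this

theorem hh_king (hr : 0 < r) (hS : S.Inv r k t) {u : ℕ} (hu : u ∈ S.K) {x : X} (hx : dist (S.loc u) x ≤ 40 * r) :
    S.hh r k x = 0 := by
  refine sum_eq_zero fun i _ => mul_eq_zero_of_right _ (le_antisymm ?_ (hh_cl_mem S r i x).1)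
  exact (hh_cl_le x (hS.KC hu) ((hS.king u hu).1.trans_le (Nat.zero_le i))).trans_eq
    (hh_val_zero hr (by rwa [dist_comm]) (hS.king u hu).2)

theorem hh_lip (hr : 0 < r) (x y : X) : S.hh r k x - S.hh r k y ≤ 2 * min (dist y x / r) 1 := by
  have h0 : 0 ≤ dist y x / r := by positivity
  rw [sub_le_iff_le_add']
  refine hh_sum_le (le_min h0 zero_le_one) k fun i => ?_
  rw [← min_add_add_left]
  refine le_min (hh_cl_cmp h0 fun v hv ho => ⟨hv, ho, ?_⟩)
    (by linarith [(hh_cl_mem S r i x).2, (hh_cl_mem S r i y).1])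
  rw [hval, hval, ← max_add_add_right]
  refine max_le_max (hh_clamp_lip h0 ?_) (le_add_of_nonneg_right h0)
  have : dist x (S.loc v) / r ≤ dist y (S.loc v) / r + dist y x / r := by
    rw [← add_div]
    exact div_le_div_of_nonneg_right (by linarith [dist_triangle x y (S.loc v), dist_comm x y]) hr.le
  linarith

theorem hh_upd_N (hr : 0 < r) (hS : S.Inv r k e.t) (hi : e.i ≤ k) (hN : S.isN r e) (y : X) :
    (S.upd r e).hh r k y ≤ S.hh r k y + (if dist y e.x ≤ 960 * r then 2 * (1 / 2) ^ e.i / (thr e.i 0 : ℝ) else 0) -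
      (if dist y e.x ≤ r then (1 / 2) ^ e.i else 0) := by
  have hK : ¬ S.isK r e := fun h => hN.1 h.1
  have hag : ∀ v ∈ S.aged r e, S.org v = e.i ∧ dist (S.loc v) e.x ≤ 640 * r := fun v hv => by
    rcases (mem_filter.1 hv).2 with ⟨-, u, hu, -⟩ | h
    · exact absurd (mem_filter.1 hu).2.1 hK
    · exact h.2
  have ht := hh_thr_pos e.i
  obtain ⟨a, ha, a0⟩ : ∃ a : ℝ, a = (if dist y e.x ≤ 960 * r then 1 / (thr e.i 0 : ℝ) else 0) ∧ 0 ≤ a :=
    ⟨_, rfl, by split_ifs <;> positivity⟩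
  have h1 : ∀ i, (S.upd r e).hcl r i y ≤ S.hcl r i y + if e.i ≤ i then a else 0 := fun i => by
    refine hh_cl_cmp (by split_ifs <;> positivity) fun v hv ho => ?_
    obtain ⟨b1, b2, b3, b4, b5⟩ := hh_old hS hv y
    refine ⟨b1, b2 ▸ ho, ?_⟩
    by_cases hv' : v ∈ S.aged r e
    · obtain ⟨c1, c2⟩ := hag v hv'
      rw [if_pos (c1 ▸ ho), ha]
      split_ifs with h
      · exact c1 ▸ b5
      · rw [hh_val_far (S := S) hr (by linarith [dist_triangle y (S.loc v) e.x]), add_zero]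
        exact (hh_val_mem _ _ _ _).2
    · rw [b4 hv']
      exact le_add_of_nonneg_right (by split_ifs <;> positivity)
  have h2 : ∀ i, (1 / 2) ^ i * (S.upd r e).hcl r i y ≤ (1 / 2) ^ i * S.hcl r i y +
      (if e.i ≤ i then (1 / 2) ^ i else 0) * a -
      if i = e.i then (if dist y e.x ≤ r then (1 / 2) ^ e.i else 0) else 0 := fun i => by
    have hp : (0 : ℝ) < (1 / 2) ^ i := by positivity
    by_cases h : i = e.i ∧ dist y e.x ≤ r
    · obtain ⟨rfl, hy⟩ := h
      have c1 : 1 ≤ S.hcl r e.i y := (Finset.le_fold_min _).2 ⟨le_rfl, fun v hv => by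
        obtain ⟨d1, d2⟩ := mem_filter.1 hv
        by_cases hage : S.age v < thr (S.org v) 0
        · have : ¬ dist (S.loc v) e.x ≤ 160 * r := fun h => hN.2 ⟨v, d1, d2, hage, h⟩
          exact (hh_val_far hr (by
            linarith [dist_triangle (S.loc v) y e.x, dist_comm y (S.loc v)])).ge
        · refine le_max_of_le_right (le_min le_rfl ?_)
          rw [le_div_iff₀ (hh_thr_pos _), one_mul]
          exact_mod_cast not_lt.1 hage⟩
      rw [hh_new hr (.inr hN) (by rw [if_neg hK]) (by linarith), if_pos le_rfl, if_pos rfl, if_pos hy]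
      nlinarith [mul_nonneg hp.le a0]
    · have e0 : (if i = e.i then (if dist y e.x ≤ r then (1 / 2 : ℝ) ^ e.i else 0) else 0) = 0 := by
        split_ifs with p q
        · exact absurd ⟨p, q⟩ h
        · rfl
        · rfl
      have := mul_le_mul_of_nonneg_left (h1 i) hp.le
      rw [e0, sub_zero]
      split_ifs at this ⊢ <;> linarith
  have h3 : ∑ i ∈ range (k + 1), (if e.i ≤ i then (1 / 2 : ℝ) ^ i else 0) ≤ 2 * (1 / 2) ^ e.i := by
    rw [← sum_filter, show (range (k + 1)).filter (fun i => e.i ≤ i) = Ico e.i (k + 1) by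
      ext i; simp [and_comm], sum_Ico_eq_sum_range]
    simp only [pow_add]
    rw [← mul_sum, mul_comm]
    exact mul_le_mul_of_nonneg_right (sum_geometric_two_le _) (by positivity)
  refine (sum_le_sum fun i _ => h2 i).trans ?_
  rw [sum_sub_distrib, sum_add_distrib, sum_ite_eq', if_pos (mem_range.2 (by omega)), ← sum_mul]
  have h4 := mul_le_mul_of_nonneg_right h3 a0
  have h5 : 2 * (1 / 2) ^ e.i * a =
      if dist y e.x ≤ 960 * r then 2 * (1 / 2) ^ e.i / (thr e.i 0 : ℝ) else 0 := by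
    rw [ha]; split_ifs <;> ring
  rw [← h5, hh]
  linarith

theorem hh_upd_K (hr : 0 < r) (hS : S.Inv r k e.t) (hK : S.isK r e) (y : X) :
    (S.upd r e).hh r k y ≤ S.hh r k y +
      if 40 * r < dist y e.x ∧ dist y e.x ≤ 410560 * r then 2 / 65536 else 0 := by
  have hN : ¬ S.isN r e := fun h => h.1 hK.1
  have hag : ∀ v ∈ S.aged r e, S.org v = 0 ∧ dist (S.loc v) e.x ≤ 410240 * r := fun v hv => by
    rcases (mem_filter.1 hv).2 with ⟨h0, u, hu, h1⟩ | h
    · exact ⟨h0, by linarith [(mem_filter.1 hu).2.2, dist_triangle (S.loc v) (S.loc u) e.x]⟩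
    · exact absurd h.1 hN
  have e1 : (if 40 * r < dist y e.x ∧ dist y e.x ≤ 410560 * r then (2 : ℝ) / 65536 else 0) =
      2 * if 40 * r < dist y e.x ∧ dist y e.x ≤ 410560 * r then (1 : ℝ) / 65536 else 0 := by
    split_ifs <;> norm_num
  rw [e1]
  have a0 : 0 ≤ if 40 * r < dist y e.x ∧ dist y e.x ≤ 410560 * r then (1 : ℝ) / 65536 else 0 := by
    split_ifs <;> norm_num
  refine hh_sum_le a0 k fun i => ?_
  by_cases hy : dist y e.x ≤ 40 * r
  · rw [hh_new hr (.inl hK) (by rw [if_pos hK]; exact Nat.zero_le i) hy]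
    exact add_nonneg (hh_cl_mem _ _ _ _).1 a0
  refine hh_cl_cmp a0 fun v hv ho => ?_
  obtain ⟨b1, b2, b3, b4, b5⟩ := hh_old hS hv y
  refine ⟨b1, b2 ▸ ho, ?_⟩
  by_cases hv' : v ∈ S.aged r e
  · obtain ⟨c1, c2⟩ := hag v hv'
    split_ifs with h
    · rw [c1] at b5
      norm_num [thr, NN] at b5 ⊢
      exact b5
    · have : ¬ dist y e.x ≤ 410560 * r := fun h' => h ⟨not_le.1 hy, h'⟩
      rw [hh_val_far (S := S) hr (by linarith [dist_triangle y (S.loc v) e.x]), add_zero]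
      exact (hh_val_mem _ _ _ _).2
  · rw [b4 hv']
    exact le_add_of_nonneg_right a0

theorem hh_upd_0 (hr : 0 < r) (hS : S.Inv r k e.t) (hK : ¬ S.isK r e) (hN : ¬ S.isN r e) (y : X) :
    (S.upd r e).hh r k y = S.hh r k y := by
  have hC : (S.upd r e).C = S.C := if_neg (not_or.2 ⟨hK, hN⟩)
  have hag : ∀ v, v ∉ S.aged r e := fun v hv => by
    rcases (mem_filter.1 hv).2 with ⟨-, u, hu, -⟩ | h
    · exact hK (mem_filter.1 hu).2.1
    · exact hN h.1
  refine sum_congr rfl fun i _ => congrArg _ (le_antisymm ?_ ?_)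
  · refine (hh_cl_cmp le_rfl fun v hv ho => ?_).trans_eq (add_zero _)
    obtain ⟨b1, b2, -, b4, -⟩ := hh_old hS hv y
    exact ⟨b1, b2 ▸ ho, by rw [b4 (hag v), add_zero]⟩
  · refine (hh_cl_cmp le_rfl fun v hv ho => ?_).trans_eq (add_zero _)
    rw [hC] at hv
    obtain ⟨b1, b2, -, b4, -⟩ := hh_old hS hv y
    exact ⟨hv, b2 ▸ ho, by rw [b4 (hag v), add_zero]⟩

end Sc

end Crest.Agent.R314
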