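import Crest.Agent.R314.EmbUpd

/-!
# Row 314, part II: the offline move, in the state after the update, and the total distortion

* `typA_far`: two kings of scale `j + 1` are equal or `409600 · 4096 r` apart; at the top scale everything is within
  `4096 r`.
* `move_cred`: at most one king within `323 r` of `x` (`sep`), at most one of type A within `410882 r` (`typA_far`);
  `gen_V`, `gen_W`, `gen_Y`, `Wm_lip`.
* `move_cred_A`: the other kings are out of range; `sens_W` with `a = Ys M'`, `sens_Y`, `s = max`.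
* `move_step`: non-heavy: `post_light`, `cross`, `hh_lip`; heavy: `post_heavy`, `cross_king`, `hh_king`; if the king is of
  type B then scale `j + 1 < J` is not heavy (`post_heavy` there), so `lam (j+1) ≥ 1`.
* `d3_step`: sum `upd_step` and `move_step` with the weights `r j` (`6 r j ≤ r (j+1)`), `nf_sum`, `nmin_le`, `lam_sum`,
  `sens_total` with `q j = 3840 (m (j+2) - m j)`, `A = 7680`.
-/

set_option autoImplicit false
set_option linter.unusedSectionVars false
set_option linter.unusedVariables false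

namespace Crest.Agent.R314

open Finset Function
open scoped Classical

variable {X : Type*} [MetricSpace X] [Fintype X]

namespace Ctx

variable {c : Ctx X} {j : ℕ} {x : X} {h : List X} {M' M'' ν : X → ℝ}

/-! ### part a -/

theorem typA_far (hc : c.Ok) {u u' : ℕ} (hu : u ∈ (c.S j h).K) (hu' : u' ∈ (c.S j h).K) (hne : u ≠ u')
    (hA : c.typA j h u) (hA' : c.typA j h u') : 10 ^ 6 * c.r j < dist ((c.S j h).loc u) ((c.S j h).loc u') := by
  have hr := r_pos hc j
  have hs := (inv hc j h).sep u hu u' hu' hne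
  by_cases hJ : j + 1 = c.J
  · have h1 : dist ((c.S j h).loc u) ((c.S j h).loc u') ≤ c.r (j + 1) := by
      rw [hJ]; exact hc.diam _ _
    rw [r_succ] at h1
    linarith
  · obtain ⟨w, hw, h1⟩ := hA.resolve_left hJ
    obtain ⟨w', hw', h2⟩ := hA'.resolve_left hJ
    by_cases hww : w = w'
    · subst hww
      have := dist_triangle_right ((c.S j h).loc u) ((c.S j h).loc u') ((c.S (j + 1) h).loc w)
      linarith
    · have h3 := (inv hc (j + 1) h).sep w hw w' hw' hww
      rw [r_succ] at h3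
      have h4 := dist_triangle4_left ((c.S j h).loc u) ((c.S j h).loc u') ((c.S (j + 1) h).loc w)
        ((c.S (j + 1) h).loc w')
      linarith

theorem emva_one (s : Finset ℕ) (P : ℕ → Prop) [DecidablePred P] {a : ℝ} (ha : 0 ≤ a)
    (h : ∀ u ∈ s, ∀ v ∈ s, P u → P v → u = v) : ∑ u ∈ s, (if P u then a else 0) ≤ a := by
  rw [← sum_filter, sum_const, nsmul_eq_mul]
  have : (s.filter P).card ≤ 1 := card_le_one.2 fun u hu v hv =>
    h u (mem_filter.1 hu).1 v (mem_filter.1 hv).1 (mem_filter.1 hu).2 (mem_filter.1 hv).2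
  have h1 : ((s.filter P).card : ℝ) ≤ 1 := by exact_mod_cast this
  nlinarith

theorem emva_nmin (hc : c.Ok) (hm : Mv c.k M' ν M'' x) : 0 ≤ nmin ν x (c.r j) := by
  have := nf_bd hm (r_pos hc j) le_rfl
  linarith [this.1, this.2.2.1]

theorem emva_gen (hc : c.Ok) (hm : Mv c.k M' ν M'' x) (u : ℕ) :
    c.cred j h u M'' ≤ c.cred j h u M' +
      ((if dist ((c.S j h).loc u) x ≤ 323 * c.r j then 2 * nmin ν x (c.r j) else 0) +
        if c.typA j h u ∧ dist ((c.S j h).loc u) x ≤ 410882 * c.r j then 2 * nmin ν x (c.r j) else 0) := by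
  have hr := r_pos hc j
  have hn := emva_nmin (j := j) hc hm
  unfold cred
  by_cases hA : c.typA j h u
  · simp only [hA, if_true, true_and]
    have h1 := Wm_lip (c.r j) ((c.S j h).loc u) (Ys (c.r j) ((c.S j h).loc u) M') (Ys (c.r j) ((c.S j h).loc u) M'') M''
    have h2 := gen_W (u := (c.S j h).loc u) (a := Ys (c.r j) ((c.S j h).loc u) M') hr hm
    have h3 := gen_Y (u := (c.S j h).loc u) hr hm
    have h4 : max (Ys (c.r j) ((c.S j h).loc u) M'' - Ys (c.r j) ((c.S j h).loc u) M') 0 ≤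
        if dist ((c.S j h).loc u) x ≤ 410882 * c.r j then 2 * nmin ν x (c.r j) else 0 :=
      max_le (by linarith) (by split_ifs <;> linarith)
    linarith
  · simp only [hA, if_false, false_and, add_zero]
    exact gen_V hr hm le_rfl

theorem move_cred (hc : c.Ok) (hm : Mv c.k M' ν M'' x) :
    ∑ u ∈ (c.S j h).K, c.cred j h u M'' ≤ ∑ u ∈ (c.S j h).K, c.cred j h u M' + 4 * nmin ν x (c.r j) := by
  have hr := r_pos hc j
  have hn := emva_nmin (j := j) hc hm
  refine (sum_le_sum fun u _ => emva_gen hc hm u).trans ?_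
  rw [sum_add_distrib, sum_add_distrib]
  have h1 := emva_one (c.S j h).K (fun u => dist ((c.S j h).loc u) x ≤ 323 * c.r j) (a := 2 * nmin ν x (c.r j))
    (by linarith) fun u hu v hv h1 h2 => by
      by_contra hne
      have := (inv hc j h).sep u hu v hv hne
      have := dist_triangle_right ((c.S j h).loc u) ((c.S j h).loc v) x
      linarith
  have h2 := emva_one (c.S j h).K (fun u => c.typA j h u ∧ dist ((c.S j h).loc u) x ≤ 410882 * c.r j)
    (a := 2 * nmin ν x (c.r j)) (by linarith) fun u hu v hv h1 h2 => by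
      by_contra hne
      have := typA_far hc hu hv hne h1.1 h2.1
      have := dist_triangle_right ((c.S j h).loc u) ((c.S j h).loc v) x
      linarith [h1.2, h2.2]
  linarith

theorem move_cred_A (hc : c.Ok) (hm : Mv c.k M' ν M'' x) {u : ℕ} (hu : u ∈ (c.S j h).K)
    (hx : dist ((c.S j h).loc u) x ≤ 40 * c.r j) (hA : c.typA j h u) : ∃ s, 0 ≤ s ∧ s ≤ 24 ∧
      s * Mb M' x (s * c.r j / 2) ≤ 3840 * (Mb M' x (4096 ^ 2 * c.r j) - Mb M' x (c.r j)) ∧
      ∑ u ∈ (c.S j h).K, c.cred j h u M'' ≤ ∑ u ∈ (c.S j h).K, c.cred j h u M' + 2 * nsen ν x (c.r j) s := by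
  have hr := r_pos hc j
  have hM := hm.old_nonneg
  obtain ⟨s₁, a1, a2, a3, a4⟩ := sens_W hr hm (Ys_nonneg (r := c.r j) (u := (c.S j h).loc u) hM) hx
  obtain ⟨hY, s₂, b1, b2, b3, b4⟩ := sens_Y hr hm hx
  have hU : 0 ≤ Mb M' x (4096 ^ 2 * c.r j) - Mb M' x (c.r j) := (Ys_nonneg hM).trans hY
  refine ⟨max s₁ s₂, le_max_of_le_left a1, max_le a2 b2, ?_, ?_⟩
  · rcases le_total s₁ s₂ with h1 | h1
    · rw [max_eq_right h1]
      exact b3.trans (mul_le_mul_of_nonneg_right (by norm_num) hU)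
    · rw [max_eq_left h1]
      exact a3.trans (mul_le_mul_of_nonneg_left hY (by norm_num))
  · rw [← add_sum_erase _ _ hu, ← add_sum_erase _ _ hu]
    have h1 : ∑ v ∈ (c.S j h).K.erase u, c.cred j h v M'' ≤ ∑ v ∈ (c.S j h).K.erase u, c.cred j h v M' := by
      refine sum_le_sum fun v hv => ?_
      obtain ⟨hne, hv⟩ := mem_erase.1 hv
      have h2 := emva_gen (j := j) (h := h) hc hm v
      have h3 := dist_triangle_right ((c.S j h).loc v) ((c.S j h).loc u) x
      have h4 := (inv hc j h).sep v hv u hu hne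
      rw [if_neg (by linarith), if_neg fun h5 => by
        have := typA_far hc hv hu hne h5.1 hA
        linarith [h5.2]] at h2
      linarith
    have h2 : c.cred j h u M'' ≤ c.cred j h u M' + 2 * nsen ν x (c.r j) (max s₁ s₂) := by
      unfold cred
      rw [if_pos hA, if_pos hA]
      have c1 := Wm_lip (c.r j) ((c.S j h).loc u) (Ys (c.r j) ((c.S j h).loc u) M')
        (Ys (c.r j) ((c.S j h).loc u) M'') M''
      have c2 := nsen_mono hm hr (le_max_left s₁ s₂)
      have c3 := nsen_mono hm hr (le_max_right s₁ s₂)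
      have c4 := nf_bd hm hr b1
      have c5 : max (Ys (c.r j) ((c.S j h).loc u) M'' - Ys (c.r j) ((c.S j h).loc u) M') 0 ≤ nsen ν x (c.r j) s₂ :=
        max_le (by linarith) (by linarith [c4.1, c4.2.2.2])
      linarith
    linarith

/-! ### part b -/

theorem emvb_eq (c : Ctx X) (j : ℕ) (h : List X) (x y : X) : c.pp j h x - c.pp j h y + c.crs j h x y =
    av (fun ω : c.Sd => (if c.lb ω j h y = c.lb ω j h x then 0 else 1) + c.tok ω j h x - c.tok ω j h y) +
      4 * ((c.S j h).hh (c.r j) c.k x - (c.S j h).hh (c.r j) c.k y) := by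
  rw [av_sub, av_add, pp, pp, crs]
  ring

theorem emvb_lam (k : ℕ) (r : ℝ) (M : X → ℝ) (x : X) : 0 ≤ lam k r M x := by
  unfold lam
  split_ifs <;> positivity

theorem move_step (hc : c.Ok) (hj : j < c.J) (hT : h.length < c.T) (hm : Mv c.k M' ν (c.M (x :: h)) x) :
    ∃ s, 0 ≤ s ∧ s ≤ 24 ∧
      s * Mb M' x (s * c.r j / 2) ≤ 3840 * (Mb M' x (4096 ^ 2 * c.r j) - Mb M' x (c.r j)) ∧
      c.Psi j (x :: h) (c.M (x :: h)) + ∑ y, ν y * c.crs j (x :: h) x y ≤ c.Psi j (x :: h) M' +
        2000 * (lam c.k (c.r j) (c.M (x :: h)) x +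
          if j + 1 < c.J then lam c.k (c.r (j + 1)) (c.M (x :: h)) x else 0) * nmin ν x (c.r j) +
        500 * nsen ν x (c.r j) s + c.T * (c.k + 3) / c.G := by
  have hr := r_pos hc j
  have hn := emva_nmin (j := j) hc hm
  have := eub_ne hc
  have hE : (0 : ℝ) ≤ c.T * (c.k + 3) / c.G := by positivity
  have hU : 0 * Mb M' x (0 * c.r j / 2) ≤ 3840 * (Mb M' x (4096 ^ 2 * c.r j) - Mb M' x (c.r j)) := by
    rw [zero_mul]
    exact mul_nonneg (by norm_num) (sub_nonneg.2 (Mb_mono hm.old_nonneg x (by nlinarith)))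
  have e0 : c.Psi j (x :: h) (c.M (x :: h)) + ∑ y, ν y * c.crs j (x :: h) x y = c.Psi j (x :: h) M' +
      ∑ y, ν y * (c.pp j (x :: h) x - c.pp j (x :: h) y + c.crs j (x :: h) x y) +
      240 * (∑ u ∈ (c.S j (x :: h)).K, c.cred j (x :: h) u (c.M (x :: h)) -
        ∑ u ∈ (c.S j (x :: h)).K, c.cred j (x :: h) u M') := by
    rw [Psi, Psi, credb_move hm]
    simp only [mul_add, sum_add_distrib]
    ring
  rw [e0]
  have l1 := emvb_lam c.k (c.r j) (c.M (x :: h)) x
  have l2 : 0 ≤ if j + 1 < c.J then lam c.k (c.r (j + 1)) (c.M (x :: h)) x else 0 := by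
    split_ifs
    exacts [emvb_lam _ _ _ _, le_rfl]
  have n0 := nf_bd hm hr le_rfl
  have mc := move_cred (j := j) (h := x :: h) hc hm
  by_cases hv : heavy (c.r j) (c.M (x :: h)) x
  · obtain ⟨u, hu, hx⟩ : ∃ u ∈ (c.S j (x :: h)).K, dist ((c.S j (x :: h)).loc u) x ≤ 40 * c.r j :=
      Sc.post_heavy (e := c.e j x h) hr (inv hc j h) hv
    have a1 : ∑ y, ν y * (c.pp j (x :: h) x - c.pp j (x :: h) y + c.crs j (x :: h) x y) ≤ nf ν x (c.r j) := by
      refine sum_le_sum fun y _ => ?_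
      have b1 : c.pp j (x :: h) x - c.pp j (x :: h) y + c.crs j (x :: h) x y ≤
          if c.r j < dist y x then 1 else 0 := by
        rw [emvb_eq, Sc.hh_king hr (inv hc j (x :: h)) hu hx]
        have b2 := (av_mono fun ω : c.Sd => Sc.cross_king hr (inv hc j (x :: h)) (rinv hc j (val ω.1) (x :: h))
          (val_lt hc.G0 ω.2) hu hx y).trans (av_const _).le
        have b3 := ((c.S j (x :: h)).hh_bd (c.r j) c.k y).1
        unfold lb tok
        linarith
      refine (mul_le_mul_of_nonneg_left b1 (hm.nu0 y)).trans (le_of_eq ?_)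
      split_ifs <;> simp
    by_cases hA : c.typA j (x :: h) u
    · obtain ⟨s, s0, s1, s2, s3⟩ := move_cred_A (h := x :: h) hc hm hu hx hA
      have n1 := nf_bd hm hr s0
      refine ⟨s, s0, s1, s2, ?_⟩
      nlinarith [mul_nonneg (add_nonneg l1 l2) hn]
    · have hJ : j + 1 < c.J := lt_of_le_of_ne hj fun h1 => hA (Or.inl h1)
      have hv' : ¬ heavy (c.r (j + 1)) (c.M (x :: h)) x := fun h1 => by
        obtain ⟨w, hw, hw'⟩ := Sc.post_heavy (e := c.e (j + 1) x h) (r_pos hc (j + 1)) (inv hc (j + 1) h) h1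
        refine hA (Or.inr ⟨w, hw, (dist_triangle_right _ _ x).trans ?_⟩)
        have b1 : dist ((c.S (j + 1) (x :: h)).loc w) x ≤ 40 * c.r (j + 1) := hw'
        have b2 : dist ((c.S j (x :: h)).loc u) x ≤ 40 * c.r j := hx
        rw [r_succ] at b1
        linarith
      have l3 : 1 ≤ lam c.k (c.r (j + 1)) (c.M (x :: h)) x := by
        rw [lam, if_neg hv']; exact one_le_pow₀ one_le_two
      refine ⟨0, le_rfl, by norm_num, hU, ?_⟩
      rw [if_pos hJ]
      nlinarith [mul_nonneg l1 hn, mul_le_mul_of_nonneg_right l3 hn]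
  · obtain ⟨u, hu, ho, ha, hx⟩ := Sc.post_light (e := c.e j x h) hr (inv hc j h) hv
    have l3 : (2 : ℝ) ^ (c.S j (x :: h)).org u ≤ lam c.k (c.r j) (c.M (x :: h)) x := by
      rw [lam, if_neg hv]; exact pow_le_pow_right₀ one_le_two ho
    have l4 : 1 ≤ lam c.k (c.r j) (c.M (x :: h)) x := (one_le_pow₀ one_le_two).trans l3
    have a1 : ∑ y, ν y * (c.pp j (x :: h) x - c.pp j (x :: h) y + c.crs j (x :: h) x y) ≤
        (10 * lam c.k (c.r j) (c.M (x :: h)) x + 8) * nmin ν x (c.r j) + c.T * (c.k + 3) / c.G := by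
      have b0 : (10 * lam c.k (c.r j) (c.M (x :: h)) x + 8) * nmin ν x (c.r j) + c.T * (c.k + 3) / c.G =
          ∑ y, ν y * ((10 * lam c.k (c.r j) (c.M (x :: h)) x + 8) * min (dist y x / c.r j) 1 +
            c.T * (c.k + 3) / c.G) := by
        simp only [mul_add (ν _), sum_add_distrib, ← sum_mul, hm.nu1, one_mul, nmin, mul_sum]
        congr 1
        exact sum_congr rfl fun y _ => by ring
      rw [b0]
      refine sum_le_sum fun y _ => mul_le_mul_of_nonneg_left ?_ (hm.nu0 y)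
      have : Nonempty (Fin c.T → Fin c.G) := ⟨fun _ => ⟨0, hc.G0⟩⟩
      have b2 := (av_mono fun u' : Fin c.T → Fin c.G => Sc.cross hr hc.G0 (inv hc j (x :: h))
        (rinv hc j (val u') (x :: h)) (T := c.T) hT hu ha hx y).trans (av_const _).le
      have b3 := Sc.hh_lip (S := c.S j (x :: h)) (k := c.k) hr x y
      have b4 : 0 ≤ min (dist y x / c.r j) 1 := by positivity
      have b5 := mul_le_mul_of_nonneg_right l3 b4
      rw [emvb_eq, (av_prod _).1]
      unfold lb tok
      have b6 : (c.e j x h).x = x := rfl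
      rw [b6] at b2
      linarith
    refine ⟨0, le_rfl, by norm_num, hU, ?_⟩
    nlinarith [mul_nonneg l2 hn, mul_le_mul_of_nonneg_right l4 hn]

/-! ### part c -/

theorem emvc_tel (m : ℕ → ℝ) (n : ℕ) :
    ∑ a ∈ range n, (m (a + 2) - m a) = m (n + 1) + m n - m 1 - m 0 := by
  induction n with
  | zero => simp
  | succ n ih => rw [sum_range_succ, ih]; ring

theorem emvc_lam (k : ℕ) (r : ℝ) (M : X → ℝ) (x : X) : 0 ≤ lam k r M x := by
  unfold lam
  split_ifs <;> positivity

theorem emvc_xtr (hM : ∀ y, 0 ≤ M' y) (j : ℕ) : 0 ≤ c.xtr j x h M' := by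
  unfold xtr Ma
  split_ifs
  · exact sum_nonneg fun y _ => by split_ifs; exacts [hM y, le_rfl]
  · exact le_rfl

theorem d3_step (hc : c.Ok) (hT : h.length < c.T) (hm : Mv c.k M' ν (c.M (x :: h)) x) :
    ∑ j ∈ range c.J, c.r j * c.Psi j (x :: h) (c.M (x :: h)) +
      (∑ j ∈ range c.J, c.r j * (∑ y, M' y * c.rel j x h y + ∑ y, ν y * c.crs j (x :: h) x y) +
        ∑ j ∈ range c.J, c.r j * c.xtr j x h M' -
        (∑ j ∈ range c.J, c.r j) * ((3 * c.k + c.T * (c.k + 3)) / c.G)) ≤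
    ∑ j ∈ range c.J, c.r j * c.Psi j h M' + 10 ^ 10 * Real.log (c.k + 1) * ∑ y, ν y * dist y x := by
  have hM := hm.old_nonneg
  have hs : ∀ j, ∃ s, 0 ≤ s ∧ s ≤ 24 ∧ (j < c.J →
      s * Mb M' x (s * c.r j / 2) ≤ 3840 * (Mb M' x (4096 ^ 2 * c.r j) - Mb M' x (c.r j)) ∧
      c.Psi j (x :: h) (c.M (x :: h)) + ∑ y, ν y * c.crs j (x :: h) x y ≤ c.Psi j (x :: h) M' +
        2000 * (lam c.k (c.r j) (c.M (x :: h)) x +
          if j + 1 < c.J then lam c.k (c.r (j + 1)) (c.M (x :: h)) x else 0) * nmin ν x (c.r j) +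
        500 * nsen ν x (c.r j) s + c.T * (c.k + 3) / c.G) := fun j => by
    by_cases hj : j < c.J
    · obtain ⟨s, a, b, d, e⟩ := move_step hc hj hT hm
      exact ⟨s, a, b, fun _ => ⟨d, e⟩⟩
    · exact ⟨0, le_rfl, by norm_num, fun h' => absurd h' hj⟩
  choose s hs0 hs1 hs2 using hs
  have hD : 0 ≤ ∑ y, ν y * dist y x := sum_nonneg fun y _ => mul_nonneg (hm.nu0 y) dist_nonneg
  have hL : 1 / 2 ≤ Real.log (c.k + 1) := by
    have h1 : (1 : ℝ) ≤ c.k := by exact_mod_cast hc.k0
    have h2 := Real.log_le_log (by norm_num : (0 : ℝ) < 2) (by linarith : (2 : ℝ) ≤ c.k + 1)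
    linarith [Real.log_two_gt_d9]
  have hr2 : ∀ j, 4096 ^ 2 * c.r j = c.r (j + 2) := fun j => by
    rw [r_succ, r_succ]; ring
  have hmono : ∀ j, Mb M' x (c.r j) ≤ Mb M' x (c.r (j + 1)) := fun j =>
    Mb_mono hM x (by rw [r_succ]; linarith [r_pos hc j])
  have hm0 : ∀ j, 0 ≤ Mb M' x (c.r j) := fun j =>
    sum_nonneg fun y _ => by split_ifs; exacts [hM y, le_rfl]
  have S1 : ∑ j ∈ range c.J, c.r j * nsen ν x (c.r j) (s j) ≤
      1000 * 7680 * Real.log (c.k + 1) * ∑ y, ν y * dist y x := by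
    refine sens_total hc.k0 hm hc.r0 (q := fun j => 3840 * (Mb M' x (c.r (j + 2)) - Mb M' x (c.r j)))
      (by norm_num) c.J (fun j => ⟨hs0 j, hs1 j⟩) (fun j => ?_) (fun j hj => ?_) fun j hj => ?_
    · linarith [hmono j, hmono (j + 1)]
    · have := (hs2 j hj).1
      rw [hr2] at this
      exact this
    · rw [← mul_sum, emvc_tel (fun a => Mb M' x (c.r a))]
      show _ ≤ 7680 * (Mb M' x (c.r (j + 2)) + 1)
      linarith [hmono (j + 1), hm0 0, hm0 1]
  have S2 : ∑ j ∈ range c.J, c.r j * nf ν x (c.r j) ≤ 2 * ∑ y, ν y * dist y x := nf_sum hm hc.r0 c.J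
  have S3 : ∑ j ∈ range c.J, lam c.k (c.r j) (c.M (x :: h)) x ≤ 202 * Real.log (c.k + 1) :=
    lam_sum hm hc.r0 c.J
  have S4 : ∑ j ∈ range c.J, lam c.k (c.r (j + 1)) (c.M (x :: h)) x ≤ 202 * Real.log (c.k + 1) := by
    have h1 : ∑ j ∈ range (c.J + 1), lam c.k (c.r j) (c.M (x :: h)) x ≤ 202 * Real.log (c.k + 1) :=
      lam_sum hm hc.r0 (c.J + 1)
    rw [sum_range_succ'] at h1
    linarith [emvc_lam c.k (c.r 0) (c.M (x :: h)) x]
  have S5 : ∑ j ∈ range c.J, c.r (j + 1) * c.xtr (j + 1) x h M' ≤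
      ∑ j ∈ range c.J, c.r j * c.xtr j x h M' := by
    have h1 := sum_range_succ' (fun j => c.r j * c.xtr j x h M') c.J
    have h2 : c.xtr c.J x h M' = 0 := if_neg fun h' => lt_irrefl _ h'.1
    rw [sum_range_succ, h2, mul_zero, add_zero] at h1
    linarith [mul_nonneg (r_pos hc 0).le (emvc_xtr (c := c) (x := x) (h := h) hM 0)]
  have key : ∀ j ∈ range c.J, c.r j * c.Psi j (x :: h) (c.M (x :: h)) +
      c.r j * (∑ y, M' y * c.rel j x h y + ∑ y, ν y * c.crs j (x :: h) x y) +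
      2 * (c.r j * c.xtr j x h M') ≤ c.r j * c.Psi j h M' + 13 * (c.r j * nf ν x (c.r j)) +
      c.r (j + 1) * c.xtr (j + 1) x h M' + c.r j * ((3 * c.k + c.T * (c.k + 3)) / c.G) +
      2000 * (∑ y, ν y * dist y x) * (lam c.k (c.r j) (c.M (x :: h)) x) +
      2000 * (∑ y, ν y * dist y x) * (lam c.k (c.r (j + 1)) (c.M (x :: h)) x) +
      500 * (c.r j * nsen ν x (c.r j) (s j)) := fun j hj => by
    have hj := mem_range.1 hj
    have hr := r_pos hc j
    have a := mul_le_mul_of_nonneg_left (add_le_add (upd_step hc hj hT hm) (hs2 j hj).2) hr.le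
    have b : c.r j * (6 * c.xtr (j + 1) x h M') ≤ c.r (j + 1) * c.xtr (j + 1) x h M' := by
      rw [r_succ]
      have := mul_nonneg hr.le (emvc_xtr (c := c) (x := x) (h := h) hM (j + 1))
      linarith
    have l0 := emvc_lam c.k (c.r j) (c.M (x :: h)) x
    have l1 := emvc_lam c.k (c.r (j + 1)) (c.M (x :: h)) x
    have d : (lam c.k (c.r j) (c.M (x :: h)) x +
        if j + 1 < c.J then lam c.k (c.r (j + 1)) (c.M (x :: h)) x else 0) *
        (c.r j * nmin ν x (c.r j)) ≤
        (lam c.k (c.r j) (c.M (x :: h)) x + lam c.k (c.r (j + 1)) (c.M (x :: h)) x) *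
          ∑ y, ν y * dist y x :=
      mul_le_mul (by split_ifs <;> linarith) (nmin_le hm hr)
        (mul_nonneg hr.le (emva_nmin hc hm)) (by linarith)
    rw [add_div]
    linarith
  have T := sum_le_sum key
  simp only [sum_add_distrib, ← mul_sum, ← sum_mul] at T
  have e3 := mul_le_mul_of_nonneg_left S3 hD
  have e4 := mul_le_mul_of_nonneg_left S4 hD
  have e5 := mul_le_mul_of_nonneg_right hL hD
  linarith

end Ctx

end Crest.Agent.R314
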