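import Crest.Agent.R314.EmbDefs

/-!
# Row 314, part II: pathwise cost of an update, and the crossing cost

Every centre of `S.C` that covers `y` before the update covers it after (an advance: `cov_dist`, `cov_of_dist`).
`tok` is a strictly increasing function of the first component of the key of the owner.
* `cost_gen`: let `o` be the old owner, not dethroned, not advanced: same key, same name.  A different new owner `o'`
  is new, advanced or dethroned (else it would have beaten `o` before); dethroned is impossible (it covered `y` as a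
  king, so `o` is a king covering `y`, `sep`); so `ent o' = t > ent o` and the first component is strictly smaller.
* `first_touch`: order `C` by `κ`; `P(v is the first to touch and cuts) = P(no touch before v) · P(lo ≤ U v / G < hi)`
  (`av_indep`, `av_lt`), and the events "`v` is the first to touch" are disjoint.
-/

set_option autoImplicit false
set_option linter.unusedSectionVars false
set_option linter.unusedVariables false

namespace Crest.Agent.R314

open Finset Function
open scoped Classical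

variable {X : Type*} [MetricSpace X]

namespace Sc

/-- relabelling plus change of the token -/
noncomputable def cost (S : Sc X) (r : ℝ) (e : Ev X) (k G : ℕ) (R : Rs) (c : ℕ) (U : ℕ → ℕ) (y : X) : ℝ :=
  (if S.lb r G R U y = (S.upd r e).lb r G (S.rupd r e k G R c) U y then 0 else 1) +
    (S.upd r e).tok r k G (S.rupd r e k G R c) U y - S.tok r k G R U y

variable {S : Sc X} {r : ℝ} {k G t c : ℕ} {R : Rs} {U : ℕ → ℕ} {e : Ev X}

/-! ### part a -/

/-- first component of the key -/
noncomputable def epa_fk (S : Sc X) (R : Rs) (v : ℕ) : ℕ := if v ∈ S.K then 0 else S.cl R v + 1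

/-- the token as a function of the first component of the key -/
noncomputable def epa_g (n : ℕ) : ℝ := if n = 0 then 0 else n + 1

theorem epa_key (S : Sc X) (R : Rs) (v : ℕ) :
    S.key R v = toLex (epa_fk S R v, toLex (R.ent v, v)) := rfl

theorem epa_tok {y : X} {v : ℕ} (h : S.own r G R U y = some v) :
    S.tok r k G R U y = epa_g (epa_fk S R v) := by
  simp only [tok, h, epa_fk, epa_g]
  by_cases h1 : v ∈ S.K
  · simp [h1]
  · simp only [h1, if_false, Nat.succ_ne_zero]
    push_cast; ring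

theorem epa_g_lt {m n : ℕ} (h : m < n) : epa_g m + 1 ≤ epa_g n := by
  have h' : (m : ℝ) + 1 ≤ n := by exact_mod_cast h
  have h0 : (0 : ℝ) ≤ m := Nat.cast_nonneg m
  unfold epa_g
  rw [if_neg (by omega : n ≠ 0)]
  split_ifs <;> linarith

theorem epa_g_mono {m n : ℕ} (h : m ≤ n) : epa_g m ≤ epa_g n := by
  rcases h.eq_or_lt with rfl | h
  · exact le_rfl
  · linarith [epa_g_lt h]

theorem epa_C {v : ℕ} (h : v ∈ S.C) : v ∈ (S.upd r e).C := by
  simp only [upd]
  split_ifs
  · exact mem_insert_of_mem h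
  · exact h

theorem epa_C' {v : ℕ} (h : v ∈ (S.upd r e).C) (hv : v ≠ e.t) : v ∈ S.C := by
  simp only [upd] at h
  split_ifs at h
  · exact (mem_insert.1 h).resolve_left hv
  · exact h

theorem epa_K {v : ℕ} (hv : v ≠ e.t) : v ∈ (S.upd r e).K ↔ v ∈ S.K ∧ v ∉ S.Dth r e := by
  simp only [upd]
  split_ifs with h
  · simp [hv]
  · simp [Dth, h]

theorem epa_loc {v : ℕ} (hv : v ≠ e.t) : (S.upd r e).loc v = S.loc v := update_of_ne hv _ _

theorem epa_org {v : ℕ} (hv : v ≠ e.t) : (S.upd r e).org v = S.org v := update_of_ne hv _ _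

theorem epa_stg {v : ℕ} (hv : v ≠ e.t) : (S.rupd r e k G R c).stg v =
    if v ∈ S.adv r e k G R c then R.stg v + 1 else R.stg v := if_neg hv

theorem epa_adv_notK {v : ℕ} (h : v ∈ S.adv r e k G R c) : v ∉ S.K :=
  (mem_sdiff.1 (mem_filter.1 (mem_filter.1 h).1).1).2

theorem epa_same (y : X) {v : ℕ} (hv : v ≠ e.t) (h1 : v ∉ S.Dth r e) (h2 : v ∉ S.adv r e k G R c) :
    epa_fk (S.upd r e) (S.rupd r e k G R c) v = epa_fk S R v ∧
      (S.rupd r e k G R c).ent v = R.ent v ∧
      ((S.upd r e).cov r G (S.rupd r e k G R c) U y v ↔ S.cov r G R U y v) := by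
  have e1 : (S.rupd r e k G R c).stg v = R.stg v := by rw [epa_stg hv, if_neg h2]
  have e2 : (S.upd r e).cl (S.rupd r e k G R c) v = S.cl R v := by rw [cl, cl, e1, epa_org hv]
  refine ⟨?_, if_neg (by simp [hv, h1, h2]), ?_⟩
  · simp only [epa_fk, e2, epa_K hv, h1, not_false_eq_true, and_true]
  · rw [cov, cov, e1, e2, epa_loc hv]

theorem epa_cov (hr : 0 < r) (hU : ∀ v, U v < G) {y : X} {v : ℕ} (hv : v ≠ e.t)
    (h : S.cov r G R U y v) : (S.upd r e).cov r G (S.rupd r e k G R c) U y v := by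
  by_cases h2 : v ∈ S.adv r e k G R c
  · refine cov_of_dist hr (hU v) ?_
    rw [epa_loc hv, epa_stg hv, if_pos h2]
    exact (cov_dist hr h).le
  · have e1 : (S.rupd r e k G R c).stg v = R.stg v := by rw [epa_stg hv, if_neg h2]
    have e2 : (S.upd r e).cl (S.rupd r e k G R c) v = S.cl R v := by rw [cl, cl, e1, epa_org hv]
    rwa [cov, e1, e2, epa_loc hv]

theorem cost_gen (hr : 0 < r) (hS : S.Inv r k e.t) (hR : S.RInv k R e.t) (hi : e.i ≤ k) (hU : ∀ v, U v < G)
    (y : X) : S.cost r e k G R c U y ≤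
      if ∃ v, S.own r G R U y = some v ∧ (v ∈ S.Dth r e ∨ v ∈ S.adv r e k G R c) then 3 else 0 := by
  have hS' := inv_upd hr hS hi
  have hR' := rinv_upd (G := G) hr hS hR c
  have hlb : ∀ (p : Prop) [Decidable p], ((if p then 0 else 1 : ℝ)) ≤ 1 := fun p _ => by
    split_ifs <;> norm_num
  unfold cost
  rcases ho : S.own r G R U y with _ | o
  · rw [if_neg (by simp : ¬ ∃ v, (none : Option ℕ) = some v ∧ (v ∈ S.Dth r e ∨ v ∈ S.adv r e k G R c))]
    rcases ho' : (S.upd r e).own r G (S.rupd r e k G R c) U y with _ | o'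
    · simp [lb, tok, ho, ho']
    · have h1 := hS'.org_le o' (own_some.1 ho').1
      have h2 := hR'.cap o' (own_some.1 ho').1
      have h3 : ((S.upd r e).cl (S.rupd r e k G R c) o' : ℝ) ≤ 3 * k + 2 := by
        have : (S.upd r e).cl (S.rupd r e k G R c) o' ≤ 3 * k + 2 := by unfold cl; omega
        exact_mod_cast this
      have h4 : S.tok r k G R U y = 3 * k + 5 := by simp [tok, ho]
      have h5 : (S.upd r e).tok r k G (S.rupd r e k G R c) U y ≤ 3 * k + 4 := by
        simp only [tok, ho']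
        split_ifs
        · positivity
        · linarith
      linarith [hlb (S.lb r G R U y = (S.upd r e).lb r G (S.rupd r e k G R c) U y)]
  obtain ⟨hoC, hoc, hom⟩ := own_some.1 ho
  have hot : o ≠ e.t := (hS.lt o hoC).ne
  have hoc' := epa_cov (c := c) (k := k) hr hU hot hoc
  rcases ho' : (S.upd r e).own r G (S.rupd r e k G R c) U y with _ | o'
  · exact absurd hoc' (own_none.1 ho' o (epa_C hoC))
  obtain ⟨ho'C, ho'c, ho'm⟩ := own_some.1 ho'
  have hk := ho'm o (epa_C hoC) hoc'
  rw [epa_key, epa_key, Prod.Lex.toLex_le_toLex] at hk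
  rw [epa_tok ho, epa_tok ho']
  have hl := hlb (S.lb r G R U y = (S.upd r e).lb r G (S.rupd r e k G R c) U y)
  by_cases hd : o ∈ S.Dth r e ∨ o ∈ S.adv r e k G R c
  · rw [if_pos (⟨o, rfl, hd⟩ : ∃ v, some o = some v ∧ (v ∈ S.Dth r e ∨ v ∈ S.adv r e k G R c))]
    have h1 : epa_g (epa_fk (S.upd r e) (S.rupd r e k G R c) o') ≤
        epa_g (epa_fk (S.upd r e) (S.rupd r e k G R c) o) :=
      epa_g_mono (hk.elim le_of_lt fun h => h.1.le)
    have h2 : epa_g (epa_fk (S.upd r e) (S.rupd r e k G R c) o) ≤ epa_g (epa_fk S R o) + 2 := by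
      by_cases hK : o ∈ S.K
      · have hna : o ∉ S.adv r e k G R c := fun h => epa_adv_notK h hK
        have e1 : (S.upd r e).cl (S.rupd r e k G R c) o = 0 := by
          simp [cl, epa_org hot, epa_stg hot, hna, (hS.king o hK).1, king_stg hS hR hK]
        simp only [epa_fk, epa_g, e1, hK, if_true]
        split_ifs <;> simp_all <;> norm_num
      · have hK' : o ∉ (S.upd r e).K := fun h => hK ((epa_K hot).1 h).1
        have e1 : (S.upd r e).cl (S.rupd r e k G R c) o ≤ S.cl R o + 2 := by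
          simp only [cl, epa_org hot, epa_stg hot]
          split_ifs <;> omega
        have e2 : ((S.upd r e).cl (S.rupd r e k G R c) o : ℝ) ≤ S.cl R o + 2 := by exact_mod_cast e1
        simp only [epa_fk, epa_g, hK, hK', if_false, Nat.succ_ne_zero]
        push_cast
        linarith
    linarith
  · rw [if_neg (by simpa using not_or.1 hd :
      ¬ ∃ v, some o = some v ∧ (v ∈ S.Dth r e ∨ v ∈ S.adv r e k G R c))]
    obtain ⟨hd1, hd2⟩ := not_or.1 hd
    obtain ⟨f1, f2, -⟩ := epa_same (r := r) (G := G) (U := U) (c := c) (k := k) (R := R) y hot hd1 hd2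
    rcases hk with hk | ⟨hk1, hk2⟩
    · have := epa_g_lt hk
      simp only [f1] at this
      linarith
    · have h3 : (S.rupd r e k G R c).ent o' ≤ R.ent o := by
        rw [← f2]
        exact (Prod.Lex.toLex_le_toLex.1 hk2).elim le_of_lt fun h => h.1.le
      have h4 : ¬ (o' = e.t ∨ o' ∈ S.Dth r e ∨ o' ∈ S.adv r e k G R c) := fun h => by
        have : (S.rupd r e k G R c).ent o' = e.t := if_pos h
        have := hR.ent_lt o hoC
        omega
      push Not at h4
      obtain ⟨g1, g2, g3⟩ := epa_same (r := r) (G := G) (U := U) (c := c) (k := k) (R := R) y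
        h4.1 h4.2.1 h4.2.2
      have h5 := hom o' (epa_C' ho'C h4.1) (g3.1 ho'c)
      have h6 : S.key R o' ≤ S.key R o := by
        rw [epa_key, epa_key, ← f1, ← f2, ← g1, ← g2, Prod.Lex.toLex_le_toLex]
        exact Or.inr ⟨hk1, hk2⟩
      obtain rfl : o = o' := S.key_inj R (le_antisymm h5 h6)
      have h7 : (S.upd r e).nm o = S.nm o := by
        have : o ∉ S.Sw r e := fun h => hd1 (Sw_sub hr h)
        simp [upd, hot, this]
      rw [f1]
      simp [lb, ho, ho', h7]

/-! ### part b -/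

/-- a king covering `y` owns it -/
theorem b_own_king (hr : 0 < r) (hS : S.Inv r k t) {u : ℕ} (hu : u ∈ S.K) {y : X} (hc : S.cov r G R U y u) :
    S.own r G R U y = some u := by
  rw [own_some]
  refine ⟨hS.KC hu, hc, fun w hw hcw => ?_⟩
  by_cases hwK : w ∈ S.K
  · have hwu : w = u := by
      by_contra hne
      have h1 := hS.sep w hwK u hu hne
      have h2 := cov_dist hr hc
      have h3 := cov_dist hr hcw
      have h4 := (AA_bd (R.stg u + 1)).2
      have h5 := (AA_bd (R.stg w + 1)).2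
      have h6 := dist_triangle_left (S.loc w) (S.loc u) y
      nlinarith
    rw [hwu]
  · apply le_of_lt
    unfold key
    rw [Prod.Lex.toLex_lt_toLex]
    left
    simp [hu, hwK]

theorem b_own_king' (hr : 0 < r) (hS : S.Inv r k t) (hU : ∀ v, U v < G) {u : ℕ} (hu : u ∈ S.K) {y : X}
    (hy : dist y (S.loc u) ≤ 160 * r) : S.own r G R U y = some u := by
  refine b_own_king hr hS hu (cov_of_dist hr (hU u) (hy.trans ?_))
  exact mul_le_mul_of_nonneg_right (AA_bd _).1 hr.le

theorem b_tok_king {u : ℕ} (hu : u ∈ S.K) {y : X} (h : S.own r G R U y = some u) : S.tok r k G R U y = 0 := by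
  simp [tok, h, hu]

theorem b_lb_some {u : ℕ} {y : X} (h : S.own r G R U y = some u) : S.lb r G R U y = Sum.inl (S.nm u) := by
  simp [lb, h]

theorem b_tok_two {y : X} (h : ∀ w ∈ S.K, S.own r G R U y ≠ some w) : 2 ≤ S.tok r k G R U y := by
  unfold tok
  cases ho : S.own r G R U y with
  | none =>
    have : (0 : ℝ) ≤ k := Nat.cast_nonneg k
    simp only
    linarith
  | some v =>
    have hv : v ∉ S.K := fun hv => h v hv ho
    have : (0 : ℝ) ≤ (S.cl R v : ℝ) := Nat.cast_nonneg _
    simp only [hv, if_false]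
    linarith

theorem b_own_dist (hr : 0 < r) {y : X} {v : ℕ} (h : S.own r G R U y = some v) : dist y (S.loc v) < 320 * r :=
  (cov_dist hr (own_some.1 h).2.1).trans_le (mul_le_mul_of_nonneg_right (AA_bd _).2.le hr.le)

theorem b_new_own (hr : 0 < r) (hS : S.Inv r k e.t) (hi : e.i ≤ k) (hU : ∀ v, U v < G) (hK : S.isK r e) {y : X}
    (hy : dist y e.x ≤ 160 * r) (R' : Rs) :
    (S.upd r e).own r G R' U y = some e.t ∧ e.t ∈ (S.upd r e).K := by
  have hm : e.t ∈ (S.upd r e).K := by simp [upd, hK]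
  refine ⟨b_own_king' hr (inv_upd hr hS hi) hU hm ?_, hm⟩
  simpa [upd] using hy

/-- within `160 r` of the request the new king is the owner -/
theorem cost_K (hr : 0 < r) (hS : S.Inv r k e.t) (hR : S.RInv k R e.t) (hi : e.i ≤ k) (hU : ∀ v, U v < G)
    (hK : S.isK r e) (y : X) : S.cost r e k G R c U y ≤
      if dist y e.x ≤ r then (if (S.Sw r e).Nonempty then 0 else -1)
      else if ((S.Sw r e).Nonempty ∧ dist y e.x ≤ 160 * r) ∨ 410560 * r < dist y e.x then 0 else 3 := by
  have hnear : dist y e.x ≤ 160 * r → S.cost r e k G R c U y =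
      (if S.lb r G R U y = Sum.inl ((S.upd r e).nm e.t) then 0 else 1) - S.tok r k G R U y := by
    intro hy
    obtain ⟨h1, h2⟩ := b_new_own hr hS hi hU hK hy (S.rupd r e k G R c)
    unfold cost
    rw [b_lb_some h1, b_tok_king h2 h1, add_zero]
  have hle1 : ∀ z : ℕ ⊕ X, (if S.lb r G R U y = z then (0 : ℝ) else 1) ≤ 1 := by
    intro z; split_ifs <;> norm_num
  have hSw : (S.Sw r e).Nonempty → dist y e.x ≤ 160 * r → S.cost r e k G R c U y ≤ 0 := by
    intro hne hy
    rw [hnear hy]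
    by_cases hk : ∃ w ∈ S.K, S.own r G R U y = some w
    · obtain ⟨w, hw, ho⟩ := hk
      have hu := Finset.min'_mem _ hne
      set u := (S.Sw r e).min' hne with hudef
      have hnm : (S.upd r e).nm e.t = S.nm u := by simp [upd, hne, hudef]
      have huK : u ∈ S.K := (Finset.mem_filter.1 hu).1
      have hud : dist (S.loc u) e.x ≤ 321 * r := (Finset.mem_filter.1 hu).2.2
      have hwu : w = u := by
        by_contra hne'
        have h1 := hS.sep w hw u huK hne'
        have h2 := b_own_dist hr ho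
        have h3 := dist_triangle_left (S.loc w) e.x y
        have h4 := dist_triangle_right (S.loc w) (S.loc u) e.x
        linarith
      rw [b_lb_some ho, b_tok_king hw ho, hnm, hwu]
      simp
    · have h2 : 2 ≤ S.tok r k G R U y := b_tok_two fun w hw ho => hk ⟨w, hw, ho⟩
      linarith [hle1 (Sum.inl ((S.upd r e).nm e.t))]
  have hgen := cost_gen (c := c) hr hS hR hi hU y
  by_cases hy : dist y e.x ≤ r
  · rw [if_pos hy]
    have hy' : dist y e.x ≤ 160 * r := by linarith
    by_cases hne : (S.Sw r e).Nonempty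
    · rw [if_pos hne]; exact hSw hne hy'
    · rw [if_neg hne, hnear hy']
      have h2 : 2 ≤ S.tok r k G R U y := by
        refine b_tok_two fun w hw ho => hne ⟨w, Finset.mem_filter.2 ⟨hw, hK, ?_⟩⟩
        have h2 := b_own_dist hr ho
        have h3 := dist_triangle_left (S.loc w) e.x y
        linarith
      linarith [hle1 (Sum.inl ((S.upd r e).nm e.t))]
  · rw [if_neg hy]
    split_ifs with h
    · rcases h with ⟨hne, hy'⟩ | hfar
      · exact hSw hne hy'
      · refine hgen.trans (le_of_eq (if_neg ?_))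
        rintro ⟨v, ho, hv | hv⟩
        · have h1 : dist (S.loc v) e.x ≤ 409600 * r := (Finset.mem_filter.1 hv).2.2
          have h2 := b_own_dist hr ho
          have h3 := dist_triangle y (S.loc v) e.x
          linarith
        · have hag : v ∈ S.aged r e := (Finset.mem_filter.1 hv).1
          rcases (Finset.mem_filter.1 hag).2 with ⟨-, u, hu, hd⟩ | ⟨hN, -⟩
          · have h1 : dist (S.loc u) e.x ≤ 409600 * r := (Finset.mem_filter.1 hu).2.2
            have h2 := b_own_dist hr ho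
            have h3 := dist_triangle4 y (S.loc v) (S.loc u) e.x
            linarith
          · exact hN.1 hK.1
    · refine hgen.trans ?_
      split_ifs <;> norm_num

theorem cost_N (hr : 0 < r) (hS : S.Inv r k e.t) (hR : S.RInv k R e.t) (hi : e.i ≤ k) (hU : ∀ v, U v < G)
    (hK : ¬ S.isK r e) (y : X) : S.cost r e k G R c U y ≤
      if S.isN r e ∧ dist y e.x ≤ 960 * r ∧ ∃ v, S.own r G R U y = some v ∧ v ∈ S.adv r e k G R c
      then 3 else 0 := by
  refine (cost_gen (c := c) hr hS hR hi hU y).trans ?_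
  by_cases h : ∃ v, S.own r G R U y = some v ∧ (v ∈ S.Dth r e ∨ v ∈ S.adv r e k G R c)
  · obtain ⟨v, ho, hv | hv⟩ := h
    · exact absurd (Finset.mem_filter.1 hv).2.1 hK
    · have hag : v ∈ S.aged r e := (Finset.mem_filter.1 hv).1
      rcases (Finset.mem_filter.1 hag).2 with ⟨-, u, hu, -⟩ | ⟨hN, -, hd⟩
      · exact absurd (Finset.mem_filter.1 hu).2.1 hK
      · have h2 := b_own_dist hr ho
        have h3 := dist_triangle y (S.loc v) e.x
        have h4 : S.isN r e ∧ dist y e.x ≤ 960 * r ∧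
            ∃ v, S.own r G R U y = some v ∧ v ∈ S.adv r e k G R c := ⟨hN, by linarith, v, ho, hv⟩
        rw [if_pos h4]
        split_ifs <;> norm_num
  · rw [if_neg h]
    split_ifs <;> norm_num

theorem cross_king (hr : 0 < r) (hS : S.Inv r k t) (hR : S.RInv k R t) (hU : ∀ v, U v < G) {x : X} {u : ℕ}
    (hu : u ∈ S.K) (hx : dist (S.loc u) x ≤ 40 * r) (y : X) :
    (if S.lb r G R U y = S.lb r G R U x then 0 else 1) + S.tok r k G R U x - S.tok r k G R U y ≤
      if r < dist y x then 1 else 0 := by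
  have hx' : S.own r G R U x = some u := b_own_king' hr hS hU hu (by rw [dist_comm]; linarith)
  rw [b_tok_king hu hx', add_zero]
  by_cases hy : r < dist y x
  · rw [if_pos hy]
    have h0 := (tok_bd (G := G) (U := U) hS hR y).1
    split_ifs <;> linarith
  · rw [if_neg hy]
    have hy' : S.own r G R U y = some u := by
      refine b_own_king' hr hS hU hu ?_
      have := dist_triangle_right y (S.loc u) x
      linarith [not_lt.1 hy]
    rw [b_tok_king hu hy', b_lb_some hx', b_lb_some hy']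
    simp

end Sc

/-! ### part c -/

theorem epc_indep {T G : ℕ} (hG : 0 < G) {t : ℕ} (ht : t < T) (n : (Fin T → Fin G) → ℝ)
    (hn : ∀ u u' : Fin T → Fin G, (∀ s, s ≠ t → val u s = val u' s) → n u = n u') (g : ℕ → ℝ) :
    av (fun u => n u * g (val u t)) = av n * av fun c : Fin G => g c := by
  rw [av_indep hG ht (fun u c => n u * g c) fun u u' h => by rw [hn u u' h]]
  simp only [av_mul]
  rw [mul_comm, ← av_mul]
  simp only [mul_comm]

theorem first_touch {T G : ℕ} (hG : 0 < G) (C : Finset ℕ) (hC : ∀ v ∈ C, v < T) {α : Type*} [LinearOrder α]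
    (κ : ℕ → α) (hκ : Injective κ) (lo hi η w : ℕ → ℝ) {A : ℝ} (hA : 0 ≤ A)
    (h01 : ∀ v ∈ C, 0 ≤ lo v ∧ lo v ≤ hi v ∧ hi v ≤ 1) (hη : ∀ v ∈ C, 0 ≤ η v) (hw : ∀ v ∈ C, 0 ≤ w v)
    (hcut : ∀ v ∈ C, w v * (hi v - lo v) ≤ A * (hi v + η v)) :
    av (fun u : Fin T → Fin G => ∑ v ∈ C,
      if (∀ v' ∈ C, κ v' < κ v → ¬ ((val u v' : ℝ) < G * hi v')) ∧ (val u v : ℝ) < G * hi v ∧
        ¬ ((val u v : ℝ) < G * lo v) then w v else 0) ≤ A * (1 + ∑ v ∈ C, η v) + (∑ v ∈ C, w v) / G := by
  have : Nonempty (Fin G) := ⟨⟨0, hG⟩⟩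
  have hG' : (0 : ℝ) < G := by exact_mod_cast hG
  set P : ℕ → (Fin T → Fin G) → Prop := fun v u =>
    ∀ v' ∈ C, κ v' < κ v → ¬ ((val u v' : ℝ) < G * hi v') with hPd
  have hP : ∀ v, ∀ u u' : Fin T → Fin G, (∀ s, s ≠ v → val u s = val u' s) → P v u → P v u' := by
    intro v u u' h hu v' hv' hlt
    rw [← h v' fun e => by rw [e] at hlt; exact lt_irrefl _ hlt]
    exact hu v' hv' hlt
  obtain ⟨n, hn⟩ : ∃ n : ℕ → (Fin T → Fin G) → ℝ, ∀ v u, (P v u → n v u = 1) ∧ (¬ P v u → n v u = 0) :=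
    ⟨fun v u => if P v u then 1 else 0, fun v u => ⟨fun h => if_pos h, fun h => if_neg h⟩⟩
  have hn' : ∀ v, ∀ u u' : Fin T → Fin G, (∀ s, s ≠ v → val u s = val u' s) → n v u = n v u' := by
    intro v u u' h
    by_cases b : P v u
    · rw [(hn v u).1 b, (hn v u').1 (hP v u u' h b)]
    · rw [(hn v u).2 b, (hn v u').2 fun b' => b (hP v u' u (fun s hs => (h s hs).symm) b')]
  have hn0 : ∀ v u, 0 ≤ n v u ∧ n v u ≤ 1 := fun v u => by
    by_cases b : P v u
    · rw [(hn v u).1 b]; norm_num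
    · rw [(hn v u).2 b]; norm_num
  set p : ℕ → ℝ := fun v => av (n v) with hp
  have hp0 : ∀ v, 0 ≤ p v := fun v =>
    (av_const (Ω := Fin T → Fin G) 0).symm.trans_le (av_mono fun u => (hn0 v u).1)
  have hp1 : ∀ v, p v ≤ 1 := fun v =>
    (av_mono fun u => (hn0 v u).2).trans_eq (av_const (Ω := Fin T → Fin G) 1)
  have h1 : ∑ v ∈ C, p v * hi v ≤ 1 := by
    have h2 : ∀ v ∈ C, p v * hi v ≤ av fun u : Fin T → Fin G =>
        n v u * (if (val u v : ℝ) < G * hi v then 1 else 0) := fun v hv => by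
      rw [epc_indep hG (hC v hv) (n v) (hn' v) fun c => if (c : ℝ) < G * hi v then 1 else 0]
      exact mul_le_mul_of_nonneg_left
        (av_lt hG ((h01 v hv).1.trans (h01 v hv).2.1) (h01 v hv).2.2).1 (hp0 v)
    refine (sum_le_sum h2).trans ?_
    rw [← av_sum]
    refine (av_mono fun u => ?_).trans_eq (av_const (Ω := Fin T → Fin G) 1)
    rw [sum_congr rfl (g := fun v => if P v u ∧ (val u v : ℝ) < G * hi v then 1 else 0) fun v _ => by
      by_cases b : P v u
      · simp only [(hn v u).1 b, b, one_mul, true_and]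
      · simp only [(hn v u).2 b, b, zero_mul, false_and, if_false], sum_boole]
    refine Nat.cast_le_one.2 (card_le_one.2 fun a ha b hb => hκ ?_)
    obtain ⟨ha1, ha2, ha3⟩ := mem_filter.1 ha
    obtain ⟨hb1, hb2, hb3⟩ := mem_filter.1 hb
    exact le_antisymm (not_lt.1 fun h => ha2 b hb1 h hb3) (not_lt.1 fun h => hb2 a ha1 h ha3)
  rw [av_sum]
  have h2 : ∀ v ∈ C, (av fun u : Fin T → Fin G => if P v u ∧ (val u v : ℝ) < G * hi v ∧
      ¬ ((val u v : ℝ) < G * lo v) then w v else 0) ≤ A * (p v * hi v) + A * η v + w v / G := by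
    intro v hv
    obtain ⟨a1, a2, a3⟩ := h01 v hv
    have h3 : (fun u : Fin T → Fin G => if P v u ∧ (val u v : ℝ) < G * hi v ∧
        ¬ ((val u v : ℝ) < G * lo v) then w v else 0) = fun u => n v u *
          (w v * ((if (val u v : ℝ) < G * hi v then 1 else 0) -
            if (val u v : ℝ) < G * lo v then 1 else 0)) := by
      funext u
      have h4 : (val u v : ℝ) < G * lo v → (val u v : ℝ) < G * hi v := fun h =>
        h.trans_le (mul_le_mul_of_nonneg_left a2 hG'.le)
      by_cases b1 : P v u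
      · rw [(hn v u).1 b1]
        by_cases b2 : (val u v : ℝ) < G * hi v <;> by_cases b3 : (val u v : ℝ) < G * lo v
        · rw [if_neg fun h => h.2.2 b3, if_pos b2, if_pos b3]; ring
        · rw [if_pos ⟨b1, b2, b3⟩, if_pos b2, if_neg b3]; ring
        · exact absurd (h4 b3) b2
        · rw [if_neg fun h => b2 h.2.1, if_neg b2, if_neg b3]; ring
      · rw [(hn v u).2 b1, if_neg fun h => b1 h.1, zero_mul]
    rw [h3, epc_indep hG (hC v hv) (n v) (hn' v) fun c => w v * ((if (c : ℝ) < G * hi v then 1 else 0) -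
      if (c : ℝ) < G * lo v then 1 else 0), av_mul, av_sub]
    have h5 := (av_lt hG (a1.trans a2) a3).2
    have h6 := (av_lt hG a1 (a2.trans a3)).1
    have h7 := mul_le_mul_of_nonneg_left (show (av fun c : Fin G => if ((c : ℕ) : ℝ) < G * hi v then (1 : ℝ) else 0) -
      (av fun c : Fin G => if ((c : ℕ) : ℝ) < G * lo v then (1 : ℝ) else 0) ≤ hi v - lo v + 1 / G by linarith)
      (hw v hv)
    refine (mul_le_mul_of_nonneg_left h7 (hp0 v)).trans ?_
    have h8 := mul_le_mul_of_nonneg_left (hcut v hv) (hp0 v)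
    have h9 := mul_le_mul_of_nonneg_right (hp1 v) (mul_nonneg hA (hη v hv))
    have h10 := mul_le_mul_of_nonneg_right (hp1 v) (div_nonneg (hw v hv) hG'.le)
    have h11 : p v * (w v * (hi v - lo v + 1 / G)) = p v * (w v * (hi v - lo v)) + p v * (w v / G) := by ring
    linarith
  refine (sum_le_sum h2).trans ?_
  rw [sum_add_distrib, sum_add_distrib, ← mul_sum, ← mul_sum, ← sum_div]
  nlinarith [mul_le_mul_of_nonneg_left h1 hA]

theorem epc_et (i m : ℕ) : et (i + 2 * m) m = 2 * Real.exp (-(80 * 2 ^ (i + m))) := by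
  rw [et, show i + 2 * m = i + m + m by ring, pow_add _ (i + m), ← mul_assoc,
    mul_div_cancel_right₀ _ (by positivity)]

theorem epc_exp {x : ℝ} (hx : 0 < x) : Real.exp (-x) ≤ 1 / x := by
  rw [Real.exp_neg, one_div]
  exact inv_anti₀ hx (by linarith [Real.add_one_le_exp x])

theorem epc_grp (i m : ℕ) :
    ((thr i (m + 1) + 1 : ℕ) : ℝ) * et (i + 2 * m) m ≤ 1 / 12 * ((1 / 2) ^ i * (1 / 2) ^ m) := by
  have h1 : thr i (m + 1) = 2 ^ (32 * 2 ^ (i + m)) := by
    rw [thr, NN, ← pow_mul]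
    congr 1
    ring
  have h2 : ((2 : ℝ)) ^ (32 * 2 ^ (i + m)) ≤ Real.exp (32 * 2 ^ (i + m)) := by
    have : Real.exp (32 * 2 ^ (i + m)) = Real.exp 1 ^ (32 * 2 ^ (i + m)) := by
      rw [← Real.exp_nat_mul]; push_cast; rw [mul_one]
    rw [this]
    exact pow_le_pow_left₀ (by norm_num) (by linarith [Real.add_one_le_exp 1]) _
  have h3 : (1 : ℝ) ≤ Real.exp (32 * 2 ^ (i + m)) := Real.one_le_exp (by positivity)
  have h4 := epc_exp (x := 48 * 2 ^ (i + m)) (by positivity)
  have h5 : Real.exp (32 * 2 ^ (i + m)) * Real.exp (-(80 * 2 ^ (i + m))) =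
      Real.exp (-(48 * 2 ^ (i + m))) := by
    rw [← Real.exp_add]; congr 1; ring
  have h6 : (1 : ℝ) / 12 * ((1 / 2) ^ i * (1 / 2) ^ m) = 4 * (1 / (48 * 2 ^ (i + m))) := by
    rw [← pow_add, one_div_pow]; field_simp; norm_num
  rw [epc_et, h1, h6]
  push_cast
  have h7 := mul_le_mul_of_nonneg_right (show (2 : ℝ) ^ (32 * 2 ^ (i + m)) + 1 ≤
    2 * Real.exp (32 * 2 ^ (i + m)) by linarith) (Real.exp_pos (-(80 * 2 ^ (i + m)))).le
  nlinarith

/-- at most one king; for origin `i`, stage `m ≤ k` at most `thr i (m+1) + 1 ≤ 2 · 2^(32 · 2^(i+m))` centres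
(`hi`, `count`), each with `et = 2 exp (-80 · 2^(i+m))` -/
theorem Sc.et_sum {S : Sc X} {r : ℝ} {k t : ℕ} {R : Rs} (hr : 0 < r) (hS : S.Inv r k t) (hR : S.RInv k R t)
    (y : X) : ∑ v ∈ S.C.filter (fun v => R.stg v ≤ k ∧ dist (S.loc v) y ≤ 320 * r), et (S.cl R v) (R.stg v) ≤
      1 / 2 := by
  set F := S.C.filter (fun v => R.stg v ≤ k ∧ dist (S.loc v) y ≤ 320 * r) with hF
  rw [← sum_filter_add_sum_filter_not F (fun v => v ∈ S.K)]
  have h1 : ∑ v ∈ F.filter (fun v => v ∈ S.K), et (S.cl R v) (R.stg v) ≤ 1 / 40 := by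
    have h2 : (F.filter (fun v => v ∈ S.K)).card ≤ 1 := card_le_one.2 fun a ha b hb => by
      by_contra hab
      obtain ⟨ha1, ha2⟩ := mem_filter.1 ha
      obtain ⟨hb1, hb2⟩ := mem_filter.1 hb
      have h3 := hS.sep a ha2 b hb2 hab
      have h4 := dist_triangle_right (S.loc a) (S.loc b) y
      linarith [(mem_filter.1 ha1).2.2, (mem_filter.1 hb1).2.2]
    refine (sum_le_card_nsmul _ _ (1 / 40) fun v _ => ?_).trans ?_
    · rw [Sc.cl, epc_et]
      have h3 : (1 : ℝ) ≤ 2 ^ (S.org v + R.stg v) := one_le_pow₀ (by norm_num)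
      have h4 := Real.exp_le_exp.2 (show -(80 * (2 : ℝ) ^ (S.org v + R.stg v)) ≤ -80 by linarith)
      linarith [epc_exp (x := 80) (by norm_num)]
    · have : ((F.filter (fun v => v ∈ S.K)).card : ℝ) ≤ 1 := by exact_mod_cast h2
      rw [nsmul_eq_mul]
      linarith
  have h2 : ∑ v ∈ F.filter (fun v => ¬ v ∈ S.K), et (S.cl R v) (R.stg v) ≤ 1 / 3 := by
    rw [← sum_fiberwise_of_maps_to (t := range (k + 1) ×ˢ range (k + 1))
      (g := fun v => (S.org v, R.stg v)) fun v hv => by
        obtain ⟨h3, h4, -⟩ := mem_filter.1 (mem_filter.1 hv).1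
        exact mem_product.2 ⟨mem_range.2 (Nat.lt_succ_of_le (hS.org_le v h3)),
          mem_range.2 (Nat.lt_succ_of_le h4)⟩]
    refine (sum_le_sum (g := fun q : ℕ × ℕ => (1 : ℝ) / 12 * ((1 / 2) ^ q.1 * (1 / 2) ^ q.2))
      fun q _ => ?_).trans ?_
    · refine le_trans ?_ (epc_grp q.1 q.2)
      rw [sum_congr rfl (g := fun _ => et (q.1 + 2 * q.2) q.2) fun v hv => by
        rw [← (mem_filter.1 hv).2]; rfl, sum_const, nsmul_eq_mul]
      refine mul_le_mul_of_nonneg_right (Nat.cast_le.2 (le_trans (card_le_card fun v hv => ?_)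
        (hS.count y q.1 (thr q.1 (q.2 + 1))))) (by rw [et]; positivity)
      obtain ⟨h3, rfl⟩ := mem_filter.1 hv
      obtain ⟨h4, h5⟩ := mem_filter.1 h3
      obtain ⟨h6, h7, h8⟩ := mem_filter.1 h4
      exact mem_filter.2 ⟨mem_sdiff.2 ⟨h6, h5⟩, rfl, (hR.hi v h6 (Nat.lt_succ_of_le h7)).le, h8⟩
    · rw [← mul_sum, sum_product' _ _ fun i m => ((1 : ℝ) / 2) ^ i * (1 / 2) ^ m, ← sum_mul_sum]
      have h3 := sum_geometric_two_le (k + 1)
      have h4 : 0 ≤ ∑ i ∈ range (k + 1), ((1 : ℝ) / 2) ^ i := sum_nonneg fun _ _ => by positivity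
      nlinarith
  linarith

/-! ### part d -/

/-- the token of an owner -/
noncomputable def crossd_tk (S : Sc X) (R : Rs) (v : ℕ) : ℝ := if v ∈ S.K then 0 else S.cl R v + 2

theorem crossd_nonneg (S : Sc X) (R : Rs) (v : ℕ) : 0 ≤ crossd_tk S R v := by
  unfold crossd_tk
  split_ifs <;> positivity

theorem crossd_mono {S : Sc X} {R : Rs} {v w : ℕ} (h : S.key R v ≤ S.key R w) :
    crossd_tk S R v ≤ crossd_tk S R w := by
  have h1 : (if v ∈ S.K then 0 else S.cl R v + 1) ≤ if w ∈ S.K then 0 else S.cl R w + 1 :=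
    Prod.Lex.monotone_fst _ _ h
  unfold crossd_tk
  split_ifs at h1 ⊢
  · exact le_rfl
  · positivity
  · omega
  · exact_mod_cast (by omega : S.cl R v + 2 ≤ S.cl R w + 2)

theorem crossd_tok {S : Sc X} {r : ℝ} {k G : ℕ} {R : Rs} {U : ℕ → ℕ} {y : X} {v : ℕ}
    (h : S.own r G R U y = some v) : S.tok r k G R U y = crossd_tk S R v := by
  simp [Sc.tok, h, crossd_tk]

theorem crossd_tok_le {S : Sc X} {r : ℝ} {k G : ℕ} {R : Rs} {U : ℕ → ℕ} {y : X} {v : ℕ} (hv : v ∈ S.C)
    (h : S.cov r G R U y v) : S.tok r k G R U y ≤ crossd_tk S R v := by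
  rcases ho : S.own r G R U y with _ | w
  · exact absurd h (Sc.own_none.1 ho v hv)
  · rw [crossd_tok ho]
    exact crossd_mono ((Sc.own_some.1 ho).2.2 v hv h)

theorem crossd_pow (n : ℕ) : (n : ℝ) + 1 ≤ 2 ^ n := by
  exact_mod_cast Nat.lt_two_pow_self

theorem crossd_lip (c m : ℕ) (hη : 0 ≤ et c m) {s s' d : ℝ} (h : |s - s'| ≤ d) :
    max (Fb c m s) (Fb c m s') - min (Fb c m s) (Fb c m s') ≤
      2 ^ c * d * (max (Fb c m s) (Fb c m s') + et c m) := by
  wlog hs : s ≤ s' generalizing s s'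
  · rw [max_comm, min_comm]
    exact this (abs_sub_comm s s' ▸ h) (not_le.1 hs).le
  rw [max_eq_left (Fb_anti c m hs), min_eq_right (Fb_anti c m hs)]
  refine (Fb_lip c m hs).trans (mul_le_mul_of_nonneg_right ?_ (add_nonneg (Fb_mem c m s).1 hη))
  exact mul_le_mul_of_nonneg_left (by linarith [(abs_le.1 h).1]) (by positivity)

/-- `first_touch` on the centres with key `≤ key u₀` that are within `320 r` of `x` or `y` (the others never touch
or come too late), `w v = c + 3 - tok v`, `A = 3 · 2^c · d / r`; and the cost is always `≤ c + 3 ≤ 3 · 2^c` -/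
theorem Sc.cross {S : Sc X} {r : ℝ} {k t T G : ℕ} {R : Rs} (hr : 0 < r) (hG : 0 < G) (hS : S.Inv r k t)
    (hR : S.RInv k R t) (hT : t ≤ T) {x : X} {u : ℕ} (hu : u ∈ S.C) (ha : S.age u < thr (S.org u) 0)
    (hx : dist (S.loc u) x ≤ 160 * r) (y : X) :
    av (fun U : Fin T → Fin G => (if S.lb r G R (val U) y = S.lb r G R (val U) x then 0 else 1) +
      S.tok r k G R (val U) x - S.tok r k G R (val U) y) ≤
      10 * 2 ^ S.org u * min (dist y x / r) 1 + T * (k + 3) / G := by
  have hst : R.stg u = 0 := by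
    by_contra h
    exact lt_asymm ha (hR.lo u hu (Nat.pos_of_ne_zero h))
  have hck : S.org u ≤ k := hS.org_le u hu
  have hck' : (S.org u : ℝ) ≤ k := by exact_mod_cast hck
  have hcov : ∀ U : Fin T → Fin G, S.cov r G R (val U) x u := fun U =>
    Sc.cov_of_dist hr (val_lt hG U u) (by rw [hst, dist_comm]; convert hx using 2; norm_num [AA])
  have htu : crossd_tk S R u ≤ S.org u + 2 := by
    unfold crossd_tk
    split_ifs
    · positivity
    · simp [Sc.cl, hst]
  have h3 : (S.org u : ℝ) + 3 ≤ 3 * 2 ^ S.org u := by linarith [crossd_pow (S.org u), Nat.cast_nonneg (α := ℝ) (S.org u)]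
  have hG' : (0 : ℝ) < G := by exact_mod_cast hG
  have hd0 : 0 ≤ dist y x / r := by positivity
  have hp : (0 : ℝ) < 2 ^ S.org u := by positivity
  have : Nonempty (Fin G) := ⟨⟨0, hG⟩⟩
  rcases le_total (dist y x / r) 1 with hd | hd
  swap
  · rw [min_eq_right hd]
    refine (av_mono (g := fun _ => (S.org u : ℝ) + 3) fun U => ?_).trans ?_
    · have h1 := crossd_tok_le (k := k) hu (hcov U)
      have h2 := (Sc.tok_bd (G := G) (U := val U) hS hR y).1
      split_ifs <;> linarith
    · rw [av_const]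
      have : (0 : ℝ) ≤ T * (k + 3) / G := by positivity
      linarith
  rw [min_eq_left hd]
  set C' := S.C.filter fun v => S.key R v ≤ S.key R u ∧
    (dist (S.loc v) x ≤ 320 * r ∨ dist (S.loc v) y ≤ 320 * r) with hC'
  have hw1 : ∀ v ∈ C', crossd_tk S R v ≤ S.org u + 2 := fun v hv =>
    (crossd_mono (mem_filter.1 hv).2.1).trans htu
  have hcl : ∀ v ∈ C', S.cl R v ≤ S.org u ∧
      (S.org u + 3 - crossd_tk S R v) * 2 ^ S.cl R v ≤ 3 * 2 ^ S.org u := fun v hv => by
    have h1 := hw1 v hv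
    unfold crossd_tk at h1 ⊢
    split_ifs at h1 ⊢ with h
    · have : S.cl R v = 0 := by simp [Sc.cl, (hS.king v h).1, Sc.king_stg hS hR h]
      rw [this]
      exact ⟨Nat.zero_le _, by simpa using h3⟩
    · have h2 : S.cl R v ≤ S.org u := by exact_mod_cast (by linarith : (S.cl R v : ℝ) ≤ S.org u)
      refine ⟨h2, ?_⟩
      obtain ⟨j, hj⟩ := Nat.exists_eq_add_of_le h2
      rw [hj, pow_add, Nat.cast_add]
      have h4 : (0 : ℝ) < 2 ^ S.cl R v := by positivity
      nlinarith [crossd_pow j, Nat.cast_nonneg (α := ℝ) j]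
  have hη : ∀ v, 0 ≤ et (S.cl R v) (R.stg v) := fun v => by
    unfold et
    positivity
  have hft := first_touch hG C' (fun v hv => (hS.lt v (mem_filter.1 hv).1).trans_le hT) (S.key R)
    (S.key_inj R)
    (fun v => min (Fb (S.cl R v) (R.stg v) (dist x (S.loc v) / r)) (Fb (S.cl R v) (R.stg v) (dist y (S.loc v) / r)))
    (fun v => max (Fb (S.cl R v) (R.stg v) (dist x (S.loc v) / r)) (Fb (S.cl R v) (R.stg v) (dist y (S.loc v) / r)))
    (fun v => et (S.cl R v) (R.stg v)) (fun v => S.org u + 3 - crossd_tk S R v)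
    (A := 3 * 2 ^ S.org u * (dist y x / r)) (by positivity)
    (fun v _ => ⟨le_min (Fb_mem _ _ _).1 (Fb_mem _ _ _).1, min_le_max, max_le (Fb_mem _ _ _).2 (Fb_mem _ _ _).2⟩)
    (fun v _ => hη v) (fun v hv => by linarith [hw1 v hv]) (fun v hv => by
      have h1 := crossd_lip (S.cl R v) (R.stg v) (hη v) (s := dist x (S.loc v) / r) (s' := dist y (S.loc v) / r)
        (d := dist y x / r) (by
          rw [← sub_div, abs_div, abs_of_pos hr, dist_comm y x]
          exact div_le_div_of_nonneg_right (abs_dist_sub_le _ _ _) hr.le)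
      have h2 : 0 ≤ max (Fb (S.cl R v) (R.stg v) (dist x (S.loc v) / r))
          (Fb (S.cl R v) (R.stg v) (dist y (S.loc v) / r)) + et (S.cl R v) (R.stg v) :=
        add_nonneg (le_max_of_le_left (Fb_mem _ _ _).1) (hη v)
      refine (mul_le_mul_of_nonneg_left h1 (by linarith [hw1 v hv])).trans ?_
      rw [← mul_assoc, ← mul_assoc]
      exact mul_le_mul_of_nonneg_right (mul_le_mul_of_nonneg_right (hcl v hv).2 hd0) h2)
  refine (av_mono fun U => ?_).trans (hft.trans (add_le_add ?_ ?_))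
  · obtain ⟨v, hv, hmin⟩ := exists_min_image (S.C.filter fun v => S.cov r G R (val U) x v ∨ S.cov r G R (val U) y v)
      (S.key R) ⟨u, mem_filter.2 ⟨hu, Or.inl (hcov U)⟩⟩
    simp only [mem_filter, and_imp] at hv hmin
    have hnear : ∀ z, S.cov r G R (val U) z v → dist (S.loc v) z ≤ 320 * r := fun z hz => by
      rw [dist_comm]
      exact (Sc.cov_dist hr hz).le.trans (mul_le_mul_of_nonneg_right (AA_bd _).2.le hr.le)
    have hvC : v ∈ C' := mem_filter.2 ⟨hv.1, hmin u hu (Or.inl (hcov U)), hv.2.imp (hnear x) (hnear y)⟩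
    have hmax : ∀ v, ((val U v : ℝ) < G * max (Fb (S.cl R v) (R.stg v) (dist x (S.loc v) / r))
        (Fb (S.cl R v) (R.stg v) (dist y (S.loc v) / r))) ↔
          S.cov r G R (val U) x v ∨ S.cov r G R (val U) y v := fun v => by
      rw [mul_max_of_nonneg _ _ hG'.le, lt_max_iff]
      rfl
    have hmin' : ∀ v, ((val U v : ℝ) < G * min (Fb (S.cl R v) (R.stg v) (dist x (S.loc v) / r))
        (Fb (S.cl R v) (R.stg v) (dist y (S.loc v) / r))) ↔
          S.cov r G R (val U) x v ∧ S.cov r G R (val U) y v := fun v => by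
      rw [mul_min_of_nonneg _ _ hG'.le, lt_min_iff]
      rfl
    simp only [hmax, hmin']
    refine le_trans ?_ (single_le_sum (f := fun v => if (∀ v' ∈ C', S.key R v' < S.key R v →
      ¬ (S.cov r G R (val U) x v' ∨ S.cov r G R (val U) y v')) ∧
        (S.cov r G R (val U) x v ∨ S.cov r G R (val U) y v) ∧
        ¬ (S.cov r G R (val U) x v ∧ S.cov r G R (val U) y v) then S.org u + 3 - crossd_tk S R v else 0)
      (fun v hv => by split_ifs <;> linarith [hw1 v hv]) hvC)
    have hox : S.cov r G R (val U) x v → S.own r G R (val U) x = some v := fun h =>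
      Sc.own_some.2 ⟨hv.1, h, fun w hw h' => hmin w hw (Or.inl h')⟩
    have hoy : S.cov r G R (val U) y v → S.own r G R (val U) y = some v := fun h =>
      Sc.own_some.2 ⟨hv.1, h, fun w hw h' => hmin w hw (Or.inr h')⟩
    by_cases hb : S.cov r G R (val U) x v ∧ S.cov r G R (val U) y v
    · simp [hb, Sc.lb, Sc.tok, hox hb.1, hoy hb.2]
    rw [if_pos (show _ ∧ _ ∧ _ from
      ⟨fun v' hv' hlt h => not_le.2 hlt (hmin v' (mem_filter.1 hv').1 h), hv.2, hb⟩)]
    have h1 : (if S.lb r G R (val U) y = S.lb r G R (val U) x then 0 else 1 : ℝ) ≤ 1 := by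
      split_ifs <;> norm_num
    rcases hv.2 with h | h
    · have h2 : S.tok r k G R (val U) x ≤ S.tok r k G R (val U) y := by
        rcases ho : S.own r G R (val U) y with _ | w
        · rw [show S.tok r k G R (val U) y = 3 * k + 5 by simp [Sc.tok, ho]]
          exact (Sc.tok_bd hS hR x).2
        · obtain ⟨h4, h5, -⟩ := Sc.own_some.1 ho
          rw [crossd_tok (hox h), crossd_tok ho]
          exact crossd_mono (hmin w h4 (Or.inr h5))
      linarith [hw1 v hvC]
    · rw [crossd_tok (hoy h)]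
      linarith [crossd_tok_le (k := k) hu (hcov U)]
  · have h1 : ∑ v ∈ C', et (S.cl R v) (R.stg v) ≤ 1 := by
      have h2 := Sc.et_sum hr hS hR x
      have h4 := Sc.et_sum hr hS hR y
      have h5 := sum_union_inter (f := fun v => et (S.cl R v) (R.stg v))
        (s₁ := S.C.filter fun v => R.stg v ≤ k ∧ dist (S.loc v) x ≤ 320 * r)
        (s₂ := S.C.filter fun v => R.stg v ≤ k ∧ dist (S.loc v) y ≤ 320 * r)
      have h6 := sum_nonneg (s := (S.C.filter fun v => R.stg v ≤ k ∧ dist (S.loc v) x ≤ 320 * r) ∩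
        (S.C.filter fun v => R.stg v ≤ k ∧ dist (S.loc v) y ≤ 320 * r)) fun v _ => hη v
      refine (sum_le_sum_of_subset_of_nonneg (t := (S.C.filter fun v => R.stg v ≤ k ∧ dist (S.loc v) x ≤ 320 * r) ∪
        (S.C.filter fun v => R.stg v ≤ k ∧ dist (S.loc v) y ≤ 320 * r)) (fun v hv => ?_)
        fun v _ _ => hη v).trans (by linarith)
      have h7 : R.stg v ≤ k := by
        have := (hcl v hv).1
        unfold Sc.cl at this
        omega
      obtain ⟨h8, -, h9⟩ := mem_filter.1 hv
      exact mem_union.2 (h9.imp (fun h => mem_filter.2 ⟨h8, h7, h⟩) fun h => mem_filter.2 ⟨h8, h7, h⟩)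
    nlinarith [mul_nonneg hp.le hd0]
  · refine div_le_div_of_nonneg_right ?_ hG'.le
    have h1 : C'.card ≤ T := by
      simpa using card_le_card (t := range T) fun v hv =>
        mem_range.2 ((hS.lt v (mem_filter.1 hv).1).trans_le hT)
    have h2 : (C'.card : ℝ) ≤ T := by exact_mod_cast h1
    refine (sum_le_card_nsmul _ _ ((k : ℝ) + 3) fun v _ => by linarith [crossd_nonneg S R v]).trans ?_
    rw [nsmul_eq_mul]
    gcongr

end Crest.Agent.R314
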