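import Crest.Agent.R314.EmbCtx

/-!
# Row 314, part II: the potential of one scale and the update inequality

See (Update) in `notes314/II.md`.  `inner = Mb M'' x r = inner' + nf`, `Λ = Ma M' x (16 r) (410560 r)`, and
`Mb M' x (4096² r) - inner' ≤ μ - inner + nf`.
* `upd_cred`: a surviving king keeps its place; its credit can only increase when its type changes from A to B; then
  `j + 1 < J`, a king of scale `j + 1` near it was dethroned (`isK` at `j + 1`), and the ball of radius `323 r` lies in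
  the annulus of `xtr (j+1)`; these balls are disjoint (`sep`), `V_le`, `Wm_le_V`.  The new king costs `≤ Λ/40`.
* `upd_pts`: point-wise bounds from `cost_K`, `cost_N`, `adv_prob`, `hh_upd_*`, summed against `M'`.
-/

set_option autoImplicit false
set_option linter.unusedSectionVars false
set_option linter.unusedVariables false

namespace Crest.Agent.R314

open Finset Function
open scoped Classical

variable {X : Type*} [MetricSpace X] [Fintype X]

namespace Ctx

variable (c : Ctx X)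

def typA (j : ℕ) (h : List X) (u : ℕ) : Prop :=
  j + 1 = c.J ∨ ∃ w ∈ (c.S (j + 1) h).K, dist ((c.S j h).loc u) ((c.S (j + 1) h).loc w) ≤ 163880 * c.r j

noncomputable def cred (j : ℕ) (h : List X) (u : ℕ) (M : X → ℝ) : ℝ :=
  if c.typA j h u then Wm (c.r j) ((c.S j h).loc u) (Ys (c.r j) ((c.S j h).loc u) M) M
  else Vt (c.r j) ((c.S j h).loc u) 0 M

/-- point-wise part of the potential -/
noncomputable def pp (j : ℕ) (h : List X) (y : X) : ℝ :=
  av (fun ω : c.Sd => c.tok ω j h y) + 4 * (c.S j h).hh (c.r j) c.k y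

noncomputable def Psi (j : ℕ) (h : List X) (M : X → ℝ) : ℝ :=
  ∑ y, M y * c.pp j h y + 240 * ∑ u ∈ (c.S j h).K, c.cred j h u M

noncomputable def rel (j : ℕ) (x : X) (h : List X) (y : X) : ℝ :=
  av fun ω : c.Sd => if c.lb ω j h y = c.lb ω j (x :: h) y then 0 else 1

noncomputable def crs (j : ℕ) (h : List X) (x y : X) : ℝ :=
  av fun ω : c.Sd => if c.lb ω j h y = c.lb ω j h x then 0 else 1

noncomputable def xtr (j : ℕ) (x : X) (h : List X) (M : X → ℝ) : ℝ :=
  if j < c.J ∧ (c.S j h).isK (c.r j) (c.e j x h) then Ma M x (16 * c.r j) (410560 * c.r j) else 0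

variable {c} {j : ℕ} {x : X} {h : List X} {M' ν : X → ℝ}

/-! ### part a -/

theorem upda_cred_concave (c : Ctx X) (j : ℕ) (h : List X) (u : ℕ) :
    ConcaveOn ℝ (Set.Ici 0) (c.cred j h u) := by
  by_cases hA : c.typA j h u
  · have e : c.cred j h u = fun M => Wm (c.r j) ((c.S j h).loc u) (Ys (c.r j) ((c.S j h).loc u) M) M := by
      funext M
      exact if_pos hA
    rw [e]
    exact WY_concave _ _
  · have e : c.cred j h u = Vt (c.r j) ((c.S j h).loc u) 0 := by
      funext M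
      exact if_neg hA
    rw [e]
    exact Vt_concave _ _ _

theorem Psi_concave (c : Ctx X) (j : ℕ) (h : List X) : ConcaveOn ℝ (Set.Ici 0) (c.Psi j h) := by
  refine ⟨convex_Ici _, fun M hM N hN a b ha hb hab => ?_⟩
  have h1 : ∑ y, (a • M + b • N) y * c.pp j h y =
      a * ∑ y, M y * c.pp j h y + b * ∑ y, N y * c.pp j h y := by
    rw [Finset.mul_sum, Finset.mul_sum, ← Finset.sum_add_distrib]
    refine Finset.sum_congr rfl fun y _ => ?_
    simp only [Pi.add_apply, Pi.smul_apply, smul_eq_mul]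
    ring
  have h2 : a * ∑ u ∈ (c.S j h).K, c.cred j h u M + b * ∑ u ∈ (c.S j h).K, c.cred j h u N ≤
      ∑ u ∈ (c.S j h).K, c.cred j h u (a • M + b • N) := by
    rw [Finset.mul_sum, Finset.mul_sum, ← Finset.sum_add_distrib]
    refine Finset.sum_le_sum fun u _ => ?_
    simpa only [smul_eq_mul] using (upda_cred_concave c j h u).2 hM hN ha hb hab
  unfold Psi
  rw [h1]
  simp only [smul_eq_mul]
  linarith

theorem upda_cred (hM : ∀ y, 0 ≤ M' y) (u : ℕ) :
    Wm (c.r j) ((c.S j h).loc u) (Ys (c.r j) ((c.S j h).loc u) M') M' ≤ c.cred j h u M' ∧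
      c.cred j h u M' ≤ Vt (c.r j) ((c.S j h).loc u) 0 M' ∧ 0 ≤ c.cred j h u M' := by
  unfold cred
  split_ifs with hA
  · exact ⟨le_rfl, Wm_le_V _ _ _ _, Wm_nonneg hM (Ys_nonneg hM)⟩
  · exact ⟨Wm_le_V _ _ _ _, le_rfl, Vt_nonneg hM _⟩

theorem upda_pp (hc : c.Ok) (j : ℕ) (h : List X) (y : X) : 0 ≤ c.pp j h y ∧ c.pp j h y ≤ 3 * c.k + 13 := by
  have : Nonempty c.Sd := ⟨(fun _ => ⟨0, hc.G0⟩, fun _ => ⟨0, hc.G0⟩)⟩
  have ht : ∀ ω : c.Sd, 0 ≤ c.tok ω j h y ∧ c.tok ω j h y ≤ 3 * c.k + 5 := fun ω =>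
    Sc.tok_bd (inv hc j h) (rinv hc j _ h) y
  have h1 : av (fun _ : c.Sd => (0 : ℝ)) ≤ av (fun ω : c.Sd => c.tok ω j h y) := av_mono fun ω => (ht ω).1
  have h2 : av (fun ω : c.Sd => c.tok ω j h y) ≤ av (fun _ : c.Sd => (3 * c.k + 5 : ℝ)) :=
    av_mono fun ω => (ht ω).2
  rw [av_const] at h1 h2
  have h3 := Sc.hh_bd (c.S j h) (c.r j) c.k y
  unfold pp
  constructor <;> linarith [h3.1, h3.2]

theorem Psi_nonneg (hc : c.Ok) (j : ℕ) (h : List X) {M : X → ℝ} (hM : ∀ y, 0 ≤ M y) : 0 ≤ c.Psi j h M := by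
  unfold Psi
  refine add_nonneg (Finset.sum_nonneg fun y _ => mul_nonneg (hM y) (upda_pp hc j h y).1) ?_
  exact mul_nonneg (by norm_num) (Finset.sum_nonneg fun u _ => (upda_cred hM u).2.2)

theorem Psi_nil (hc : c.Ok) (j : ℕ) {M : X → ℝ} (hM : ∀ y, 0 ≤ M y) (hk : ∑ y, M y = c.k) :
    c.Psi j [] M ≤ c.k * (3 * c.k + 13) := by
  have hK : (c.S j []).K = ∅ := rfl
  unfold Psi
  rw [hK, Finset.sum_empty, mul_zero, add_zero]
  calc ∑ y, M y * c.pp j [] y ≤ ∑ y, M y * (3 * c.k + 13) :=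
        Finset.sum_le_sum fun y _ => mul_le_mul_of_nonneg_left (upda_pp hc j [] y).2 (hM y)
    _ = _ := by rw [← Finset.sum_mul, hk]

theorem cred_ge (hM : ∀ y, 0 ≤ M' y) (u : ℕ) :
    Wm (c.r j) ((c.S j h).loc u) (Ys (c.r j) ((c.S j h).loc u) M') M' ≤ c.cred j h u M' ∧
      c.cred j h u M' ≤ Vt (c.r j) ((c.S j h).loc u) 0 M' ∧ 0 ≤ c.cred j h u M' := by
  exact upda_cred hM u

theorem upda_loc (hc : c.Ok) {u : ℕ} (hu : u ∈ (c.S j h).K) : (c.S j (x :: h)).loc u = (c.S j h).loc u :=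
  Sc.edb_loc (S := c.S j h) (r := c.r j) (e := c.e j x h)
    ((inv hc j h).lt u ((inv hc j h).KC hu)).ne

theorem upda_xtr_nonneg (hM : ∀ y, 0 ≤ M' y) : 0 ≤ c.xtr j x h M' := by
  unfold xtr Ma
  split_ifs
  · refine Finset.sum_nonneg fun y _ => ?_
    split_ifs
    · exact hM y
    · exact le_rfl
  · exact le_rfl

/-- a king whose type changes from A to B -/
theorem upda_change (hc : c.Ok) (hj : j < c.J) {u : ℕ} (hu : u ∈ (c.S j h).K) (hA : c.typA j h u)
    (hB : ¬ c.typA j (x :: h) u) :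
    (j + 1 < c.J ∧ (c.S (j + 1) h).isK (c.r (j + 1)) (c.e (j + 1) x h)) ∧
      ∀ y, dist y ((c.S j h).loc u) ≤ 323 * c.r j →
        16 * c.r (j + 1) ≤ dist y x ∧ dist y x ≤ 410560 * c.r (j + 1) := by
  have hr := r_pos hc j
  have hs := r_succ c j
  unfold typA at hA hB
  rw [not_or, upda_loc hc hu] at hB
  obtain ⟨w, hw, hd⟩ := hA.resolve_left hB.1
  have hD : w ∈ (c.S (j + 1) h).Dth (c.r (j + 1)) (c.e (j + 1) x h) := by
    by_contra hD
    refine hB.2 ⟨w, Sc.edb_mem_K.2 (Or.inr ⟨hw, hD⟩), ?_⟩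
    rwa [upda_loc hc hw]
  obtain ⟨-, hK, hx⟩ := Sc.edb_mem_Dth.1 hD
  have hx' : dist ((c.S (j + 1) h).loc w) x ≤ 409600 * c.r (j + 1) := hx
  have hfar : 163880 * c.r j < dist ((c.S j h).loc u) x := by
    by_contra hn
    refine hB.2 ⟨(c.e (j + 1) x h).t, Sc.edb_mem_K.2 (Or.inl ⟨rfl, hK⟩), ?_⟩
    have : (c.S (j + 1) (x :: h)).loc (c.e (j + 1) x h).t = x :=
      Sc.edb_loc_t (S := c.S (j + 1) h) (r := c.r (j + 1)) (e := c.e (j + 1) x h)
    rw [this]
    exact not_lt.1 hn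
  refine ⟨⟨lt_of_le_of_ne hj hB.1, hK⟩, fun y hy => ?_⟩
  have t1 := dist_triangle_left ((c.S j h).loc u) x y
  have t2 := dist_triangle4 y ((c.S j h).loc u) ((c.S (j + 1) h).loc w) x
  rw [hs] at hx' ⊢
  constructor <;> linarith

theorem upda_surv (hc : c.Ok) (hj : j < c.J) (hM : ∀ y, 0 ≤ M' y) {A : Finset ℕ} (hA : A ⊆ (c.S j h).K) :
    ∑ u ∈ A, c.cred j (x :: h) u M' ≤ ∑ u ∈ A, c.cred j h u M' + c.xtr (j + 1) x h M' / 40 := by
  have hr := r_pos hc j
  set B := A.filter fun u => c.typA j h u ∧ ¬ c.typA j (x :: h) u with hB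
  have h1 : ∀ u ∈ A, c.cred j (x :: h) u M' ≤ c.cred j h u M' +
      if c.typA j h u ∧ ¬ c.typA j (x :: h) u then
        1 / 40 * Ma M' ((c.S j h).loc u) (16 * c.r j) (323 * c.r j) else 0 := by
    intro u hu
    have hl : (c.S j (x :: h)).loc u = (c.S j h).loc u := upda_loc hc (hA hu)
    have a := upda_cred (c := c) (j := j) (h := h) hM u
    have b := upda_cred (c := c) (j := j) (h := x :: h) hM u
    rw [hl] at b
    split_ifs with hq
    · have := V_le (u := (c.S j h).loc u) hr hM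
      linarith [a.2.2, b.2.1]
    · rw [add_zero]
      by_cases h' : c.typA j (x :: h) u
      · have : c.cred j (x :: h) u M' = _ := if_pos h'
        rw [this, hl]
        exact a.1
      · have h'' : ¬ c.typA j h u := fun h'' => hq ⟨h'', h'⟩
        have : c.cred j h u M' = _ := if_neg h''
        rw [this]
        exact b.2.1
  have h2 := Finset.sum_le_sum h1
  rw [Finset.sum_add_distrib, ← Finset.sum_filter, ← hB, ← Finset.mul_sum] at h2
  have h3 : ∑ u ∈ B, Ma M' ((c.S j h).loc u) (16 * c.r j) (323 * c.r j) ≤ c.xtr (j + 1) x h M' := by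
    rcases B.eq_empty_or_nonempty with hE | ⟨u₀, hu₀⟩
    · rw [hE, Finset.sum_empty]
      exact upda_xtr_nonneg hM
    · have hBm : ∀ u ∈ B, u ∈ (c.S j h).K ∧ c.typA j h u ∧ ¬ c.typA j (x :: h) u := fun u hu =>
        ⟨hA (mem_filter.1 hu).1, (mem_filter.1 hu).2⟩
      have q := (upda_change hc hj (hBm u₀ hu₀).1 (hBm u₀ hu₀).2.1 (hBm u₀ hu₀).2.2).1
      have : c.xtr (j + 1) x h M' = _ := if_pos q
      rw [this]
      unfold Ma
      rw [Finset.sum_comm]
      refine Finset.sum_le_sum fun y _ => ?_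
      by_cases hy : ∃ u ∈ B, dist y ((c.S j h).loc u) ≤ 323 * c.r j
      · obtain ⟨u, hu, hd⟩ := hy
        rw [if_pos ((upda_change hc hj (hBm u hu).1 (hBm u hu).2.1 (hBm u hu).2.2).2 y hd),
          Finset.sum_eq_single_of_mem u hu]
        · split_ifs
          · exact le_rfl
          · exact hM y
        · intro v hv hne
          refine if_neg fun hv' => ?_
          have s := (inv hc j h).sep v (hBm v hv).1 u (hBm u hu).1 hne
          have t := dist_triangle_left ((c.S j h).loc v) ((c.S j h).loc u) y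
          linarith [hv'.2]
      · rw [Finset.sum_eq_zero fun v hv => if_neg fun hv' => hy ⟨v, hv, hv'.2⟩]
        split_ifs
        · exact hM y
        · exact le_rfl
  linarith

theorem upd_cred (hc : c.Ok) (hj : j < c.J) (hM : ∀ y, 0 ≤ M' y) :
    ∑ u ∈ (c.S j (x :: h)).K, c.cred j (x :: h) u M' ≤
      ∑ u ∈ (c.S j h).K \ (c.S j h).Dth (c.r j) (c.e j x h), c.cred j h u M' +
        c.xtr j x h M' / 40 + c.xtr (j + 1) x h M' / 40 := by
  have hr := r_pos hc j
  have h1 := upda_surv (x := x) hc hj hM (sdiff_subset (s := (c.S j h).K) (t := (c.S j h).Dth (c.r j) (c.e j x h)))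
  by_cases hK : (c.S j h).isK (c.r j) (c.e j x h)
  · have e1 : (c.S j (x :: h)).K = insert h.length ((c.S j h).K \ (c.S j h).Dth (c.r j) (c.e j x h)) := if_pos hK
    have e2 : h.length ∉ (c.S j h).K \ (c.S j h).Dth (c.r j) (c.e j x h) := fun hm =>
      lt_irrefl _ ((inv hc j h).lt _ ((inv hc j h).KC (mem_sdiff.1 hm).1))
    have e3 : (c.S j (x :: h)).loc h.length = x :=
      Sc.edb_loc_t (S := c.S j h) (r := c.r j) (e := c.e j x h)
    have e4 : c.xtr j x h M' = _ := if_pos ⟨hj, hK⟩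
    have b := (upda_cred (c := c) (j := j) (h := x :: h) hM h.length).2.1
    rw [e3] at b
    have v := V_le (u := x) hr hM
    have m : Ma M' x (16 * c.r j) (323 * c.r j) ≤ Ma M' x (16 * c.r j) (410560 * c.r j) := by
      unfold Ma
      refine Finset.sum_le_sum fun y _ => ?_
      split_ifs with p q q
      · exact le_rfl
      · exact absurd ⟨p.1, by linarith [p.2]⟩ q
      · exact hM y
      · exact le_rfl
    rw [e1, Finset.sum_insert e2]
    linarith
  · have e1 : (c.S j (x :: h)).K = (c.S j h).K \ (c.S j h).Dth (c.r j) (c.e j x h) := by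
      have a : (c.S j (x :: h)).K = (c.S j h).K := if_neg hK
      have b : (c.S j h).Dth (c.r j) (c.e j x h) = ∅ :=
        eq_empty_of_forall_notMem fun u hu => hK (Sc.edb_mem_Dth.1 hu).2.1
      rw [a, b, sdiff_empty]
    have := upda_xtr_nonneg (c := c) (j := j) (x := x) (h := h) hM
    rw [e1]
    linarith

/-! ### part b -/

theorem eub_ne (hc : c.Ok) : Nonempty c.Sd := ⟨(fun _ => ⟨0, hc.G0⟩, fun _ => ⟨0, hc.G0⟩)⟩

theorem eub_i (c : Ctx X) (j : ℕ) (x : X) (h : List X) : (c.e j x h).i ≤ c.k := cls_le _ _ _ _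

theorem eub_eq (c : Ctx X) (j : ℕ) (x : X) (h : List X) (y : X) :
    c.pp j (x :: h) y + c.rel j x h y = c.pp j h y +
      av (fun ω : c.Sd => (c.S j h).cost (c.r j) (c.e j x h) c.k c.G (c.R j (val ω.1) h) (val ω.1 h.length) (val ω.2) y) +
      4 * (((c.S j h).upd (c.r j) (c.e j x h)).hh (c.r j) c.k y - (c.S j h).hh (c.r j) c.k y) := by
  have : av (fun ω : c.Sd => (c.S j h).cost (c.r j) (c.e j x h) c.k c.G (c.R j (val ω.1) h) (val ω.1 h.length) (val ω.2) y) =
      c.rel j x h y + av (fun ω : c.Sd => c.tok ω j (x :: h) y) - av (fun ω : c.Sd => c.tok ω j h y) := by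
    rw [rel, ← av_add, ← av_sub]
    rfl
  rw [this, pp, pp, show c.S j (x :: h) = (c.S j h).upd (c.r j) (c.e j x h) from rfl]
  ring

theorem upd_pts_K (hc : c.Ok) (hK : (c.S j h).isK (c.r j) (c.e j x h)) (y : X) :
    c.pp j (x :: h) y + c.rel j x h y ≤ c.pp j h y +
      if ((c.S j h).Sw (c.r j) (c.e j x h)).Nonempty then
        (if 16 * c.r j ≤ dist y x ∧ dist y x ≤ 410560 * c.r j then 4 else 0)
      else (if dist y x ≤ c.r j then -1 else if dist y x ≤ 410560 * c.r j then 4 else 0) := by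
  have := eub_ne hc
  have hr := r_pos hc j
  have h1 := av_mono fun ω : c.Sd => Sc.cost_K (c := val ω.1 h.length) (e := c.e j x h) hr (inv hc j h)
    (rinv hc j (val ω.1) h) (c.eub_i j x h) (val_lt hc.G0 ω.2) hK y
  have h2 := Sc.hh_upd_K (e := c.e j x h) hr (inv hc j h) hK y
  rw [av_const] at h1
  rw [eub_eq, add_assoc]
  refine add_le_add_right ?_ _
  rw [show (c.e j x h).x = x from rfl] at h1 h2
  by_cases hS : ((c.S j h).Sw (c.r j) (c.e j x h)).Nonempty
  · simp only [hS, if_true, true_and] at h1 ⊢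
    split_ifs at h1 h2 ⊢ <;> grind
  · simp only [hS, if_false, false_and, false_or] at h1 ⊢
    split_ifs at h1 h2 ⊢ <;> grind

theorem upd_pts_N (hc : c.Ok) (hT : h.length < c.T) (hN : (c.S j h).isN (c.r j) (c.e j x h)) (y : X) :
    c.pp j (x :: h) y + c.rel j x h y ≤ c.pp j h y +
      (if dist y x ≤ 960 * c.r j then 26 / (NN (c.e j x h).i : ℝ) else 0) + 3 / c.G -
      (if dist y x ≤ c.r j then 4 * (1 / 2) ^ (c.e j x h).i else 0) := by
  have := eub_ne hc
  have : Nonempty (Fin c.T → Fin c.G) := ⟨fun _ => ⟨0, hc.G0⟩⟩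
  have hr := r_pos hc j
  have hK : ¬ (c.S j h).isK (c.r j) (c.e j x h) := fun hK => hN.1 hK.1
  have h1 := av_mono fun ω : c.Sd => Sc.cost_N (c := val ω.1 h.length) (e := c.e j x h) hr (inv hc j h)
    (rinv hc j (val ω.1) h) (c.eub_i j x h) (val_lt hc.G0 ω.2) hK y
  have h2 := Sc.hh_upd_N (e := c.e j x h) hr (inv hc j h) (c.eub_i j x h) hN y
  rw [eub_eq]
  rw [show (c.e j x h).x = x from rfl] at h1 h2
  have hG : (0 : ℝ) < c.G := by exact_mod_cast hc.G0
  have hG3 : (0 : ℝ) ≤ 3 / c.G := by positivity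
  by_cases hd : dist y x ≤ 960 * c.r j
  · simp only [hN, hd, true_and, if_true] at h1 h2 ⊢
    have h3 := h1.trans ((av_prod _).2.le.trans (av_mono (g := fun _ => 3 * (6 / NN (c.e j x h).i + 1 / c.G : ℝ)) fun U => by
      refine le_trans (le_of_eq ?_) (mul_le_mul_of_nonneg_left (adv_prob hc j x hT hN (val U) y) zero_le_three)
      rw [← av_mul]
      congr 1
      funext u
      split_ifs <;> simp))
    rw [av_const] at h3
    have hN0 : (256 : ℝ) ≤ NN (c.e j x h).i := by exact_mod_cast NN_ge _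
    have h4 : 2 * (1 / 2) ^ (c.e j x h).i / (thr (c.e j x h).i 0 : ℝ) ≤ 2 / NN (c.e j x h).i := by
      rw [thr, add_zero, Nat.cast_pow]
      have : ((1 : ℝ) / 2) ^ (c.e j x h).i ≤ 1 := pow_le_one₀ (by norm_num) (by norm_num)
      exact div_le_div₀ (by norm_num) (by linarith) (by linarith) (by nlinarith)
    have e1 : (26 : ℝ) / NN (c.e j x h).i = 3 * (6 / NN (c.e j x h).i) + 4 * (2 / NN (c.e j x h).i) := by ring
    have e2 : (3 : ℝ) / c.G = 3 * (1 / c.G) := by ring
    split_ifs at h2 ⊢ <;> linarith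
  · simp only [hd, false_and, and_false, if_false] at h1 h2 ⊢
    rw [av_const] at h1
    split_ifs at h2 ⊢ <;> linarith

theorem upd_pts_0 (hc : c.Ok) (hK : ¬ (c.S j h).isK (c.r j) (c.e j x h))
    (hN : ¬ (c.S j h).isN (c.r j) (c.e j x h)) (y : X) :
    c.pp j (x :: h) y + c.rel j x h y ≤ c.pp j h y := by
  have := eub_ne hc
  have hr := r_pos hc j
  have h1 := av_mono fun ω : c.Sd => Sc.cost_N (c := val ω.1 h.length) (e := c.e j x h) hr (inv hc j h)
    (rinv hc j (val ω.1) h) (c.eub_i j x h) (val_lt hc.G0 ω.2) hK y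
  simp only [hN, false_and, if_false] at h1
  rw [av_const] at h1
  rw [eub_eq, Sc.hh_upd_0 (e := c.e j x h) hr (inv hc j h) hK hN y]
  linarith

/-! ### part c -/

theorem updc_NN (i : ℕ) : 26 / (NN i : ℝ) * 2 ^ (2 ^ i) ≤ (1 / 2) ^ i := by
  have hq : (2 : ℝ) ^ i ≤ 2 ^ (2 ^ i) := pow_le_pow_right₀ (by norm_num) Nat.lt_two_pow_self.le
  have hq2 : (2 : ℝ) ≤ 2 ^ (2 ^ i) := by
    calc (2 : ℝ) = 2 ^ 1 := by norm_num
      _ ≤ _ := pow_le_pow_right₀ (by norm_num) Nat.one_le_two_pow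
  have hN : (NN i : ℝ) = (2 ^ (2 ^ i)) ^ 8 := by
    unfold NN
    rw [← pow_mul, pow_add]
    push_cast
    norm_num
  rw [hN]
  generalize (2 : ℝ) ^ (2 ^ i) = q at *
  have p : (0 : ℝ) < 2 ^ i := by positivity
  have q0 : 0 < q := by linarith
  have h6 : (2 : ℝ) ^ 6 ≤ q ^ 6 := pow_le_pow_left₀ (by norm_num) hq2 6
  rw [one_div, inv_pow, div_mul_eq_mul_div, div_le_iff₀ (by positivity), le_inv_mul_iff₀ p]
  calc 2 ^ i * (26 * q) ≤ q * (26 * q) := by gcongr
    _ = 26 * q ^ 2 := by ring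
    _ ≤ q ^ 6 * q ^ 2 := by gcongr; linarith
    _ = q ^ 8 := by ring

theorem updc_sum {f g b : X → ℝ} (hM : ∀ y, 0 ≤ M' y) {p : X → ℝ}
    (H : ∀ y, f y + g y ≤ p y + b y) :
    ∑ y, M' y * f y + ∑ y, M' y * g y ≤ ∑ y, M' y * p y + ∑ y, M' y * b y := by
  rw [← sum_add_distrib, ← sum_add_distrib]
  refine sum_le_sum fun y _ => ?_
  rw [← mul_add, ← mul_add]
  exact mul_le_mul_of_nonneg_left (H y) (hM y)

/-- swap: cost `≤ 4 Λ + 6 Λ + 2 Λ`, released `240 min (Λ/20) (inner'/720)` (`Wm_end`, `Ys_end`, `cred_ge`),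
`12 Λ ≤ 0.12 inner' + 13 nf`; birth: `-inner' + 12 (0.01 inner + nf)`; creation: `26 μ / NN i ≤ 2^(-i) inner`. -/
theorem upd_step (hc : c.Ok) (hj : j < c.J) (hT : h.length < c.T) (hm : Mv c.k M' ν (c.M (x :: h)) x) :
    c.Psi j (x :: h) M' + ∑ y, M' y * c.rel j x h y + 2 * c.xtr j x h M' ≤
      c.Psi j h M' + 13 * nf ν x (c.r j) + 6 * c.xtr (j + 1) x h M' + 3 * c.k / c.G := by
  have hr := r_pos hc j
  have hM := hm.old_nonneg
  have hcr := upd_cred (x := x) (h := h) hc hj hM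
  have hf := (nf_bd hm hr le_rfl).1
  have hf2 := (nf_bd hm (show 0 < 4096 ^ 2 * c.r j by positivity) le_rfl).1
  have hI := hm.Mb_new hr.le
  have hμ := hm.Mb_new (show 0 ≤ 4096 ^ 2 * c.r j by positivity)
  have hI0 : 0 ≤ Mb M' x (c.r j) := sum_nonneg fun y _ => by split_ifs; exacts [hM y, le_rfl]
  have hkG : (0 : ℝ) ≤ 3 * c.k / c.G := by positivity
  have hsub : (c.S j h).Dth (c.r j) (c.e j x h) ⊆ (c.S j h).K := filter_subset _ _
  have hsplit := sum_sdiff (f := fun u => c.cred j h u M') hsub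
  have hrel : 0 ≤ ∑ u ∈ (c.S j h).Dth (c.r j) (c.e j x h), c.cred j h u M' :=
    sum_nonneg fun u _ => (cred_ge hM u).2.2
  unfold Psi
  by_cases hK : (c.S j h).isK (c.r j) (c.e j x h)
  · have hx : c.xtr j x h M' = Ma M' x (16 * c.r j) (410560 * c.r j) := if_pos ⟨hj, hK⟩
    have hv : Mb (c.M (x :: h)) x (4096 ^ 2 * c.r j) ≤ 101 / 100 * Mb (c.M (x :: h)) x (c.r j) := hK.1
    have hD : Mb M' x (410560 * c.r j) ≤ Mb M' x (4096 ^ 2 * c.r j) :=
      Mb_mono hM x (by nlinarith)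
    have hB : Mb M' x (410560 * c.r j) ≤ 101 / 100 * (Mb M' x (c.r j) + nf ν x (c.r j)) := by
      rw [← hI]
      exact hD.trans ((le_add_of_nonneg_right hf2).trans (hμ.symm.le.trans hv))
    have hΛ : Ma M' x (16 * c.r j) (410560 * c.r j) + Mb M' x (c.r j) ≤ Mb M' x (410560 * c.r j) := by
      unfold Ma Mb
      rw [← sum_add_distrib]
      refine sum_le_sum fun y _ => ?_
      have := hM y
      split_ifs with h1 h2 h3 <;> first | linarith | (exfalso; linarith) | (exfalso; linarith [h1.1, h1.2])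
    have hp := updc_sum hM (upd_pts_K hc hK)
    by_cases hS : ((c.S j h).Sw (c.r j) (c.e j x h)).Nonempty
    · simp only [if_pos hS] at hp
      have e1 : ∑ y, M' y * (if 16 * c.r j ≤ dist y x ∧ dist y x ≤ 410560 * c.r j then (4 : ℝ) else 0) =
          4 * Ma M' x (16 * c.r j) (410560 * c.r j) := by
        unfold Ma
        rw [mul_sum]
        exact sum_congr rfl fun y _ => by split_ifs <;> ring
      obtain ⟨u, hu⟩ := hS
      have hu' := mem_filter.1 hu
      have h40 : 40 * c.r j < dist ((c.S j h).loc u) x := not_le.1 fun hh => hK.2 ⟨u, hu'.1, hh⟩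
      have h321 : dist ((c.S j h).loc u) x ≤ 321 * c.r j := hu'.2.2
      have w1 := Wm_end hr hM (Ys_nonneg (r := c.r j) (u := (c.S j h).loc u) hM) h40 h321
      have w2 := Ys_end hr hM h321
      have w3 := (cred_ge (c := c) (j := j) (h := h) hM u).1
      have w4 : c.cred j h u M' ≤ ∑ u ∈ (c.S j h).Dth (c.r j) (c.e j x h), c.cred j h u M' :=
        single_le_sum (f := fun u => c.cred j h u M') (fun u _ => (cred_ge hM u).2.2)
          (Sc.Sw_sub hr hu)
      rw [e1] at hp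
      have hΛ2 : Ma M' x (16 * c.r j) (410560 * c.r j) ≤
          1 / 100 * Mb M' x (c.r j) + 101 / 100 * nf ν x (c.r j) := by
        linarith only [hΛ, hB]
      have w5 : 12 * Ma M' x (16 * c.r j) (410560 * c.r j) ≤
          240 * c.cred j h u M' + 13 * nf ν x (c.r j) := by
        rcases min_le_iff.1 w1 with w | w
        · rcases min_le_iff.1 w2 with w' | w'
          · linarith only [w, w', w3, hf]
          · linarith only [w, w', w3, hf, hΛ2, hI0]
        · linarith only [w, w3, hf, hΛ2, hI0]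
      linarith only [w5, w4, hp, hcr, hsplit, hx, hkG]
    · simp only [if_neg hS] at hp
      have e1 : ∑ y, M' y * (if dist y x ≤ c.r j then (-1 : ℝ) else
          if dist y x ≤ 410560 * c.r j then 4 else 0) =
          4 * Mb M' x (410560 * c.r j) - 5 * Mb M' x (c.r j) := by
        unfold Mb
        rw [mul_sum, mul_sum, ← sum_sub_distrib]
        refine sum_congr rfl fun y _ => ?_
        split_ifs with h1 h2 <;> first | ring1 | (exfalso; linarith)
      rw [e1] at hp
      linarith only [hp, hcr, hsplit, hx, hkG, hB, hΛ, hrel, hI0, hf]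
  · have hx : c.xtr j x h M' = 0 := if_neg fun hh => hK hh.2
    by_cases hN : (c.S j h).isN (c.r j) (c.e j x h)
    · have hp := updc_sum hM (f := c.pp j (x :: h)) (g := c.rel j x h) (p := c.pp j h) (b := fun y => (if dist y x ≤ 960 * c.r j then
          26 / (NN (c.e j x h).i : ℝ) else 0) + 3 / c.G -
          (if dist y x ≤ c.r j then 4 * (1 / 2) ^ (c.e j x h).i else 0))
        (fun y => by linarith only [upd_pts_N hc hT hN y])
      have e1 : ∑ y, M' y * ((if dist y x ≤ 960 * c.r j then 26 / (NN (c.e j x h).i : ℝ) else 0) +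
          3 / c.G - (if dist y x ≤ c.r j then 4 * (1 / 2) ^ (c.e j x h).i else 0)) =
          26 / (NN (c.e j x h).i : ℝ) * Mb M' x (960 * c.r j) + 3 * c.k / c.G -
            4 * (1 / 2) ^ (c.e j x h).i * Mb M' x (c.r j) := by
        unfold Mb
        rw [← hm.tot, mul_sum, mul_sum, mul_sum, sum_div, ← sum_add_distrib, ← sum_sub_distrib]
        refine sum_congr rfl fun y _ => ?_
        split_ifs <;> ring
      have hc1 : Mb (c.M (x :: h)) x (4096 ^ 2 * c.r j) ≤
          Mb (c.M (x :: h)) x (c.r j) * 2 ^ (2 ^ (c.e j x h).i) := cls_spec hm hr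
      have hD : Mb M' x (960 * c.r j) ≤ Mb M' x (4096 ^ 2 * c.r j) := Mb_mono hM x (by nlinarith)
      have hN1 := updc_NN (c.e j x h).i
      have hN0 : (0 : ℝ) ≤ 26 / (NN (c.e j x h).i : ℝ) := by positivity
      have hp1 : (0 : ℝ) < (1 / 2) ^ (c.e j x h).i := by positivity
      have hp2 : ((1 : ℝ) / 2) ^ (c.e j x h).i ≤ 1 := pow_le_one₀ (by norm_num) (by norm_num)
      have k1 : 26 / (NN (c.e j x h).i : ℝ) * Mb M' x (960 * c.r j) ≤
          (1 / 2) ^ (c.e j x h).i * (Mb M' x (c.r j) + nf ν x (c.r j)) := by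
        calc _ ≤ 26 / (NN (c.e j x h).i : ℝ) *
              ((Mb M' x (c.r j) + nf ν x (c.r j)) * 2 ^ (2 ^ (c.e j x h).i)) := by
              refine mul_le_mul_of_nonneg_left ?_ hN0
              rw [← hI]
              exact hD.trans ((le_add_of_nonneg_right hf2).trans (hμ.symm.le.trans hc1))
          _ = 26 / (NN (c.e j x h).i : ℝ) * 2 ^ (2 ^ (c.e j x h).i) *
              (Mb M' x (c.r j) + nf ν x (c.r j)) := by ring
          _ ≤ _ := mul_le_mul_of_nonneg_right hN1 (by linarith)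
      have k2 := mul_le_mul_of_nonneg_right hp2 hf
      have k3 := mul_nonneg hp1.le hI0
      rw [e1] at hp
      rw [mul_add] at k1
      linarith only [hp, k1, k2, k3, hcr, hsplit, hx, hrel, hf]
    · have hp := updc_sum hM (f := c.pp j (x :: h)) (g := c.rel j x h) (p := c.pp j h) (b := fun _ => 0)
        (fun y => by linarith only [upd_pts_0 hc hK hN y])
      simp only [mul_zero, sum_const_zero] at hp
      linarith only [hp, hcr, hsplit, hx, hrel, hf, hkG]

end Ctx

end Crest.Agent.R314
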