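import Crest.Agent.R314.Nodes

/-!
# Row 314: rounding by one global minimisation

Minimise `JJ ν = E ∑ i, td (a i) (b i) + 5 E viol b + 7 nd (mean of cnt b) n'` over the couplings `ν` with first
marginal `μ` (compact).  The diagonal coupling has `JJ ≤ 12 nd n n'` (`E viol ≤ nd`: for `n v ≤ n' v`, either
`⌊n' v⌋ ≤ cnt`, or `cnt ≤ ⌊n' v⌋` on the whole support; symmetric).
* `min_pen`: if the mean `m ≠ n'` take a shortest node `c :: u` with `m ≠ n'` (`m [] = k`); `descend`, `descend_off`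
  give `p` (excess chain, `park n' p < park m p`, so some `b` of the support has a server at `p`) and `p'` (deficit
  chain).  Moving mass `ε` from `(a, b)` to `(a, update b i p')` lowers the last term by `7 ε td p p'` and raises the
  others by at most `ε td p p'` and `5 ε td p p'`.
* `min_viol`: take a shortest node `v = c :: u` violated on the support, say `cnt b v > ⌈n' v⌉`; some `b₂` of the
  support has `cnt b₂ v < n' v`, so `cnt b v ≥ cnt b₂ v + 2` while `|cnt b u - cnt b₂ u| ≤ 1`.  Take `p` below `v`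
  (excess of `b`), `p'` below `u` off `v` (excess of `b₂`); move a server of `b` from `p` to `p'` and one of `b₂` from
  `p'` to `p`, both with mass `ε`.  The means do not change, `viol` (convex) does not increase on the chains and drops
  by one at `v`: gain `5 ε wt |v|`, loss `2 ε td p p' ≤ 9/2 ε wt |v|`.
-/

set_option autoImplicit false
set_option linter.unusedSectionVars false
set_option linter.unusedVariables false

namespace Crest.Agent.R314

open Finset Function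

variable {Λ : Type} [Fintype Λ] [DecidableEq Λ] {k : ℕ}

/-- configurations in the tree -/
abbrev Conf (Λ : Type) [Fintype Λ] (k D : ℕ) : Type := Fin k → ↥(nodes Λ D)

/-- counts of a configuration -/
noncomputable def cc {D : ℕ} (a : Conf Λ k D) (v : List Λ) : ℝ := (cnt (fun i => (a i : List Λ)) v : ℝ)

structure Frac (k : ℕ) (n : List Λ → ℝ) : Prop where
  root : n [] = k
  nn : ∀ v, 0 ≤ n v
  ch : ∀ v, ∑ c, n (c :: v) ≤ n v

structure Good {D : ℕ} (n : List Λ → ℝ) (μ : Conf Λ k D → ℝ) : Prop where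
  nn : ∀ a, 0 ≤ μ a
  one : ∑ a, μ a = 1
  mean : ∀ v, v.length ≤ D → ∑ a, μ a * cc a v = n v
  bal : ∀ a, 0 < μ a → ∀ v, v.length ≤ D → |cc a v - n v| < 1

/-- distance of `x` to `[⌊y⌋, ⌈y⌉]` -/
noncomputable def vi (y x : ℝ) : ℝ := max (max (x - ⌈y⌉) (⌊y⌋ - x)) 0

variable {D : ℕ} {ρ : ℝ} {n n' : List Λ → ℝ} {μ : Conf Λ k D → ℝ}

noncomputable def JJ (ρ : ℝ) (n' : List Λ → ℝ) (ν : Conf Λ k D → Conf Λ k D → ℝ) : ℝ :=
  ∑ a, ∑ b, ν a b * ∑ i, td ρ D (a i : List Λ) (b i) +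
    5 * ∑ a, ∑ b, ν a b * ∑ v ∈ nodes Λ D, wt ρ v.length * vi (n' v) (cc b v) +
    7 * nd ρ D (fun v => ∑ a, ∑ b, ν a b * cc b v) n'

def Cp (μ : Conf Λ k D → ℝ) (ν : Conf Λ k D → Conf Λ k D → ℝ) : Prop :=
  (∀ a b, 0 ≤ ν a b) ∧ ∀ a, ∑ b, ν a b = μ a

/-! ### part a -/

theorem rnda_vi (x y : ℝ) : ∃ α β : ℝ, (∀ m : ℤ, |m - x| < 1 → vi y m ≤ α * m + β) ∧ α * x + β ≤ |y - x| := by
  have h0 : (⌊y⌋ : ℝ) ≤ ⌈y⌉ := (Int.floor_le y).trans (Int.le_ceil y)
  have up {m z : ℤ} (h : |m - x| < 1) (h' : x ≤ z) : (m : ℝ) ≤ z := by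
    have : (m : ℝ) < (z + 1 : ℤ) := by push_cast; linarith [(abs_lt.1 h).2]
    exact_mod_cast Int.lt_add_one_iff.1 (Int.cast_lt.1 this)
  have lo {m z : ℤ} (h : |m - x| < 1) (h' : z ≤ x) : (z : ℝ) ≤ m := by
    have : (z : ℝ) < (m + 1 : ℤ) := by push_cast; linarith [(abs_lt.1 h).1]
    exact_mod_cast Int.lt_add_one_iff.1 (Int.cast_lt.1 this)
  rcases le_total x ⌊y⌋ with h1 | h1
  · refine ⟨-1, ⌊y⌋, fun m hm => ?_, by linarith [Int.floor_le y, le_abs_self (y - x)]⟩
    have := up hm h1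
    exact max_le (max_le (by linarith) (by linarith)) (by linarith)
  rcases le_total x ⌈y⌉ with h2 | h2
  · refine ⟨0, 0, fun m hm => ?_, by simp⟩
    have := up hm h2
    have := lo hm h1
    exact max_le (max_le (by linarith) (by linarith)) (by linarith)
  · refine ⟨1, -⌈y⌉, fun m hm => ?_, by linarith [Int.le_ceil y, neg_le_abs (y - x)]⟩
    have := lo hm h2
    exact max_le (max_le (by linarith) (by linarith)) (by linarith)

theorem exists_min (hρ : 0 < ρ) (hμ : Good n μ) : ∃ ν, Cp μ ν ∧ (∀ ν', Cp μ ν' → JJ ρ n' ν ≤ JJ ρ n' ν') ∧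
    JJ ρ n' ν ≤ 12 * nd ρ D n n' := by
  have hd : Cp μ fun a b => if a = b then μ a else 0 :=
    ⟨fun a b => ite_nonneg (hμ.nn a) le_rfl, fun a => by simp⟩
  have hc : IsCompact {ν | Cp μ ν} := by
    refine (isCompact_Icc (a := 0) (b := fun a _ => μ a)).of_isClosed_subset ?_ fun ν h =>
      ⟨h.1, fun a b => (single_le_sum (fun b _ => h.1 a b) (mem_univ b)).trans_eq (h.2 a)⟩
    simp only [Cp, Set.ofPred_and, Set.ofPred_forall]
    exact (isClosed_iInter fun a => isClosed_iInter fun b => isClosed_le continuous_const (by fun_prop)).inter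
      (isClosed_iInter fun a => isClosed_eq (by fun_prop) continuous_const)
  obtain ⟨ν, h1, h2⟩ := hc.exists_isMinOn (f := JJ ρ n') ⟨_, hd⟩ (Continuous.continuousOn (by unfold JJ nd; fun_prop))
  refine ⟨ν, h1, fun ν' h => h2 h, (h2 hd).trans ?_⟩
  have h3 : nd ρ D (fun v => ∑ a, μ a * cc a v) n' = nd ρ D n n' :=
    sum_congr rfl fun v hv => by simp only [hμ.mean v (mem_nodes.1 hv)]
  have h4 : ∑ a, μ a * ∑ v ∈ nodes Λ D, wt ρ v.length * vi (n' v) (cc a v) ≤ nd ρ D n n' := by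
    simp only [mul_sum, mul_left_comm (μ _)]
    rw [sum_comm]
    refine sum_le_sum fun v hv => ?_
    rw [← mul_sum]
    refine mul_le_mul_of_nonneg_left ?_ (by unfold wt; positivity)
    obtain ⟨α, β, h5, h6⟩ := rnda_vi (n v) (n' v)
    refine le_trans (sum_le_sum (g := fun a => α * (μ a * cc a v) + β * μ a) fun a _ => ?_) ?_
    · rcases (hμ.nn a).eq_or_lt with h | h
      · simp [← h]
      · have := mul_le_mul_of_nonneg_left (h5 (cnt (fun i => (a i : List Λ)) v : ℕ)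
          (by simpa [cc] using hμ.bal a h v (mem_nodes.1 hv))) h.le
        simp only [Int.cast_natCast] at this
        unfold cc
        linarith
    · rwa [sum_add_distrib, ← mul_sum, ← mul_sum, hμ.mean v (mem_nodes.1 hv), hμ.one, mul_one]
  simp only [JJ, ite_mul, zero_mul, sum_ite_eq, mem_univ, if_true, td_self, sum_const_zero, mul_zero, h3]
  linarith

/-! ### part b -/

theorem rb_lin {α : Type} [Fintype α] [DecidableEq α] (ν φ : α → α → ℝ) (ε : ℝ) (a b b' : α) :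
    ∑ x, ∑ y, (ν x y + if x = a then ε * ((if y = b' then 1 else 0) - if y = b then 1 else 0) else 0) * φ x y =
      ∑ x, ∑ y, ν x y * φ x y + ε * (φ a b' - φ a b) := by
  simp [add_mul, sum_add_distrib, mul_sub, sub_mul]

theorem rb_cc (b : Conf Λ k D) (i : Fin k) (p : ↥(nodes Λ D)) (w : List Λ) : cc (update b i p) w =
    cc b w + ((if w <:+ (p : List Λ) then 1 else 0) - if w <:+ (b i : List Λ) then 1 else 0) := by
  simp only [cc, cnt_eq_sum]
  rw [← add_sum_erase _ _ (mem_univ i), ← add_sum_erase _ _ (mem_univ i), update_self,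
    sum_congr rfl fun j hj => by rw [update_of_ne (ne_of_mem_erase hj)]]
  ring

theorem rb_vi (y x t : ℝ) : vi y (x + t) ≤ vi y x + |t| := by
  have h1 := le_abs_self t
  have h2 := neg_abs_le t
  have h3 := (le_max_left _ _).trans (le_max_left (max (x - ⌈y⌉) (⌊y⌋ - x)) 0)
  have h4 := (le_max_right _ _).trans (le_max_left (max (x - ⌈y⌉) (⌊y⌋ - x)) 0)
  have h5 := le_max_right (max (x - ⌈y⌉) (⌊y⌋ - x)) 0
  unfold vi
  exact max_le (max_le (by linarith) (by linarith)) (by linarith)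

/-- an excess chain and a deficit chain -/
theorem rb_chains {f g : List Λ → ℝ} {u : List Λ} {c : Λ} (hu : u.length < D) (h0 : f u = g u)
    (h : g (c :: u) < f (c :: u)) : ∃ p p' : List Λ, p.length ≤ D ∧ p'.length ≤ D ∧ p ≠ p' ∧
    (∀ w, w <:+ p → ¬ w <:+ p' → g w < f w) ∧ (∀ w, w <:+ p' → ¬ w <:+ p → f w < g w) ∧
    park D g p < park D f p ∧ park D f p' < park D g p' := by
  obtain ⟨p, a1, a2, a3, a4⟩ := descend f g (v := c :: u) (D := D) hu h
  obtain ⟨p', b1, b2, b3, b4, b5⟩ := descend_off g f (c := c) hu (by linarith)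
  have c1 : u <:+ p := (List.suffix_cons c u).trans a1
  refine ⟨p, p', a2, b3, fun e => b2 (e ▸ a1), fun w w1 w2 => ?_, fun w w1 w2 => ?_, a4, b5⟩
  · rcases List.suffix_or_suffix_of_suffix w1 a1 with e | e
    · rcases List.suffix_cons_iff.1 e with rfl | e
      · exact h
      · exact absurd (e.trans b1) w2
    · exact a3 w e w1
  · rcases List.suffix_or_suffix_of_suffix w1 b1 with e | e
    · exact absurd (e.trans c1) w2
    · exact b4 w e (fun e' => w2 (e' ▸ c1)) w1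

theorem min_pen (hρ : 0 < ρ) (hμ : Good n μ) (hn : Frac k n') {ν : Conf Λ k D → Conf Λ k D → ℝ} (h : Cp μ ν)
    (hmin : ∀ ν', Cp μ ν' → JJ ρ n' ν ≤ JJ ρ n' ν') {v : List Λ} (hv : v.length ≤ D) :
    ∑ a, ∑ b, ν a b * cc b v = n' v := by
  set m : List Λ → ℝ := fun v => ∑ a, ∑ b, ν a b * cc b v with hm
  have key : ∀ p p' : List Λ, p.length ≤ D → p'.length ≤ D → p ≠ p' → (∀ w, w <:+ p → ¬ w <:+ p' → n' w < m w) →
      (∀ w, w <:+ p' → ¬ w <:+ p → m w < n' w) → ¬ park D n' p < park D m p := by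
    intro p p' hp hp' hne h1 h2 h3
    have a1 : 0 ≤ park D n' p := by
      unfold park
      split_ifs
      · linarith [hn.ch p]
      · linarith [hn.nn p]
    have a2 : park D m p = ∑ a, ∑ b, ν a b * ∑ i, if (b i : List Λ) = p then 1 else 0 := by
      have : ∀ b : Conf Λ k D, (∑ i, if (b i : List Λ) = p then 1 else 0 : ℝ) = park D (cc b) p := fun b =>
        (park_cnt (fun i => mem_nodes.1 (b i).2) hp).symm
      simp only [this, park, hm]
      split_ifs
      · simp only [mul_sub, sum_sub_distrib, mul_sum]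
        congr 1
        rw [sum_comm]
        exact sum_congr rfl fun a _ => sum_comm
      · simp
    obtain ⟨a, b, i, c1, c2⟩ : ∃ a b i, 0 < ν a b ∧ (b i : List Λ) = p := by
      by_contra! hc
      refine (a1.trans_lt h3).ne' (a2.trans (sum_eq_zero fun a _ => sum_eq_zero fun b _ => ?_))
      rcases (h.1 a b).eq_or_lt with e | e
      · rw [← e, zero_mul]
      · simp [hc a b _ e]
    obtain ⟨ε, e0, e1, e2⟩ : ∃ ε, 0 < ε ∧ ε ≤ ν a b ∧ ∀ w ∈ nodes Λ D, n' w ≠ m w → ε ≤ |n' w - m w| := by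
      obtain ⟨w, -, hw⟩ := exists_min_image (insert [] (nodes Λ D))
        (fun w => if n' w = m w then 1 else |n' w - m w|) (insert_nonempty _ _)
      refine ⟨min (ν a b) _, lt_min c1 (show 0 < if n' w = m w then 1 else |n' w - m w| from ?_), min_le_left _ _,
        fun w' w1 w2 => (min_le_right _ _).trans ((hw w' (mem_insert_of_mem w1)).trans_eq (if_neg w2))⟩
      split_ifs with e
      exacts [one_pos, abs_pos.2 (sub_ne_zero.2 e)]
    have t0 : 0 < td ρ D p p' := by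
      obtain ⟨u, -, -, hu⟩ := exists_lca hρ.le hp hp' hne
      exact lt_of_lt_of_le (by unfold wt; positivity) hu
    have w0 : ∀ j, 0 ≤ wt ρ j := fun j => by unfold wt; positivity
    set b' := update b i ⟨p', mem_nodes.2 hp'⟩ with hb'
    have hcc : ∀ w, cc b' w = cc b w + ((if w <:+ p' then 1 else 0) - if w <:+ p then 1 else 0) := fun w => by
      rw [hb', rb_cc, c2]
    have k := hmin (fun x y => ν x y + if x = a then ε * ((if y = b' then 1 else 0) - if y = b then 1 else 0) else 0)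
      ⟨fun x y => by
        have := h.1 x y
        dsimp only
        split_ifs with e3 e4 e5 e5
        · linarith
        · linarith
        · rw [e3, e5]; linarith
        all_goals linarith, fun x => by
        rw [sum_add_distrib, h.2]
        split_ifs <;> simp [← mul_sum]⟩
    simp only [JJ, rb_lin] at k
    have k1 : ∑ j, td ρ D (a j : List Λ) (b' j) - ∑ j, td ρ D (a j : List Λ) (b j) ≤ td ρ D p p' := by
      rw [← add_sum_erase _ _ (mem_univ i), ← add_sum_erase _ _ (mem_univ i), hb', update_self, c2,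
        sum_congr rfl fun j hj => by rw [update_of_ne (ne_of_mem_erase hj)]]
      linarith [td_triangle (D := D) hρ.le (a i) p p']
    have k2 : ∑ v ∈ nodes Λ D, wt ρ v.length * vi (n' v) (cc b' v) -
        ∑ v ∈ nodes Λ D, wt ρ v.length * vi (n' v) (cc b v) ≤ td ρ D p p' := by
      rw [td_comm, td, sub_le_iff_le_add', ← sum_add_distrib]
      refine sum_le_sum fun w _ => ?_
      rw [← mul_add, hcc]
      exact mul_le_mul_of_nonneg_left (rb_vi _ _ _) (w0 _)
    have k3 : nd ρ D (fun v => m v + ε * (cc b' v - cc b v)) n' = nd ρ D m n' - ε * td ρ D p p' := by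
      rw [nd, nd, td, mul_sum, ← sum_sub_distrib]
      refine sum_congr rfl fun w hw => ?_
      rw [mul_left_comm, ← mul_sub, hcc]
      congr 1
      split_ifs with e3 e4 e4
      · simp
      · have f1 := h2 w e3 e4
        have f2 := e2 w hw f1.ne'
        rw [abs_of_pos (by linarith)] at f2
        rw [abs_of_nonneg (by linarith), abs_of_pos (by linarith), abs_of_neg (by norm_num)]
        ring
      · have f1 := h1 w e4 e3
        have f2 := e2 w hw f1.ne
        rw [abs_of_neg (by linarith)] at f2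
        rw [abs_of_nonpos (by linarith), abs_of_neg (by linarith), abs_of_pos (by norm_num)]
        ring
      · simp
    rw [k3] at k
    nlinarith [mul_le_mul_of_nonneg_left k1 e0.le, mul_le_mul_of_nonneg_left k2 e0.le, mul_pos e0 t0]
  change m v = n' v
  induction v with
  | nil => simp only [hm, cc, cnt_nil, ← sum_mul, h.2, hμ.one, one_mul, hn.root]
  | cons c u ih =>
    have hu : u.length < D := hv
    by_contra hc
    rcases lt_or_gt_of_ne hc with e | e
    · obtain ⟨p, p', a1, a2, a3, a4, a5, a6, a7⟩ := rb_chains hu (ih hu.le).symm e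
      exact key p' p a2 a1 a3.symm a5 a4 a7
    · obtain ⟨p, p', a1, a2, a3, a4, a5, a6, a7⟩ := rb_chains hu (ih hu.le) e
      exact key p p' a1 a2 a3 a4 a5 a6

/-! ### part c -/

theorem rc_cases (y x : ℝ) : vi y x = x - ⌈y⌉ ∨ vi y x = ⌊y⌋ - x ∨ vi y x = 0 := by
  unfold vi
  rcases max_choice (max (x - ⌈y⌉) (⌊y⌋ - x)) 0 with h | h <;> rw [h]
  · rcases max_choice (x - ⌈y⌉) (⌊y⌋ - x) with h | h <;> simp [h]
  · simp

theorem rc_ge (y x : ℝ) : x - ⌈y⌉ ≤ vi y x ∧ ⌊y⌋ - x ≤ vi y x ∧ 0 ≤ vi y x :=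
  ⟨le_max_of_le_left (le_max_left _ _), le_max_of_le_left (le_max_right _ _), le_max_right _ _⟩

theorem rc_conv (y : ℝ) {s t : ℝ} (h : t + 1 ≤ s) : vi y (s - 1) + vi y (t + 1) ≤ vi y s + vi y t := by
  obtain ⟨a1, a2, a3⟩ := rc_ge y s
  obtain ⟨b1, b2, b3⟩ := rc_ge y t
  rcases rc_cases y (s - 1) with c | c | c <;> rcases rc_cases y (t + 1) with d | d | d <;> linarith

theorem rc_gain (y : ℝ) {s t : ℝ} (h : (⌈y⌉ + 1 ≤ s ∧ t + 1 ≤ ⌈y⌉) ∨ (⌊y⌋ + 1 ≤ s ∧ t + 1 ≤ ⌊y⌋)) :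
    vi y (s - 1) + vi y (t + 1) + 1 ≤ vi y s + vi y t := by
  obtain ⟨a1, a2, a3⟩ := rc_ge y s
  obtain ⟨b1, b2, b3⟩ := rc_ge y t
  have e := (Int.floor_le y).trans (Int.le_ceil y)
  rcases h with ⟨h, h'⟩ | ⟨h, h'⟩ <;>
    rcases rc_cases y (s - 1) with c | c | c <;> rcases rc_cases y (t + 1) with d | d | d <;> linarith

theorem rc_upd (G : Fin k → ↥(nodes Λ D) → ℝ) (b : Conf Λ k D) (i : Fin k) (q : ↥(nodes Λ D)) :
    ∑ j, G j (update b i q j) = ∑ j, G j (b j) - G i (b i) + G i q := by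
  rw [← add_sum_erase univ _ (mem_univ i), ← add_sum_erase univ (fun j => G j (b j)) (mem_univ i), update_self,
    sum_congr rfl fun j hj => by rw [update_of_ne (ne_of_mem_erase hj)]]
  ring

theorem rc_cc (b : Conf Λ k D) (i : Fin k) (q : ↥(nodes Λ D)) (w : List Λ) :
    cc (update b i q) w = cc b w - (if w <:+ (b i : List Λ) then 1 else 0) + if w <:+ (q : List Λ) then 1 else 0 := by
  unfold cc
  rw [cnt_eq_sum, cnt_eq_sum]
  exact rc_upd (fun _ q => if w <:+ (q : List Λ) then 1 else 0) b i q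

theorem rc_succ {b b' : Conf Λ k D} {w : List Λ} (h : cc b w < cc b' w) : cc b w + 1 ≤ cc b' w := by
  unfold cc at h ⊢
  exact_mod_cast h

theorem rc_server {b b' : Conf Λ k D} {p : List Λ} (hp : p.length ≤ D) (h : park D (cc b') p < park D (cc b) p) :
    ∃ i, (b i : List Λ) = p := by
  have e : ∀ b : Conf Λ k D, park D (cc b) p = ∑ i, if (b i : List Λ) = p then 1 else 0 := fun b =>
    park_cnt (fun i => mem_nodes.1 (b i).2) hp
  rw [e, e] at h
  by_contra h0
  push Not at h0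
  simp only [h0, if_false, sum_const_zero] at h
  exact absurd h (not_lt.2 (sum_nonneg fun i _ => by split_ifs <;> norm_num))

/-- moving the mass `ε` from `(a₁, b₁)` to `(a₁, b₁')` -/
noncomputable def rcMv (ε : ℝ) (a₁ b₁ b₁' a b : Conf Λ k D) : ℝ :=
  ε * ((if a = a₁ ∧ b = b₁' then 1 else 0) - if a = a₁ ∧ b = b₁ then 1 else 0)

theorem rc_lin (ε : ℝ) (a₁ b₁ b₁' : Conf Λ k D) (F : Conf Λ k D → Conf Λ k D → ℝ) :
    ∑ a, ∑ b, rcMv ε a₁ b₁ b₁' a b * F a b = ε * (F a₁ b₁' - F a₁ b₁) := by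
  simp [rcMv, mul_assoc, sub_mul, ← mul_sum, ite_and, sum_sub_distrib]

theorem rc_row (ε : ℝ) (a₁ b₁ b₁' a : Conf Λ k D) : ∑ b, rcMv ε a₁ b₁ b₁' a b = 0 := by
  simp [rcMv, ← mul_sum, ite_and, sum_sub_distrib]

theorem rc_mean {ν : Conf Λ k D → Conf Λ k D → ℝ} (h : ∀ a b, 0 ≤ ν a b) (F : Conf Λ k D → ℝ)
    (h0 : ∑ a, ∑ b, ν a b * F b = 0) {a b : Conf Λ k D} (hab : 0 < ν a b) (hb : 0 < F b) :
    ∃ a' b', 0 < ν a' b' ∧ F b' < 0 := by
  by_contra h1
  push Not at h1
  have h2 : ∀ a b, 0 ≤ ν a b * F b := fun a b => by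
    rcases (h a b).eq_or_lt with e | e
    · rw [← e, zero_mul]
    · exact mul_nonneg e.le (h1 a b e)
  exact absurd h0 (sum_pos' (fun a _ => sum_nonneg fun b _ => h2 a b)
    ⟨a, mem_univ _, sum_pos' (fun b _ => h2 a b) ⟨b, mem_univ _, mul_pos hab hb⟩⟩).ne'

theorem rc_swap (hρ : 0 < ρ) {ν : Conf Λ k D → Conf Λ k D → ℝ} (h : Cp μ ν)
    (hmin : ∀ ν', Cp μ ν' → JJ ρ n' ν ≤ JJ ρ n' ν') {a₁ b₁ a₂ b₂ : Conf Λ k D} (h1 : 0 < ν a₁ b₁)
    (h2 : 0 < ν a₂ b₂) {c : Λ} {u : List Λ} (hv : (c :: u).length ≤ D) (hu : cc b₁ u ≤ cc b₂ u + 1)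
    (hd : cc b₂ (c :: u) + 2 ≤ cc b₁ (c :: u))
    (hg : vi (n' (c :: u)) (cc b₁ (c :: u) - 1) + vi (n' (c :: u)) (cc b₂ (c :: u) + 1) + 1 ≤
      vi (n' (c :: u)) (cc b₁ (c :: u)) + vi (n' (c :: u)) (cc b₂ (c :: u))) : False := by
  obtain ⟨p, p1, p2, p3, p4⟩ := descend (cc b₁) (cc b₂) hv (by linarith)
  obtain ⟨q, q1, q2, q3, q4, q5⟩ := descend_off (cc b₂) (cc b₁) (u := u) (c := c) hv (by linarith)
  obtain ⟨i, hi⟩ := rc_server p2 p4
  obtain ⟨j, hj⟩ := rc_server q3 q5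
  have hup : u <:+ p := (List.suffix_cons c u).trans p1
  set ε := min (ν a₁ b₁) (ν a₂ b₂) / 2 with hε
  have hε0 : 0 < ε := by positivity
  have hε1 : 2 * ε ≤ ν a₁ b₁ := by linarith [min_le_left (ν a₁ b₁) (ν a₂ b₂)]
  have hε2 : 2 * ε ≤ ν a₂ b₂ := by linarith [min_le_right (ν a₁ b₁) (ν a₂ b₂)]
  set b₁' := update b₁ i (b₂ j) with hb₁
  set b₂' := update b₂ j (b₁ i) with hb₂
  have lin : ∀ F : Conf Λ k D → Conf Λ k D → ℝ,
      ∑ a, ∑ b, (ν a b + rcMv ε a₁ b₁ b₁' a b + rcMv ε a₂ b₂ b₂' a b) * F a b =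
        ∑ a, ∑ b, ν a b * F a b + ε * (F a₁ b₁' - F a₁ b₁ + (F a₂ b₂' - F a₂ b₂)) := fun F => by
    simp only [add_mul, sum_add_distrib, rc_lin]
    ring
  have H := hmin (fun a b => ν a b + rcMv ε a₁ b₁ b₁' a b + rcMv ε a₂ b₂ b₂' a b) ⟨fun a b => ?_, fun a => ?_⟩
  rotate_left
  · have := h.1 a b
    simp only [rcMv]
    by_cases c1 : a = a₁ ∧ b = b₁
    · rw [← c1.1, ← c1.2] at hε1
      split_ifs <;> linarith
    by_cases c2 : a = a₂ ∧ b = b₂
    · rw [← c2.1, ← c2.2] at hε2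
      split_ifs <;> linarith
    rw [if_neg c1, if_neg c2]
    split_ifs <;> linarith
  · simp only [sum_add_distrib, rc_row, add_zero, h.2 a]
  unfold JJ at H
  have e1 : ∀ w, cc b₁' w = cc b₁ w - (if w <:+ p then 1 else 0) + if w <:+ q then 1 else 0 := fun w => by
    rw [hb₁, rc_cc, hi, hj]
  have e2 : ∀ w, cc b₂' w = cc b₂ w - (if w <:+ q then 1 else 0) + if w <:+ p then 1 else 0 := fun w => by
    rw [hb₂, rc_cc, hi, hj]
  have e3 : (fun v => ∑ a, ∑ b, (ν a b + rcMv ε a₁ b₁ b₁' a b + rcMv ε a₂ b₂ b₂' a b) * cc b v) =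
      fun v => ∑ a, ∑ b, ν a b * cc b v := by
    funext v
    rw [lin fun _ b => cc b v, e1, e2]
    ring
  rw [e3, lin fun a b => ∑ i, td ρ D (a i : List Λ) (b i),
    lin fun _ b => ∑ v ∈ nodes Λ D, wt ρ v.length * vi (n' v) (cc b v)] at H
  have t1 := rc_upd (fun l q => td ρ D (a₁ l : List Λ) q) b₁ i (b₂ j)
  have t2 := rc_upd (fun l q => td ρ D (a₂ l : List Λ) q) b₂ j (b₁ i)
  rw [← hb₁, hi, hj] at t1
  rw [← hb₂, hi, hj] at t2
  have t3 := td_triangle (D := D) hρ.le (a₁ i : List Λ) p q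
  have t4 := td_triangle (D := D) hρ.le (a₂ j : List Λ) q p
  have t5 := td_le_of_anc (D := D) hρ.le hup q1
  have t6 := td_le_of_anc (D := D) hρ.le q1 hup
  have hw : ∀ m, 0 < wt ρ m := fun m => by unfold wt; positivity
  have s1 : ∑ v ∈ nodes Λ D, (wt ρ v.length * vi (n' v) (cc b₁' v) + wt ρ v.length * vi (n' v) (cc b₂' v) +
      if v = c :: u then wt ρ v.length else 0) ≤
      ∑ v ∈ nodes Λ D, (wt ρ v.length * vi (n' v) (cc b₁ v) + wt ρ v.length * vi (n' v) (cc b₂ v)) := by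
    refine sum_le_sum fun w _ => ?_
    rw [e1, e2]
    by_cases c0 : w = c :: u
    · subst c0
      simp only [p1, q2, if_true, if_false, add_zero, sub_zero]
      nlinarith [mul_le_mul_of_nonneg_left hg (hw (c :: u).length).le]
    rw [if_neg c0, add_zero, ← mul_add, ← mul_add]
    refine mul_le_mul_of_nonneg_left ?_ (hw _).le
    by_cases c1 : w <:+ p <;> by_cases c2 : w <:+ q <;>
      simp only [c1, c2, if_true, if_false, add_zero, sub_zero, sub_add_cancel, le_refl]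
    · refine rc_conv _ (rc_succ (p3 w ?_ c1))
      refine (List.suffix_or_suffix_of_suffix p1 c1).resolve_right fun c3 => ?_
      exact c2 (((List.suffix_cons_iff.1 c3).resolve_left c0).trans q1)
    · have c3 : u <:+ w := (List.suffix_or_suffix_of_suffix q1 c2).resolve_right fun c3 => c1 (c3.trans hup)
      have := rc_conv (n' w) (rc_succ (q4 w c3 (fun e => c1 (e ▸ hup)) c2))
      linarith
  rw [sum_add_distrib, sum_add_distrib, sum_add_distrib, sum_ite_eq' _ (c :: u), if_pos (mem_nodes.2 hv),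
    List.length_cons] at s1
  have := hw (u.length + 1)
  have s2 : ε * (∑ l, td ρ D (a₁ l : List Λ) (b₁' l) - ∑ l, td ρ D (a₁ l : List Λ) (b₁ l) +
      (∑ l, td ρ D (a₂ l : List Λ) (b₂' l) - ∑ l, td ρ D (a₂ l : List Λ) (b₂ l)) + 5 *
      (∑ v ∈ nodes Λ D, wt ρ v.length * vi (n' v) (cc b₁' v) - ∑ v ∈ nodes Λ D, wt ρ v.length * vi (n' v) (cc b₁ v) +
      (∑ v ∈ nodes Λ D, wt ρ v.length * vi (n' v) (cc b₂' v) -
        ∑ v ∈ nodes Λ D, wt ρ v.length * vi (n' v) (cc b₂ v)))) < 0 :=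
    mul_neg_of_pos_of_neg hε0 (by linarith)
  linarith

theorem min_viol (hρ : 0 < ρ) (hμ : Good n μ) (hn : Frac k n') {ν : Conf Λ k D → Conf Λ k D → ℝ} (h : Cp μ ν)
    (hmin : ∀ ν', Cp μ ν' → JJ ρ n' ν ≤ JJ ρ n' ν')
    (hm : ∀ v : List Λ, v.length ≤ D → ∑ a, ∑ b, ν a b * cc b v = n' v)
    {a b : Conf Λ k D} (hab : 0 < ν a b) {v : List Λ} (hv : v.length ≤ D) : vi (n' v) (cc b v) = 0 := by
  have h1 : ∑ a, ∑ b, ν a b = 1 := by simp only [h.2, hμ.one]
  induction v generalizing a b with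
  | nil =>
    have : cc b [] = k := by unfold cc; rw [cnt_nil]
    simp [vi, hn.root, this]
  | cons c u ih =>
    have hu : ∀ {a₁ b₁ a₂ b₂}, 0 < ν a₁ b₁ → 0 < ν a₂ b₂ → cc b₁ u ≤ cc b₂ u + 1 := fun h1 h2 => by
      have c1 := (rc_ge (n' u) _).1.trans (ih h1 (Nat.le_of_succ_le hv)).le
      have c2 := (rc_ge (n' u) _).2.1.trans (ih h2 (Nat.le_of_succ_le hv)).le
      have c3 : (⌈n' u⌉ : ℝ) ≤ ⌊n' u⌋ + 1 := by exact_mod_cast Int.ceil_le_floor_add_one (n' u)
      linarith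
    have z1 : ∀ (m : ℤ) (b : Conf Λ k D), (m : ℝ) < cc b (c :: u) → m + 1 ≤ cc b (c :: u) := fun m b h => by
      unfold cc at h ⊢
      exact_mod_cast h
    have z2 : ∀ (m : ℤ) (b : Conf Λ k D), cc b (c :: u) < (m : ℝ) → cc b (c :: u) + 1 ≤ m := fun m b h => by
      unfold cc at h ⊢
      exact_mod_cast h
    have hf := Int.floor_le (n' (c :: u))
    have hc := Int.le_ceil (n' (c :: u))
    by_contra h0
    have h2 : 0 < vi (n' (c :: u)) (cc b (c :: u)) := lt_of_le_of_ne (rc_ge _ _).2.2 (Ne.symm h0)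
    rcases rc_cases (n' (c :: u)) (cc b (c :: u)) with e | e | e
    · obtain ⟨a', b', c1, c2⟩ := rc_mean h.1 (fun b => cc b (c :: u) - n' (c :: u)) (by
        simp only [mul_sub, sum_sub_distrib, ← sum_mul, h1, hm _ hv]; ring) hab (by linarith)
      have c3 := z1 ⌈n' (c :: u)⌉ b (by linarith)
      have c4 := z2 ⌈n' (c :: u)⌉ b' (by linarith)
      exact rc_swap hρ h hmin hab c1 hv (hu hab c1) (by linarith) (rc_gain _ (Or.inl ⟨c3, c4⟩))
    · obtain ⟨a', b', c1, c2⟩ := rc_mean h.1 (fun b => n' (c :: u) - cc b (c :: u)) (by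
        simp only [mul_sub, sum_sub_distrib, ← sum_mul, h1, hm _ hv]; ring) hab (by linarith)
      have c3 := z1 ⌊n' (c :: u)⌋ b' (by linarith)
      have c4 := z2 ⌊n' (c :: u)⌋ b (by linarith)
      exact rc_swap hρ h hmin c1 hab hv (hu c1 hab) (by linarith) (rc_gain _ (Or.inr ⟨c3, c4⟩))
    · exact h0 e

/-! ### part a, continued -/

theorem round (hρ : 0 < ρ) (hμ : Good n μ) (hn : Frac k n') : ∃ ν : Conf Λ k D → Conf Λ k D → ℝ, Cp μ ν ∧
    Good n' (fun b => ∑ a, ν a b) ∧ ∑ a, ∑ b, ν a b * ∑ i, td ρ D (a i : List Λ) (b i) ≤ 12 * nd ρ D n n' := by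
  obtain ⟨ν, h1, h2, h3⟩ := exists_min (n' := n') hρ hμ
  have h4 := fun v hv => min_pen hρ hμ hn h1 h2 (v := v) hv
  have hw (m : ℕ) : 0 ≤ wt ρ m := by unfold wt; positivity
  refine ⟨ν, h1, ⟨fun b => sum_nonneg fun a _ => h1.1 a b, ?_, fun v hv => ?_, fun b hb v hv => ?_⟩, le_trans ?_ h3⟩
  · rw [sum_comm, ← hμ.one]
    exact sum_congr rfl fun a _ => h1.2 a
  · simp only [sum_mul]
    rw [sum_comm, h4 v hv]
  · obtain ⟨a, -, ha⟩ := exists_lt_of_sum_lt (s := univ) (f := fun _ => (0 : ℝ)) (by simpa using hb)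
    have h5 := (min_viol hρ hμ hn h1 h2 h4 ha hv).le
    simp only [vi, max_le_iff] at h5
    rw [abs_lt]
    constructor <;> linarith [h5.1.1, h5.1.2, Int.ceil_lt_add_one (n' v), Int.lt_floor_add_one (n' v)]
  · rw [JJ, add_assoc]
    refine le_add_of_nonneg_right (add_nonneg (mul_nonneg (by norm_num) (sum_nonneg fun a _ => sum_nonneg fun b _ =>
      mul_nonneg (h1.1 a b) (sum_nonneg fun v _ => mul_nonneg (hw _) (le_max_right _ _))))
      (mul_nonneg (by norm_num) (sum_nonneg fun v _ => mul_nonneg (hw _) (abs_nonneg _))))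

theorem good_init (a₀ : Conf Λ k D) (h : ∀ v, n v = cc a₀ v) : Good n fun a => if a = a₀ then 1 else 0 := by
  refine ⟨fun a => ite_nonneg zero_le_one le_rfl, by simp, fun v _ => by simp [h], fun a ha v _ => ?_⟩
  obtain rfl : a = a₀ := by_contra fun h => by simp [h] at ha
  simp [h]

/-- the expected number of servers at `v` is the parked mass -/
theorem Good.park_eq (hμ : Good n μ) {v : List Λ} (hv : v.length ≤ D) :
    ∑ a, μ a * ∑ i, (if (a i : List Λ) = v then 1 else 0) = park D n v := by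
  have h (a : Conf Λ k D) := park_cnt (a := fun i => (a i : List Λ)) (fun i => mem_nodes.1 (a i).2) hv
  simp only [← h, park, mul_sub, sum_sub_distrib]
  congr 1
  · exact hμ.mean v hv
  split_ifs with h1
  · simp only [mul_sum]
    rw [sum_comm]
    exact sum_congr rfl fun c _ => hμ.mean _ h1
  · simp

end Crest.Agent.R314
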