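import Crest.Agent.R314.Star

/-!
# Row 314: the star algorithm -- new snapshots and the full step

* `step_w`: `act`, `eta`, `del`, `tht`, `fac`, `psi` of light `c ∉ 𝒯` do not change; `Sq` and `co` do not change
  (`q = 0` on `𝒯 \ h`).  With `M = Lf 2 (a c)`: `c ∉ 𝒯` or `c = h` costs `≤ 152 T M |Δ gam|` (`slope_lip`: `150 T`
  potential, `80` deficit, `20` movement, `T` explicit); `c ∈ 𝒯 \ h` costs `≤ 167 T M ≤ 167 · 202 T sqd`;
  `|Δ gam h| ≤ |Δ γ| + 2048 |Δ eps| / T`, `|Δ eps| ≤ ∑ (mh + M)/Dh ≤ 302 ∑ sqd / Dh`, `M h ≤ 1.21 Dh`.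
  The Brier term drops by `10^6 T ∑ sqd` (`br_eq`).
* `step_D`: crude bounds: potential part before `≥ 0`, after `≤ 165 T ∑ M`; `Y ≤ 4 ∑ M`, `Y' ≤ 14 ∑ M`;
  `∑ M ≤ 202 ∑ sqd`.
* `star_step`: `step_n`, `step_z`, then either `step_D`, or `step_q0` (with `trig \ h`) and `step_w`; then
  `step_z`, `step_q`.  `7 q c Y ≤ 7 q c Y₀ + 7 q c |Y - Y₀|`, `q c Y₀ ≤ 25 mh c ≤ 2500 sqd`, `M ≤ 202 sqd` on `trig`.
  `gam`, `trig` depend only on `w, wD, h`; `Mov` satisfies the triangle inequality.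
-/

set_option autoImplicit false
set_option linter.unusedSectionVars false
set_option linter.unusedVariables false

namespace Crest.Agent.R314

open Finset Function

variable {Λ : Type*} [Fintype Λ] [DecidableEq Λ] {k : ℕ}

namespace Star

open Classical in
/-- children whose snapshot is out of date -/
noncomputable def trig (S : Star Λ k) (a : Λ → Fin k → ℝ) : Finset Λ :=
  univ.filter fun c => S.mh c / 100 < sqd (a c) (S.w c)

noncomputable def rw (S : Star Λ k) (a : Λ → Fin k → ℝ) : Star Λ k :=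
  { S with w := fun c => if c ∈ S.trig a then a c else S.w c }

/-- full reset with heavy child `h'` -/
def rD (S : Star Λ k) (a : Λ → Fin k → ℝ) (h' : Λ) : Star Λ k :=
  { z := S.z, w := a, wD := a, q := fun c => if c = h' then 1 else 0, h := h' }

variable {S : Star Λ k} {T γ γ' n n' Mv : ℝ} {a a₀ : Λ → Fin k → ℝ}

/-! ### part a -/

theorem sa_mh (c : Λ) : (S.rw a).mh c = if c ∈ S.trig a then Lf 2 (a c) else S.mh c := by
  simp only [mh, rw]
  split_ifs <;> rfl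

theorem sa_mh' {c : Λ} (hc : c ∉ S.trig a) : (S.rw a).mh c = S.mh c := by rw [sa_mh, if_neg hc]

theorem sa_act {c : Λ} (hc : c ∉ S.trig a) : c ∈ (S.rw a).act ↔ c ∈ S.act := by
  simp only [act, mem_filter, sa_mh' hc]
  rfl

theorem sa_eta {c : Λ} (hc : c ∉ S.trig a) : (S.rw a).eta c = S.eta c := by
  simp only [eta, sa_mh' hc]
  rfl

theorem sa_del {c : Λ} (hc : c ∉ S.trig a) : (S.rw a).del c = S.del c := by
  simp only [del, sa_mh' hc, sa_eta hc]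
  rfl

theorem sa_tht {c : Λ} (hc : c ∉ S.trig a) (hh : c ≠ S.h) : (S.rw a).tht T c = S.tht T c := by
  have : c ≠ (S.rw a).h := hh
  simp only [tht, if_neg hh, if_neg this, sa_act hc, sa_eta hc]

theorem sa_sum {f f' : Λ → ℝ} (h1 : ∀ c, c ∉ S.trig a → f' c = f c)
    (h2 : ∀ c ∈ S.act, c ∈ S.trig a → f c = 0) (h3 : ∀ c ∈ (S.rw a).act, c ∈ S.trig a → f' c = 0) :
    ∑ c ∈ (S.rw a).act, f' c = ∑ c ∈ S.act, f c := by
  rw [← sum_ite_mem_eq, ← sum_ite_mem_eq S.act]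
  refine sum_congr rfl fun c _ => ?_
  by_cases hc : c ∈ S.trig a
  · have e1 : (if c ∈ (S.rw a).act then f' c else 0) = 0 := by
      split_ifs with h
      exacts [h3 c h hc, rfl]
    have e2 : (if c ∈ S.act then f c else 0) = 0 := by
      split_ifs with h
      exacts [h2 c h hc, rfl]
    rw [e1, e2]
  · simp only [sa_act hc, h1 c hc]

theorem sa_sqd_nonneg (x z : Fin k → ℝ) : 0 ≤ sqd x z := sum_nonneg fun _ _ => sq_nonneg _

theorem step_w (hk : 0 < k) (hT : 2 ^ 15 * Real.log (28 * k) ≤ T) (hT' : 10 ^ 5 ≤ T) (h : S.Ok T γ)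
    (ha : ∀ c, In01 (a c)) (hz : S.Zs T γ a) (hD : ∑ c, sqd (a c) (S.wD c) ≤ S.Dh / 100)
    (hq : ∀ c ∈ (S.trig a).erase S.h, S.q c = 0) (h3 : 3 ≤ γ') (hM : ∑ c, Lf 2 (a c) ≤ Mv)
    (hγ : Rng k T γ' Mv) :
    (S.rw a).Ok T γ' ∧ (S.rw a).Ws a ∧
    (S.rw a).Phi T γ' n a + S.Mov T γ n (S.rw a) γ' n +
        T * ∑ c, |(S.rw a).gam T γ' c - S.gam T γ c| * Lf 2 (a c) ≤
      S.Phi T γ n a + 200 * T * |γ' - γ| * Mv - 5 * 10 ^ 5 * T * ∑ c ∈ (S.trig a).erase S.h, sqd (a c) (S.w c) := by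
  have T0 : 0 < T := by linarith
  have hw' : ∀ c, In01 ((S.rw a).w c) := fun c => by
    simp only [rw]
    split_ifs
    exacts [ha c, h.hw c]
  have hWs : (S.rw a).Ws a := by
    refine ⟨fun c => ?_, hD⟩
    by_cases hc : c ∈ S.trig a
    · rw [sa_mh, if_pos hc]
      have := Lf_nonneg 2 (a c)
      simp only [rw, if_pos hc, sqd, sub_self]
      simp
      positivity
    · rw [sa_mh' hc]
      simp only [rw, if_neg hc]
      simpa [trig] using hc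
  have hE : ∀ {c}, c ≠ S.h → c ∈ S.trig a → S.q c = 0 := fun h1 h2 => hq _ (mem_erase.2 ⟨h1, h2⟩)
  have hO : (S.rw a).Ok T γ' := by
    refine ⟨h3, fun c => (rng_child hk T0 ha hw' h.hwD h.hh hWs hM hγ c).le_four hk hT, h.hz, hw', h.hwD,
      h.q0, h.q1, fun c h1 h2 => ?_, hm_of_Ws ha hw' h.hwD hWs, h.hh⟩
    by_cases hc : c ∈ S.trig a
    · exact hE h1 hc
    · exact h.qi c h1 fun h4 => h2 ((sa_act hc).2 h4)
  refine ⟨hO, hWs, ?_⟩
  obtain ⟨p1, -, -, -, p5, p6, p7, p8, p9, -⟩ := par_bd hT' h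
  obtain ⟨r1, -, -, -, r5, r6, r7, -, -, -⟩ := par_bd hT' hO
  have an : ∀ {c}, c ∈ S.act → c ≠ S.h := fun hc => (mem_filter.1 hc).2.1
  have an' : ∀ {c}, c ∈ (S.rw a).act → c ≠ S.h := fun hc => (mem_filter.1 hc).2.1
  have hq' : (S.rw a).q = S.q := rfl
  have hh' : (S.rw a).h = S.h := rfl
  have eSq : (S.rw a).Sq = S.Sq := sa_sum (fun c hc => by rw [sa_del hc, sa_eta hc, hq'])
    (fun c h1 h2 => by simp [hE (an h1) h2]) fun c h1 h2 => by simp [hq', hE (an' h1) h2]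
  have eco : (S.rw a).co = S.co := by
    rw [co, co, hq', hh', sa_sum (f := fun c => min (S.q c) (S.del c)) (fun c hc => by rw [sa_del hc])
      (fun c h1 h2 => by rw [hE (an h1) h2, min_eq_left (p1 c h1).2.le])
      fun c h1 h2 => by rw [hE (an' h1) h2, min_eq_left (r1 c h1).2.le]]
  set E := (S.trig a).erase S.h with hEdef
  set σ := ∑ c ∈ E, sqd (a c) (S.w c) with hσ
  have σ0 : 0 ≤ σ := sum_nonneg fun c _ => sa_sqd_nonneg _ _
  have M0 : ∀ c, 0 ≤ Lf 2 (a c) := fun c => Lf_nonneg _ _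
  have hT1 : ∀ c ∈ S.trig a, S.mh c ≤ 100 * sqd (a c) (S.w c) := fun c hc => by
    have := (mem_filter.1 hc).2
    linarith
  have hT2 : ∀ c ∈ S.trig a, Lf 2 (a c) ≤ 202 * sqd (a c) (S.w c) := fun c hc => by
    have h1 := hT1 c hc
    have h2 := Lf_le_of_sqd (ha c) (h.hw c)
    rw [mh] at h1
    linarith
  set d : Λ → ℝ := fun c => |(S.rw a).gam T γ' c - S.gam T γ c| with hd
  have d0 : ∀ c, 0 ≤ d c := fun c => abs_nonneg _
  have d1 : ∀ c, d c ≤ 1 := fun c => abs_le.2 ⟨by linarith [r5 c, h.h4 c], by linarith [p5 c, hO.h4 c]⟩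
  have sl := fun c => slope_lip hT' (p5 c) (h.h4 c) (r5 c) (hO.h4 c) (h.hz c) (ha c) (hz c)
  have hR : ∀ c, |(S.rw a).Rt T γ' a c - S.Rt T γ a c| ≤ 30 * Lf 2 (a c) * d c := fun c => (sl c).1
  have hB : ∀ c, |(S.rw a).B T γ' c - S.B T γ c| ≤ 10 * Lf 2 (a c) * d c := fun c => (sl c).2
  have hR0 : ∀ c, 0 ≤ S.Rt T γ a c ∧ S.Rt T γ a c ≤ 3 * Lf 2 (a c) := fun c =>
    let t := RtP_bd hT' (p5 c) (h.h4 c) (h.hz c) (ha c) (hz c)
    ⟨t.1, t.2.1⟩
  -- the heavy child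
  have hN : |∑ c ∈ (S.rw a).act, (S.rw a).mh c - ∑ c ∈ S.act, S.mh c| ≤ 302 * σ := by
    rw [← sum_ite_mem_eq, ← sum_ite_mem_eq S.act, ← sum_sub_distrib, hσ, ← sum_ite_mem_eq E, mul_sum]
    refine (abs_sum_le_sum_abs _ _).trans (sum_le_sum fun c _ => ?_)
    by_cases hc : c ∈ S.trig a
    · by_cases hch : c = S.h
      · rw [if_neg fun h1 => an' h1 hch, if_neg fun h1 => an h1 hch, if_neg fun h1 => (mem_erase.1 h1).1 hch]
        simp
      · rw [if_pos (mem_erase.2 ⟨hch, hc⟩), sa_mh, if_pos hc]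
        have h1 := hT1 c hc
        have h2 := hT2 c hc
        have h4 : 0 ≤ S.mh c := Lf_nonneg _ _
        have h5 := M0 c
        split_ifs <;> rw [abs_le] <;> constructor <;> linarith
    · rw [if_neg fun h1 : c ∈ E => hc (mem_erase.1 h1).2]
      simp only [sa_act hc, sa_mh' hc, sub_self, abs_zero, mul_zero, le_refl]
  have hMh : Lf 2 (a S.h) ≤ 121 / 100 * S.Dh :=
    (single_le_sum (fun c _ => M0 c) (mem_univ _)).trans (Lf_track univ ha h.hwD hD).2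
  have D0 : 0 ≤ S.Dh := sum_nonneg fun c _ => Lf_nonneg _ _
  have hH : T * (d S.h * Lf 2 (a S.h)) ≤ T * (|γ' - γ| * Lf 2 (a S.h)) + 8 * T * σ := by
    have e1 : (S.rw a).gam T γ' S.h - S.gam T γ S.h = (γ' - γ) + 2048 / T * ((S.rw a).eps - S.eps) := by
      simp only [gam, tht, hh', if_true]
      ring
    have e2 : |(S.rw a).eps - S.eps| * S.Dh ≤ 302 * σ := by
      have : (S.rw a).Dh = S.Dh := rfl
      rw [eps, eps, this, ← sub_div, abs_div, abs_of_nonneg D0]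
      rcases D0.eq_or_lt with h0 | h0
      · rw [← h0, mul_zero]; linarith
      · rw [div_mul_cancel₀ _ h0.ne']; exact hN
    have e3 : T * d S.h ≤ T * |γ' - γ| + 2048 * |(S.rw a).eps - S.eps| := by
      simp only [hd]
      rw [e1]
      refine (mul_le_mul_of_nonneg_left (abs_add_le _ _) T0.le).trans (le_of_eq ?_)
      rw [abs_mul, abs_of_pos (by positivity : 0 < 2048 / T)]
      field_simp
    have e4 := mul_le_mul_of_nonneg_right e3 (M0 S.h)
    have e5 := mul_le_mul_of_nonneg_left hMh (abs_nonneg ((S.rw a).eps - S.eps))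
    have e6 := mul_le_mul_of_nonneg_right hT' σ0
    nlinarith
  -- one child
  have key : ∀ c, T * ((S.rw a).fac T c * (S.rw a).psi c * (S.rw a).Rt T γ' a c -
      S.fac T c * S.psi c * S.Rt T γ a c) + 100 * (Lf 2 (a c) * d c) + T * (d c * Lf 2 (a c)) ≤
      152 * T * |γ' - γ| * Lf 2 (a c) + (if c ∈ E then 33734 * T * sqd (a c) (S.w c) else 0) +
        if c = S.h then 1216 * T * σ else 0 := by
    intro c
    have m0 := M0 c
    have md : 0 ≤ d c * Lf 2 (a c) := mul_nonneg (d0 c) m0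
    have hTmd : 100 * (Lf 2 (a c) * d c) ≤ T * (d c * Lf 2 (a c)) := by nlinarith
    have k0 : 0 ≤ (S.rw a).fac T c * (S.rw a).psi c := mul_nonneg (r6 c).1 (r7 c).1
    have k5 : (S.rw a).fac T c * (S.rw a).psi c ≤ 5 := by nlinarith [r6 c, r7 c]
    have hRc := (abs_le.1 (hR c)).2
    have g0 : 0 ≤ T * |γ' - γ| * Lf 2 (a c) := by positivity
    by_cases hc : c ∈ E
    · rw [if_pos hc, if_neg (mem_erase.1 hc).1]
      have a1 : d c * Lf 2 (a c) ≤ Lf 2 (a c) := by nlinarith [d1 c]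
      have a2 : (S.rw a).fac T c * (S.rw a).psi c * (S.rw a).Rt T γ' a c ≤ 5 * (33 * Lf 2 (a c)) :=
        (mul_le_mul_of_nonneg_left (by linarith [(hR0 c).2] : (S.rw a).Rt T γ' a c ≤ 33 * Lf 2 (a c))
          k0).trans (mul_le_mul_of_nonneg_right k5 (by linarith))
      have a3 : 0 ≤ S.fac T c * S.psi c * S.Rt T γ a c :=
        mul_nonneg (mul_nonneg (p6 c).1 (p7 c).1) (hR0 c).1
      have a4 := hT2 c (mem_erase.1 hc).2
      have a5 : (S.rw a).fac T c * (S.rw a).psi c * (S.rw a).Rt T γ' a c -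
          S.fac T c * S.psi c * S.Rt T γ a c + 2 * (d c * Lf 2 (a c)) ≤ 33734 * sqd (a c) (S.w c) := by
        linarith
      have a6 := mul_le_mul_of_nonneg_left a5 T0.le
      linarith
    · rw [if_neg hc]
      have hcs : c = S.h ∨ (c ≠ S.h ∧ c ∉ S.trig a) := by
        by_cases hch : c = S.h
        · exact Or.inl hch
        · exact Or.inr ⟨hch, fun h1 => hc (mem_erase.2 ⟨hch, h1⟩)⟩
      have e1 : S.fac T c * S.psi c = (S.rw a).fac T c * (S.rw a).psi c := by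
        rcases hcs with rfl | ⟨h1, h2⟩
        · simp only [fac, psi, hh', if_true, eSq]
        · simp only [fac, psi, hh', if_neg h1, eSq, sa_tht h2 h1, sa_act h2, sa_eta h2, sa_del h2, hq']
      have a1 : (S.rw a).fac T c * (S.rw a).psi c * (S.rw a).Rt T γ' a c -
          S.fac T c * S.psi c * S.Rt T γ a c ≤ 5 * (30 * Lf 2 (a c) * d c) := by
        rw [e1, ← mul_sub]
        exact (mul_le_mul_of_nonneg_left hRc k0).trans (mul_le_mul_of_nonneg_right k5 (by linarith))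
      have a2 := mul_le_mul_of_nonneg_left a1 T0.le
      rcases hcs with rfl | ⟨h1, h2⟩
      · rw [if_pos rfl]
        linarith
      · rw [if_neg h1]
        have e2 : d c = |γ' - γ| := by
          simp only [hd, gam, sa_tht h2 h1]
          congr 1
          ring
        rw [e2] at a2 hTmd ⊢
        linarith
  have ksum := sum_le_sum fun c (_ : c ∈ univ) => key c
  simp only [sum_add_distrib, ← mul_sum, sum_sub_distrib, sum_ite_mem_eq, sum_ite_eq', mem_univ, if_true] at ksum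
  have hBs : ∑ c, |(S.rw a).B T γ' c - S.B T γ c| ≤ 10 * ∑ c, Lf 2 (a c) * d c := by
    rw [mul_sum]
    exact sum_le_sum fun c _ => (hB c).trans (le_of_eq (by ring))
  have hY : |(S.rw a).Y T γ' n - S.Y T γ n| ≤ ∑ c, |(S.rw a).B T γ' c - S.B T γ c| := by
    refine (abs_max_sub_max_le_abs _ _ _).trans ?_
    rw [sub_sub_sub_cancel_right, ← sum_sub_distrib]
    exact abs_sum_le_sum_abs _ _
  have hMov : S.Mov T γ n (S.rw a) γ' n ≤
      ∑ c, |(S.rw a).B T γ' c - S.B T γ c| + |(S.rw a).Y T γ' n - S.Y T γ n| := by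
    calc _ ≤ ∑ c, (|(S.rw a).B T γ' c - S.B T γ c| + S.q c * |(S.rw a).Y T γ' n - S.Y T γ n|) := by
          refine sum_le_sum fun c _ => ?_
          have e : (S.rw a).nn T γ' n c - S.nn T γ n c = ((S.rw a).B T γ' c - S.B T γ c) -
              S.q c * ((S.rw a).Y T γ' n - S.Y T γ n) := by
            rw [nn, nn, hq']; ring
          rw [e]
          refine (abs_sub _ _).trans ?_
          rw [abs_mul, abs_of_nonneg (h.q0 c)]
      _ = _ := by rw [sum_add_distrib, ← sum_mul, h.q1, one_mul]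
  have hco : (S.rw a).Y T γ' n * S.co - S.Y T γ n * S.co ≤ |(S.rw a).Y T γ' n - S.Y T γ n| * 8 := by
    rw [← sub_mul]
    exact (mul_le_mul_of_nonneg_right (le_abs_self _) p8).trans
      (mul_le_mul_of_nonneg_left p9 (abs_nonneg _))
  have hbr : ∑ c, br (a c) ((S.rw a).w c) ≤ ∑ c, br (a c) (S.w c) - σ := by
    rw [hσ, ← sum_ite_mem_eq E, ← sum_sub_distrib]
    refine sum_le_sum fun c _ => ?_
    by_cases hc : c ∈ S.trig a
    · simp only [rw, if_pos hc]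
      have := br_eq (a c) (S.w c)
      have := sa_sqd_nonneg (a c) (S.w c)
      split_ifs <;> linarith
    · rw [if_neg fun h1 : c ∈ E => hc (mem_erase.1 h1).2]
      simp only [rw, if_neg hc, sub_zero, le_refl]
  have f1 := mul_le_mul_of_nonneg_left hbr T0.le
  have f2 := mul_le_mul_of_nonneg_left hM (by positivity : 0 ≤ T * |γ' - γ|)
  have f3 : 0 ≤ T * |γ' - γ| * ∑ c, Lf 2 (a c) := mul_nonneg (by positivity) (sum_nonneg fun c _ => M0 c)
  have f4 := mul_nonneg T0.le σ0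
  have ez : (S.rw a).z = S.z := rfl
  have eD : (S.rw a).wD = S.wD := rfl
  rw [Phi, Phi, eco, ez, eD]
  change _ + T * ∑ c, d c * Lf 2 (a c) ≤ _
  rw [← hσ] at ksum
  linarith

/-! ### part b -/

theorem step_D (hk : 0 < k) (hT : 2 ^ 15 * Real.log (28 * k) ≤ T) (hT' : 10 ^ 5 ≤ T) (h : S.Ok T γ)
    (ha : ∀ c, In01 (a c)) (hz : S.Zs T γ a) (hD : S.Dh / 100 < ∑ c, sqd (a c) (S.wD c)) (hn : 0 ≤ n)
    (h3 : 3 ≤ γ') (hM : ∑ c, Lf 2 (a c) ≤ Mv) (hγ : Rng k T γ' Mv) {h' : Λ}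
    (hh : ∀ c, Lf 2 (a c) ≤ Lf 2 (a h')) :
    (S.rD a h').Ok T γ' ∧ (S.rD a h').Ws a ∧
    (S.rD a h').Phi T γ' n a + S.Mov T γ n (S.rD a h') γ' n +
        T * ∑ c, |(S.rD a h').gam T γ' c - S.gam T γ c| * Lf 2 (a c) ≤
      S.Phi T γ n a - 5 * 10 ^ 5 * T * ∑ c, sqd (a c) (S.wD c) := by
  have hT0 : 0 < T := by linarith [show (0 : ℝ) < 10 ^ 5 by norm_num]
  have hs0 : ∀ c, sqd (a c) (a c) = 0 := fun c => by simp [sqd]
  have hW : (S.rD a h').Ws a := by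
    refine ⟨fun c => ?_, ?_⟩
    · change sqd (a c) (a c) ≤ Lf 2 (a c) / 100
      rw [hs0]
      exact div_nonneg (Lf_nonneg _ _) (by norm_num)
    · change ∑ c, sqd (a c) (a c) ≤ (∑ c, Lf 2 (a c)) / 100
      simp only [hs0, sum_const_zero]
      exact div_nonneg (sum_nonneg fun c _ => Lf_nonneg _ _) (by norm_num)
  have hO : (S.rD a h').Ok T γ' :=
    { h3 := h3
      h4 := fun c => (rng_child (S := S.rD a h') hk hT0 ha ha ha hh hW hM hγ c).le_four hk hT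
      hz := h.hz
      hw := ha
      hwD := ha
      q0 := fun c => by
        change 0 ≤ (if c = h' then (1 : ℝ) else 0)
        split_ifs <;> norm_num
      q1 := by
        change ∑ c, (if c = h' then (1 : ℝ) else 0) = 1
        simp
      qi := fun c hc _ => if_neg hc
      hm := hm_of_Ws (S := S.rD a h') ha ha ha hW
      hh := hh }
  refine ⟨hO, hW, ?_⟩
  obtain ⟨-, -, -, -, g3, hfac, hpsi, co0, -, -⟩ := par_bd hT' h
  obtain ⟨-, -, -, -, g3', hfac', hpsi', co0', co8', -⟩ := par_bd hT' hO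
  set S' := S.rD a h' with hS'
  have hM0 : ∀ c, 0 ≤ Lf 2 (a c) := fun c => Lf_nonneg _ _
  have hg : ∀ c, |S'.gam T γ' c - S.gam T γ c| ≤ 1 := fun c => by
    rw [abs_le]
    constructor <;> linarith [g3 c, g3' c, h.h4 c, hO.h4 c]
  have hR := fun c => RtP_bd hT' (g3 c) (h.h4 c) (h.hz c) (ha c) (hz c)
  have hL := fun c => slope_lip hT' (g3 c) (h.h4 c) (g3' c) (hO.h4 c) (h.hz c) (ha c) (hz c)
  have hRt' : ∀ c, S'.Rt T γ' a c ≤ 33 * Lf 2 (a c) := fun c => by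
    have h1 := (abs_le.1 (hL c).1).2
    have h2 := mul_le_mul_of_nonneg_left (hg c) (by linarith [hM0 c] : 0 ≤ 30 * Lf 2 (a c))
    have h3 := (hR c).2.1
    change RtP (S'.gam T γ' c) (S.z c) (a c) ≤ _
    linarith
  have hB : ∀ c, |S'.B T γ' c - S.B T γ c| ≤ 10 * Lf 2 (a c) := fun c => by
    have h2 := mul_le_mul_of_nonneg_left (hg c) (by linarith [hM0 c] : 0 ≤ 10 * Lf 2 (a c))
    have h1 := (hL c).2
    change |BP T (S'.gam T γ' c) (S.z c) - BP T (S.gam T γ c) (S.z c)| ≤ _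
    linarith
  set M := ∑ c, Lf 2 (a c) with hMdef
  set D := ∑ c, sqd (a c) (S.wD c) with hDdef
  have hM0' : 0 ≤ M := sum_nonneg fun c _ => hM0 c
  have hMD : M ≤ 202 * D := by
    have h1 : M ≤ ∑ c, (2 * Lf 2 (S.wD c) + 2 * sqd (a c) (S.wD c)) :=
      sum_le_sum fun c _ => Lf_le_of_sqd (ha c) (h.hwD c)
    rw [sum_add_distrib, ← mul_sum, ← mul_sum] at h1
    have h2 : S.Dh = ∑ c, Lf 2 (S.wD c) := rfl
    linarith
  have hY0 : 0 ≤ S.Y T γ n := le_max_right _ _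
  have hY0' : 0 ≤ S'.Y T γ' n := le_max_right _ _
  have hY : S.Y T γ n ≤ 4 * M := by
    refine max_le ?_ (by linarith)
    have : ∑ c, S.B T γ c ≤ ∑ c, 4 * Lf 2 (a c) := sum_le_sum fun c _ => (hR c).2.2
    rw [← mul_sum] at this
    linarith
  have hY' : S'.Y T γ' n ≤ 14 * M := by
    refine max_le ?_ (by linarith)
    have : ∑ c, S'.B T γ' c ≤ ∑ c, 14 * Lf 2 (a c) := sum_le_sum fun c _ => by
      have h1 := (abs_le.1 (hB c)).2
      have h2 : S.B T γ c ≤ 4 * Lf 2 (a c) := (hR c).2.2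
      linarith
    rw [← mul_sum] at this
    linarith
  have hP0 : 0 ≤ ∑ c, S.fac T c * S.psi c * S.Rt T γ a c :=
    sum_nonneg fun c _ => mul_nonneg (mul_nonneg (hfac c).1 (hpsi c).1) (hR c).1
  have hP' : ∑ c, S'.fac T c * S'.psi c * S'.Rt T γ' a c ≤ 165 * M := by
    rw [hMdef, mul_sum]
    refine sum_le_sum fun c _ => ?_
    have h1 : 0 ≤ S'.fac T c * S'.psi c := mul_nonneg (hfac' c).1 (hpsi' c).1
    have h2 : S'.fac T c * S'.psi c ≤ 1 * 5 :=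
      mul_le_mul (hfac' c).2 (hpsi' c).2 (hpsi' c).1 zero_le_one
    calc S'.fac T c * S'.psi c * S'.Rt T γ' a c ≤ S'.fac T c * S'.psi c * (33 * Lf 2 (a c)) :=
          mul_le_mul_of_nonneg_left (hRt' c) h1
      _ ≤ 1 * 5 * (33 * Lf 2 (a c)) := mul_le_mul_of_nonneg_right h2 (by linarith [hM0 c])
      _ = 165 * Lf 2 (a c) := by ring
  have hMov : S.Mov T γ n S' γ' n ≤ 28 * M := by
    have h1 : S.Mov T γ n S' γ' n ≤
        ∑ c, (10 * Lf 2 (a c) + S'.q c * S'.Y T γ' n + S.q c * S.Y T γ n) := by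
      refine sum_le_sum fun c _ => ?_
      have e1 := abs_le.1 (hB c)
      have e2 := mul_nonneg (hO.q0 c) hY0'
      have e3 := mul_nonneg (h.q0 c) hY0
      unfold nn
      rw [abs_le]
      constructor <;> linarith [e1.1, e1.2]
    rw [sum_add_distrib, sum_add_distrib, ← mul_sum, ← sum_mul, ← sum_mul, hO.q1, h.q1] at h1
    linarith
  have hG : ∑ c, |S'.gam T γ' c - S.gam T γ c| * Lf 2 (a c) ≤ M :=
    sum_le_sum fun c _ => mul_le_of_le_one_left (hM0 c) (hg c)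
  have hco : S'.Y T γ' n * S'.co ≤ 112 * M := by
    calc S'.Y T γ' n * S'.co ≤ (14 * M) * 8 := mul_le_mul hY' co8' co0' (by linarith)
      _ = 112 * M := by ring
  have hco0 : 0 ≤ S.Y T γ n * S.co := mul_nonneg hY0 co0
  have hb1 : ∑ c, br (a c) (a c) ≤ ∑ c, br (a c) (S.w c) := sum_le_sum fun c _ => by
    rw [br_eq (a c) (S.w c)]
    have : 0 ≤ sqd (a c) (S.w c) := sum_nonneg fun i _ => sq_nonneg _
    linarith
  have hb2 : ∑ c, br (a c) (S.wD c) = ∑ c, br (a c) (a c) + D := by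
    rw [hDdef, ← sum_add_distrib]
    exact sum_congr rfl fun c _ => br_eq _ _
  have e1 : S'.Phi T γ' n a = T * ∑ c, S'.fac T c * S'.psi c * S'.Rt T γ' a c +
      1024 * T * ∑ c, br (a c) (S.z c) +
      10 ^ 6 * T * (∑ c, br (a c) (a c) + ∑ c, br (a c) (a c)) + S'.Y T γ' n * S'.co := rfl
  rw [e1, Phi, hb2]
  have k1 := mul_le_mul_of_nonneg_left hP' hT0.le
  have k2 := mul_nonneg hT0.le hP0
  have k3 := mul_le_mul_of_nonneg_left hG hT0.le
  have k4 := mul_le_mul_of_nonneg_left hb1 hT0.le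
  have k5 := mul_le_mul_of_nonneg_left hMD hT0.le
  have k6 := mul_le_mul_of_nonneg_right hT' hM0'
  have k7 := mul_nonneg hT0.le hM0'
  nlinarith

/-! ### part c -/

theorem ssc_Mov_tri (S₁ S₂ S₃ : Star Λ k) (T γ₁ n₁ γ₂ n₂ γ₃ n₃ : ℝ) :
    S₁.Mov T γ₁ n₁ S₃ γ₃ n₃ ≤ S₁.Mov T γ₁ n₁ S₂ γ₂ n₂ + S₂.Mov T γ₂ n₂ S₃ γ₃ n₃ := by
  unfold Mov
  rw [← sum_add_distrib]
  refine sum_le_sum fun c _ => ?_
  rw [add_comm]
  exact abs_sub_le _ _ _

theorem ssc_Lf_nonneg (g : ℝ) (x : Fin k → ℝ) : 0 ≤ Lf g x := sum_nonneg fun _ _ => sq_nonneg _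

theorem ssc_sqd_nonneg (x z : Fin k → ℝ) : 0 ≤ sqd x z := sum_nonneg fun _ _ => sq_nonneg _

/-- the last two steps -/
theorem ssc_fin (hT' : 10 ^ 5 ≤ T) (h : S.Ok T γ) (ha : ∀ c, In01 (a c)) (hw : S.Ws a)
    (hn : ∑ c, Lf γ (a c) ≤ n) : ∃ S' : Star Λ k, S'.Settled T γ n a ∧
      S'.Phi T γ n a + S.Mov T γ n S' γ n ≤ S.Phi T γ n a ∧ ∀ c, S'.gam T γ c = S.gam T γ c := by
  obtain ⟨z, h1, h2, h3⟩ := step_z (n := n) hT' h ha
  obtain ⟨q, h4, h5⟩ := step_q (n := n) hT' h1 ha h2 hw hn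
  refine ⟨_, h4, ?_, fun c => rfl⟩
  have h6 := ssc_Mov_tri S { S with z := z } { ({ S with z := z } : Star Λ k) with q := q } T γ n γ n γ n
  have h7 := abs_nonneg (({ S with z := z } : Star Λ k).Y T γ n - S.Y T γ n)
  linarith

/-- the reset step -/
theorem ssc_mid (hk : 0 < k) (hT : 2 ^ 15 * Real.log (28 * k) ≤ T) (hT' : 10 ^ 5 ≤ T) (h : S.Ok T γ)
    (ha : ∀ c, In01 (a c)) (hz : S.Zs T γ a) (hn : 0 ≤ n) (h3 : 3 ≤ γ') (hM : ∑ c, Lf 2 (a c) ≤ Mv)
    (hγ : Rng k T γ' Mv) {Y₀ : ℝ} (hY : ∀ c, S.q c * Y₀ ≤ 25 * S.mh c) :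
    ∃ S' : Star Λ k, S'.Ok T γ' ∧ S'.Ws a ∧
      S'.Phi T γ' n a + S.Mov T γ n S' γ' n + T * ∑ c, |S'.gam T γ' c - S.gam T γ c| * Lf 2 (a c) ≤
        S.Phi T γ n a + 200 * T * |γ' - γ| * Mv + 7 * |S.Y T γ n - Y₀| := by
  classical
  have hT0 : 0 ≤ T := le_trans (by norm_num) hT'
  have hMv : 0 ≤ Mv := (sum_nonneg fun c _ => ssc_Lf_nonneg 2 (a c)).trans hM
  have h0 : 0 ≤ 200 * T * |γ' - γ| * Mv := by positivity
  have h0' := abs_nonneg (S.Y T γ n - Y₀)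
  by_cases hD : S.Dh / 100 < ∑ c, sqd (a c) (S.wD c)
  · obtain ⟨h', -, hh⟩ := exists_max_image univ (fun c => Lf 2 (a c)) ⟨S.h, mem_univ _⟩
    obtain ⟨h4, h5, h6⟩ := step_D hk hT hT' h ha hz hD hn h3 hM hγ fun c => hh c (mem_univ c)
    refine ⟨_, h4, h5, h6.trans ?_⟩
    have : 0 ≤ 5 * 10 ^ 5 * T * ∑ c, sqd (a c) (S.wD c) :=
      mul_nonneg (by positivity) (sum_nonneg fun c _ => ssc_sqd_nonneg _ _)
    linarith
  · obtain ⟨h4, h5, h6⟩ := step_q0 (n := n) hT' h ha hz (notMem_erase S.h (S.trig a))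
    obtain ⟨h7, h8, h9⟩ := step_w (n := n) hk hT hT' h4 ha h5 (not_lt.1 hD)
      (fun c hc => if_pos hc) h3 hM hγ
    refine ⟨_, h7, h8, ?_⟩
    have h10 := ssc_Mov_tri S (S.rq ((S.trig a).erase S.h)) ((S.rq ((S.trig a).erase S.h)).rw a)
      T γ n γ n γ' n
    have h11 : ∑ c ∈ (S.trig a).erase S.h, (7 * S.q c * S.Y T γ n + 15 * T * Lf 2 (a c)) ≤
        ∑ c ∈ (S.trig a).erase S.h, (7 * |S.Y T γ n - Y₀| * S.q c +
          5 * 10 ^ 5 * T * sqd (a c) (S.w c)) := by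
      refine sum_le_sum fun c hc => ?_
      have b1 : S.mh c / 100 < sqd (a c) (S.w c) := (mem_filter.1 (mem_of_mem_erase hc)).2
      have b2 : Lf 2 (a c) ≤ 2 * S.mh c + 2 * sqd (a c) (S.w c) := Lf_le_of_sqd (ha c) (h.hw c)
      have b3 := hY c
      have b4 : S.q c * (S.Y T γ n - Y₀) ≤ S.q c * |S.Y T γ n - Y₀| :=
        mul_le_mul_of_nonneg_left (le_abs_self _) (h.q0 c)
      have b5 := ssc_sqd_nonneg (a c) (S.w c)
      have b6 : T * Lf 2 (a c) ≤ T * (202 * sqd (a c) (S.w c)) :=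
        mul_le_mul_of_nonneg_left (by linarith) hT0
      have b7 : 10 ^ 5 * sqd (a c) (S.w c) ≤ T * sqd (a c) (S.w c) := mul_le_mul_of_nonneg_right hT' b5
      linarith
    rw [sum_add_distrib (f := fun c => 7 * |S.Y T γ n - Y₀| * S.q c), ← mul_sum, ← mul_sum] at h11
    have h12 : ∑ c ∈ (S.trig a).erase S.h, S.q c ≤ 1 := by
      rw [← h.q1]
      exact sum_le_sum_of_subset_of_nonneg (subset_univ _) fun c _ _ => h.q0 c
    have h13 : 7 * |S.Y T γ n - Y₀| * ∑ c ∈ (S.trig a).erase S.h, S.q c ≤ 7 * |S.Y T γ n - Y₀| :=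
      mul_le_of_le_one_right (by positivity) h12
    have h14 : ((S.rq ((S.trig a).erase S.h)).rw a).Phi T γ' n a +
        (S.rq ((S.trig a).erase S.h)).Mov T γ n ((S.rq ((S.trig a).erase S.h)).rw a) γ' n +
        T * ∑ c, |((S.rq ((S.trig a).erase S.h)).rw a).gam T γ' c - S.gam T γ c| * Lf 2 (a c) ≤
        (S.rq ((S.trig a).erase S.h)).Phi T γ n a + 200 * T * |γ' - γ| * Mv -
          5 * 10 ^ 5 * T * ∑ c ∈ (S.trig a).erase S.h, sqd (a c) (S.w c) := h9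
    linarith

theorem star_step (hk : 0 < k) (hT : 2 ^ 15 * Real.log (28 * k) ≤ T) (hT' : 10 ^ 5 ≤ T)
    (ha₀ : ∀ c, In01 (a₀ c)) (h : S.Settled T γ n a₀) (ha : ∀ c, In01 (a c)) (h3 : 3 ≤ γ')
    (hM : ∑ c, Lf 2 (a c) ≤ Mv) (hγ : Rng k T γ' Mv) (hn : ∑ c, Lf γ' (a c) ≤ n') :
    ∃ S' : Star Λ k, S'.Settled T γ' n' a ∧
      S'.Phi T γ' n' a + S.Mov T γ n S' γ' n' + T * ∑ c, |S'.gam T γ' c - S.gam T γ c| * Lf 2 (a c) ≤
        S.Phi T γ n a + 1000 * (|n' - n| + T * |γ' - γ| * Mv) := by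
  have hT0 : 0 ≤ T := le_trans (by norm_num) hT'
  have hMv : 0 ≤ Mv := (sum_nonneg fun c _ => ssc_Lf_nonneg 2 (a c)).trans hM
  have hn0 : 0 ≤ n' := (sum_nonneg fun c _ => ssc_Lf_nonneg γ' (a c)).trans hn
  obtain ⟨a1, a2, a3⟩ := step_n (n := n) hT' h.ok n' a
  obtain ⟨z, b1, b2, b3⟩ := step_z (n := n') hT' h.ok ha
  obtain ⟨S₂, c1, c2, c3⟩ := ssc_mid (n := n') hk hT hT' b1 ha b2 hn0 h3 hM hγ (Y₀ := S.Y T γ n)
    (h.nn_bd hT' ha₀).2.2.1
  obtain ⟨S₃, d1, d2, d3⟩ := ssc_fin hT' c1 ha c2 hn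
  refine ⟨S₃, d1, ?_⟩
  have e1 := ssc_Mov_tri S S S₃ T γ n γ n' γ' n'
  have e2 := ssc_Mov_tri S { S with z := z } S₃ T γ n' γ n' γ' n'
  have e3 := ssc_Mov_tri { S with z := z } S₂ S₃ T γ n' γ' n' γ' n'
  have e4 := abs_sub_le (({ S with z := z } : Star Λ k).Y T γ n') (S.Y T γ n') (S.Y T γ n)
  have e5 : 0 ≤ T * |γ' - γ| * Mv := by positivity
  have e6 := abs_nonneg (n' - n)
  have e7 : ∑ c, |S₃.gam T γ' c - S.gam T γ c| * Lf 2 (a c) =
      ∑ c, |S₂.gam T γ' c - ({ S with z := z } : Star Λ k).gam T γ c| * Lf 2 (a c) :=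
    sum_congr rfl fun c _ => by rw [d3]; rfl
  rw [e7]
  linarith

end Star

end Crest.Agent.R314
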