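import Crest.Agent.R314.Post
import Crest.Agent.R314.StarStep
import Crest.Agent.R314.Round

/-!
# Row 314: the fractional algorithm on the tree

`b ξ t` is the offline configuration in the tree; `pa h v` are the pages of node `v` at history `h`.
* `node_step`: choose the states by recursion along `h` (`exists_init`, `star_step`; e.g. a function into the subtype
  of settled states); `Lf_super` with `γ h` and with `2` gives the hypotheses.  Amortise (`Proc.amort` with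
  `ι = Λ × Fin k`, `F h = Phi (S h)`, `f ξ t (c, i) = 1[cnt (b ξ t) (c :: v) ≤ i]`, `Phi_lip`, `sum_ind_sub`, `tot_E`);
  the pages at `r :: h` are `E (r :: h) (f · (|h| + 1))`.
* `tree`: define `(n · v, g · v)` by recursion on `v` from `node_step` (root `n = k`, `g = 3`, `Lf_full`); with
  `A m = wt m * ∑ v ∈ lv m, tot (nm v)`, `A (m+1) ≤ 1000/4096 A m + 3·10^6 T O (m+1)`, `A 0 = 0`;
  `T = 2^15 log (28 k) ≤ 6 · 2^15 log (k + 1)`.
-/

set_option autoImplicit false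
set_option linter.unusedSectionVars false
set_option linter.unusedVariables false

namespace Crest.Agent.R314

open Finset Function

variable {Ξ : Type} [Fintype Ξ] {X : Type*} [MetricSpace X] [Fintype X] {k : ℕ}
variable {Λ : Type} [Fintype Λ] [DecidableEq Λ]

namespace Proc

variable (p : Proc Ξ X k) (b : Ξ → ℕ → Fin k → List Λ)

noncomputable def pa (h : List X) (v : List Λ) : Fin k → ℝ :=
  pg k (p.pw h) fun ξ => cnt (b ξ h.length) v

/-- invariant of a node -/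
structure NodeOk (T : ℝ) (v : List Λ) (n g : List X → ℝ) : Prop where
  h3 : ∀ h, 3 ≤ g h
  rng : ∀ h, Star.Rng k T (g h) (Lf 2 (p.pa b h v))
  cap : ∀ h, Lf (g h) (p.pa b h v) ≤ n h
  init : ∀ ξ, n [] = cnt (b ξ 0) v

/-- movement of a node -/
noncomputable def nm (T : ℝ) (v : List Λ) (n g : List X → ℝ) (r : X) (h : List X) : ℝ :=
  |n (r :: h) - n h| + T * |g (r :: h) - g h| * Lf 2 (p.pa b (r :: h) v)

/-! ### part a -/

theorem node_step [Nonempty Λ] (hk : 0 < k) (hP : ∑ ξ, p.P ξ = 1) (h0 : ∀ ξ ξ', b ξ 0 = b ξ' 0) {T : ℝ}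
    (hT : 2 ^ 15 * Real.log (28 * k) ≤ T) (hT' : 10 ^ 5 ≤ T) (v : List Λ) {n g : List X → ℝ}
    (hv : p.NodeOk b T v n g) : ∃ nc gc : Λ → List X → ℝ,
      (∀ c, p.NodeOk b T (c :: v) (nc c) (gc c)) ∧ (∀ h, ∑ c, nc c h ≤ n h) ∧
      (∀ c h, nc c h ≤ 6 * p.E h fun ξ => cnt (b ξ h.length) (c :: v)) ∧
      ∀ H, p.tot H (fun r h => ∑ c, p.nm b T (c :: v) (nc c) (gc c) r h) ≤
        1000 * p.tot H (p.nm b T v n g) + 3 * 10 ^ 6 * T * ∑ ξ, p.P ξ * ∑ t ∈ range H,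
          ∑ c, |(cnt (b ξ (t + 1)) (c :: v) : ℝ) - cnt (b ξ t) (c :: v)| := by
  have hT0 : 0 < T := lt_of_lt_of_le (by norm_num) hT'
  let a : List X → Λ → Fin k → ℝ := fun h c => p.pa b h (c :: v)
  have ha : ∀ h c, In01 (a h c) := fun h c i => pg_mem (p.pw_nonneg h) (p.sum_pw hP h) _ i
  have hcc : ∀ t ξ, ∑ c, cnt (b ξ t) (c :: v) ≤ cnt (b ξ t) v := fun t ξ =>
    (Nat.le_add_right _ _).trans (sum_cnt_cons (b ξ t) v).le
  have hsup : ∀ h γ, 2 ≤ γ → ∑ c, Lf γ (a h c) ≤ Lf γ (p.pa b h v) := fun h γ hγ =>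
    Lf_super (p.pw_nonneg h) (p.sum_pw hP h) (fun ξ => cnt_le _ _) (hcc h.length) hγ
  have hsum : ∀ h c, ∑ i, (1 - a h c i) = p.E h fun ξ => cnt (b ξ h.length) (c :: v) :=
    fun h c => sum_pg (p.sum_pw hP h) fun ξ => cnt_le _ _
  have hE0 : ∀ (φ : (Fin k → List Λ) → ℝ) (ξ : Ξ), (p.E [] fun ξ' => φ (b ξ' 0)) = φ (b ξ 0) := by
    intro φ ξ
    simp only [E, h0 _ ξ, ← Finset.sum_mul, p.sum_pw hP, one_mul]
  have hs0 : ∀ c ξ, ∑ i, (1 - a [] c i) = cnt (b ξ 0) (c :: v) := fun c ξ =>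
    (hsum [] c).trans (hE0 (fun x => cnt x (c :: v)) ξ)
  obtain ⟨ξ₀⟩ : Nonempty Ξ := by
    by_contra hn
    rw [not_nonempty_iff] at hn
    simp at hP
  obtain ⟨S0, s1, s2, s3⟩ := Star.exists_init (γ := g []) (n := n []) hk hT hT' (x := a [])
    (fun c i => by
      have e : a [] c i = if cnt (b ξ₀ 0) (c :: v) ≤ i then 1 else 0 :=
        hE0 (fun x => if cnt x (c :: v) ≤ i then 1 else 0) ξ₀
      rw [e]
      split_ifs <;> simp)
    (hv.h3 []) (hsup [] 2 le_rfl) (hv.rng []) (by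
      simp only [hs0 _ ξ₀, hv.init ξ₀]
      exact_mod_cast hcc 0 ξ₀)
  have hst : ∀ (r : X) (h : List X) (S : {S : Star Λ k // S.Settled T (g h) (n h) (a h)}),
      ∃ S' : {S : Star Λ k // S.Settled T (g (r :: h)) (n (r :: h)) (a (r :: h))},
        S'.1.Phi T (g (r :: h)) (n (r :: h)) (a (r :: h)) +
            S.1.Mov T (g h) (n h) S'.1 (g (r :: h)) (n (r :: h)) +
            T * ∑ c, |S'.1.gam T (g (r :: h)) c - S.1.gam T (g h) c| * Lf 2 (a (r :: h) c) ≤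
          S.1.Phi T (g h) (n h) (a (r :: h)) + 1000 * p.nm b T v n g r h := by
    intro r h S
    obtain ⟨S', t1, t2⟩ := Star.star_step hk hT hT' (ha h) S.2 (ha (r :: h)) (hv.h3 (r :: h))
      (hsup (r :: h) 2 le_rfl) (hv.rng (r :: h))
      ((hsup (r :: h) _ (le_trans (by norm_num) (hv.h3 (r :: h)))).trans (hv.cap (r :: h)))
    exact ⟨⟨S', t1⟩, t2⟩
  choose nxt hnxt using hst
  let S : (h : List X) → {S : Star Λ k // S.Settled T (g h) (n h) (a h)} := fun h =>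
    List.rec (motive := fun h => {S : Star Λ k // S.Settled T (g h) (n h) (a h)}) ⟨S0, s1⟩
      (fun r h ih => nxt r h ih) h
  have hS : ∀ r h, S (r :: h) = nxt r h (S h) := fun _ _ => rfl
  have hbd := fun h => (S h).2.nn_bd hT' (ha h)
  refine ⟨fun c h => (S h).1.nn T (g h) (n h) c, fun c h => (S h).1.gam T (g h) c,
    fun c => ⟨fun h => (Star.par_bd hT' (S h).2.ok).2.2.2.2.1 c, fun h =>
      Star.rng_child hk hT0 (ha h) (S h).2.ok.hw (S h).2.ok.hwD (S h).2.ok.hh (S h).2.ws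
        (hsup h 2 le_rfl) (hv.rng h) c, fun h => (S h).2.cap c, fun ξ => (s3 c).trans (hs0 c ξ)⟩,
    fun h => (hbd h).2.1, fun c h => by rw [← hsum]; exact ((hbd h).1 c).2, fun H => ?_⟩
  let d : Ξ → ℕ → ℝ := fun ξ t => ∑ c, |(cnt (b ξ (t + 1)) (c :: v) : ℝ) - cnt (b ξ t) (c :: v)|
  have ham := p.amort hP H (ι := Λ × Fin k)
    (fun h x => (S h).1.Phi T (g h) (n h) fun c i => x (c, i))
    (fun h => Star.Phi_concave _ _ _ _)
    (fun ξ t q => if cnt (b ξ t) (q.1 :: v) ≤ q.2 then 1 else 0)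
    (fun ξ t q => by split_ifs <;> norm_num)
    (fun r h => (∑ c, p.nm b T (c :: v) (fun h => (S h).1.nn T (g h) (n h) c)
      (fun h => (S h).1.gam T (g h) c) r h) + ((-1000) * p.nm b T v n g r h +
        (-(3 * 10 ^ 6 * T)) * p.E (r :: h) fun ξ => d ξ h.length))
    (fun r h _ _ => by
      have t2 := hnxt r h (S h)
      rw [← hS] at t2
      have t3 := Star.Phi_lip (n := n h) hT' (S h).2.ok (fun c i => p.E (r :: h) fun ξ =>
        if cnt (b ξ h.length) (c :: v) ≤ i then 1 else 0) (a (r :: h))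
      have t4 : ∑ c, ∑ i, |a (r :: h) c i - p.E (r :: h) fun ξ =>
          if cnt (b ξ h.length) (c :: v) ≤ i then 1 else 0| ≤
          p.E (r :: h) fun ξ => d ξ h.length := by
        have e : (p.E (r :: h) fun ξ => d ξ h.length) = ∑ c, ∑ i : Fin k, ∑ ξ, p.pw (r :: h) ξ *
            |(if cnt (b ξ (h.length + 1)) (c :: v) ≤ i then 1 else 0 : ℝ) -
              if cnt (b ξ h.length) (c :: v) ≤ i then 1 else 0| := by
          simp only [E, d, ← sum_ind_sub (cnt_le _ _) (cnt_le _ _), Finset.mul_sum]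
          rw [Finset.sum_comm]
          exact Finset.sum_congr rfl fun c _ => Finset.sum_comm
        rw [e]
        refine Finset.sum_le_sum fun c _ => Finset.sum_le_sum fun i _ => ?_
        change |(∑ ξ, p.pw (r :: h) ξ * if cnt (b ξ (h.length + 1)) (c :: v) ≤ i then 1 else 0) -
          ∑ ξ, p.pw (r :: h) ξ * if cnt (b ξ h.length) (c :: v) ≤ i then 1 else 0| ≤ _
        rw [← Finset.sum_sub_distrib]
        refine (Finset.abs_sum_le_sum_abs _ _).trans (Finset.sum_le_sum fun ξ _ => le_of_eq ?_)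
        rw [← mul_sub, abs_mul, abs_of_nonneg (p.pw_nonneg _ ξ)]
      have t5 := mul_le_mul_of_nonneg_left t4 (show 0 ≤ 3 * 10 ^ 6 * T by positivity)
      have t6 : (∑ c, p.nm b T (c :: v) (fun h => (S h).1.nn T (g h) (n h) c)
          (fun h => (S h).1.gam T (g h) c) r h) =
          (S h).1.Mov T (g h) (n h) (S (r :: h)).1 (g (r :: h)) (n (r :: h)) +
            T * ∑ c, |(S (r :: h)).1.gam T (g (r :: h)) c - (S h).1.gam T (g h) c| *
              Lf 2 (a (r :: h) c) := by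
        simp only [nm, Star.Mov, Finset.sum_add_distrib, Finset.mul_sum, mul_assoc, a]
      rw [t6]
      change (S (r :: h)).1.Phi T (g (r :: h)) (n (r :: h)) (a (r :: h)) + _ ≤ _
      linarith)
    (fun h _ => (hbd h).2.2.2)
  rw [p.tot_add, p.tot_add, p.tot_mul, p.tot_mul, p.tot_E H d] at ham
  change _ ≤ S0.Phi T (g []) (n []) (a []) at ham
  rw [s2] at ham
  linarith

/-! ### part b -/

theorem treeb_root (hk : 0 < k) (T : ℝ) : p.NodeOk b T [] (fun _ => k) (fun _ => 3) := by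
  have e : ∀ h γ, Lf γ (p.pa b h []) = k := fun h γ => by
    simp only [pa, cnt_nil]; exact Lf_full γ
  have hk' : (1 : ℝ) ≤ k := by exact_mod_cast hk
  refine ⟨fun _ => le_rfl, fun h => ?_, fun h => (e h 3).le, fun ξ => by rw [cnt_nil]⟩
  rw [Star.Rng, e, max_eq_left (by linarith), div_self (by linarith), Real.log_one]
  simp

theorem treeb_rec [Nonempty Λ] (hk : 0 < k) (hP : ∑ ξ, p.P ξ = 1) (h0 : ∀ ξ ξ', b ξ 0 = b ξ' 0) {T : ℝ}
    (hT : 2 ^ 15 * Real.log (28 * k) ≤ T) (hT' : 10 ^ 5 ≤ T) : ∃ n g : List Λ → List X → ℝ,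
      (∀ v, p.NodeOk b T v (n v) (g v)) ∧ (n [] = fun _ => (k : ℝ)) ∧ (g [] = fun _ => 3) ∧
      (∀ v h, ∑ c, n (c :: v) h ≤ n v h) ∧
      (∀ v c h, n (c :: v) h ≤ 6 * p.E h fun ξ => cnt (b ξ h.length) (c :: v)) ∧
      ∀ v H, p.tot H (fun r h => ∑ c, p.nm b T (c :: v) (n (c :: v)) (g (c :: v)) r h) ≤
        1000 * p.tot H (p.nm b T v (n v) (g v)) + 3 * 10 ^ 6 * T * ∑ ξ, p.P ξ * ∑ t ∈ range H,
          ∑ c, |(cnt (b ξ (t + 1)) (c :: v) : ℝ) - cnt (b ξ t) (c :: v)| := by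
  have step := fun v n g (hv : p.NodeOk b T v n g) => node_step p b hk hP h0 hT hT' v hv
  choose nc gc h1 h2 h3 h4 using step
  let F : (v : List Λ) → {q : (List X → ℝ) × (List X → ℝ) // p.NodeOk b T v q.1 q.2} := fun v =>
    List.rec (motive := fun v => {q : (List X → ℝ) × (List X → ℝ) // p.NodeOk b T v q.1 q.2})
      ⟨(fun _ => k, fun _ => 3), treeb_root p b hk T⟩
      (fun c v q => ⟨(nc v q.1.1 q.1.2 q.2 c, gc v q.1.1 q.1.2 q.2 c), h1 v _ _ q.2 c⟩) v
  exact ⟨fun v => (F v).1.1, fun v => (F v).1.2, fun v => (F v).2, rfl, rfl,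
    fun v => h2 v _ _ (F v).2, fun v => h3 v _ _ (F v).2, fun v => h4 v _ _ (F v).2⟩

theorem treeb_sum {A O : ℕ → ℝ} {C : ℝ} (hC : 0 ≤ C) (hA : ∀ m, 0 ≤ A m) (hO : 0 ≤ O 0) (h0 : A 0 = 0)
    (hs : ∀ m, A (m + 1) ≤ 1000 / 4096 * A m + C * O (m + 1)) (D : ℕ) :
    ∑ m ∈ range (D + 1), A m ≤ 4096 / 3096 * C * ∑ m ∈ range (D + 1), O m := by
  have e1 := sum_range_succ' A D
  have e2 := sum_range_succ A D
  have e3 := sum_range_succ' O D
  have e4 : ∑ m ∈ range D, A (m + 1) ≤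
      1000 / 4096 * ∑ m ∈ range D, A m + C * ∑ m ∈ range D, O (m + 1) := by
    rw [mul_sum, mul_sum, ← sum_add_distrib]
    exact sum_le_sum fun m _ => hs m
  have e5 := mul_nonneg hC hO
  have e6 := hA D
  rw [e3, mul_assoc, mul_add]
  linarith

theorem tree [Nonempty Λ] (hk : 0 < k) (hP : ∑ ξ, p.P ξ = 1) (h0 : ∀ ξ ξ', b ξ 0 = b ξ' 0) {ρ : ℝ}
    (hρ : 0 ≤ ρ) (D : ℕ) : ∃ n : List X → List Λ → ℝ, (∀ h, Frac k (n h)) ∧
      (∀ h v, n h v ≤ 6 * p.E h fun ξ => cnt (b ξ h.length) v) ∧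
      (∀ h v, (∀ ξ, 0 < p.pw h ξ → 1 ≤ cnt (b ξ h.length) v) → 1 ≤ n h v) ∧
      (∀ ξ v, n [] v = cnt (b ξ 0) v) ∧
      ∀ H, p.tot H (fun r h => nd ρ D (n h) (n (r :: h))) ≤ 10 ^ 12 * Real.log (k + 1) *
        ∑ ξ, p.P ξ * ∑ t ∈ range H, ∑ i, td ρ D (b ξ t i) (b ξ (t + 1) i) := by
  have hk' : (1 : ℝ) ≤ k := by exact_mod_cast hk
  have hl : Real.log 2 ≤ Real.log (k + 1) := Real.log_le_log (by norm_num) (by linarith)
  have hl2 := Real.log_two_gt_d9
  set T : ℝ := 6 * 2 ^ 15 * Real.log (k + 1) with hTd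
  have hT' : 10 ^ 5 ≤ T := by rw [hTd]; linarith
  have hT : 2 ^ 15 * Real.log (28 * k) ≤ T := by
    have h1 : (28 * k : ℝ) ≤ (k + 1) ^ 6 := by
      have : (2 : ℝ) ^ 5 ≤ (k + 1) ^ 5 := pow_le_pow_left₀ (by norm_num) (by linarith) 5
      rw [pow_succ]; nlinarith
    have h2 := Real.log_le_log (by positivity) h1
    rw [Real.log_pow] at h2
    push_cast at h2
    rw [hTd]; linarith
  have T0 : 0 ≤ T := by linarith
  obtain ⟨n, g, ok, n0, g0, ch, h6, hs⟩ := treeb_rec p b hk hP h0 hT hT'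
  refine ⟨fun h v => n v h, fun h => ⟨congrFun n0 h, fun v => (Lf_nonneg _ _).trans ((ok v).cap h),
    fun v => ch v h⟩, fun h v => ?_, fun h v hv => ?_, fun ξ v => (ok v).init ξ, fun H => ?_⟩
  · cases v with
    | nil =>
      simp only [n0, cnt_nil, E, ← sum_mul, p.sum_pw hP]
      linarith
    | cons c v => exact h6 v c h
  · exact (one_le_Lf hk (p.pw_nonneg h) hv _).trans ((ok v).cap h)
  have wt0 : ∀ m, 0 ≤ wt ρ m := fun m => by rw [wt]; positivity
  have nm0 : ∀ v r h, |n v (r :: h) - n v h| ≤ p.nm b T v (n v) (g v) r h := fun v r h =>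
    le_add_of_nonneg_right (mul_nonneg (mul_nonneg T0 (abs_nonneg _)) (Lf_nonneg _ _))
  have tot0 : ∀ v, 0 ≤ p.tot H (p.nm b T v (n v) (g v)) := fun v =>
    sum_nonneg fun ξ _ => mul_nonneg (p.P0 ξ) (sum_nonneg fun t _ => (abs_nonneg _).trans (nm0 v _ _))
  set O : List Λ → ℝ := fun v => ∑ ξ, p.P ξ * ∑ t ∈ range H,
    |(cnt (b ξ (t + 1)) v : ℝ) - cnt (b ξ t) v| with hO
  have O0 : ∀ v, 0 ≤ O v := fun v =>
    sum_nonneg fun ξ _ => mul_nonneg (p.P0 ξ) (sum_nonneg fun t _ => abs_nonneg _)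
  have key := treeb_sum (A := fun m => wt ρ m * ∑ v ∈ lv Λ m, p.tot H (p.nm b T v (n v) (g v)))
    (O := fun m => wt ρ m * ∑ v ∈ lv Λ m, O v) (C := 3 * 10 ^ 6 * T) (by positivity)
    (fun m => mul_nonneg (wt0 m) (sum_nonneg fun v _ => tot0 v))
    (mul_nonneg (wt0 0) (sum_nonneg fun v _ => O0 v))
    (by simp [lv_zero, tot, nm, n0, g0])
    (fun m => by
      have e : wt ρ m = 4096 * wt ρ (m + 1) := by rw [wt, wt, pow_succ]; field_simp
      have h1 : ∑ v ∈ lv Λ (m + 1), p.tot H (p.nm b T v (n v) (g v)) ≤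
          1000 * ∑ v ∈ lv Λ m, p.tot H (p.nm b T v (n v) (g v)) +
            3 * 10 ^ 6 * T * ∑ v ∈ lv Λ (m + 1), O v := by
        rw [sum_lv_succ, sum_lv_succ, mul_sum, mul_sum, ← sum_add_distrib]
        refine sum_le_sum fun v _ => ?_
        rw [← p.tot_sum]
        refine (hs v H).trans (le_of_eq ?_)
        congr 2
        simp only [hO]
        rw [sum_comm]
        refine sum_congr rfl fun ξ _ => ?_
        rw [← mul_sum, sum_comm]
      have h2 := mul_le_mul_of_nonneg_left h1 (wt0 (m + 1))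
      simp only [e]
      linarith) D
  have h1 : p.tot H (fun r h => nd ρ D (fun v => n v h) (fun v => n v (r :: h))) ≤
      ∑ m ∈ range (D + 1), wt ρ m * ∑ v ∈ lv Λ m, p.tot H (p.nm b T v (n v) (g v)) := by
    calc _ ≤ p.tot H (fun r h => ∑ v ∈ nodes Λ D, wt ρ v.length * p.nm b T v (n v) (g v) r h) :=
          p.tot_mono H fun r h _ _ => sum_le_sum fun v _ => mul_le_mul_of_nonneg_left (nm0 v r h) (wt0 _)
      _ = _ := by
          rw [p.tot_sum, sum_nodes]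
          refine sum_congr rfl fun m _ => ?_
          rw [mul_sum]
          refine sum_congr rfl fun v hv => ?_
          rw [p.tot_mul, mem_lv.1 hv]
  have h2 : ∑ m ∈ range (D + 1), wt ρ m * ∑ v ∈ lv Λ m, O v ≤
      ∑ ξ, p.P ξ * ∑ t ∈ range H, ∑ i, td ρ D (b ξ t i) (b ξ (t + 1) i) := by
    calc _ = ∑ v ∈ nodes Λ D, wt ρ v.length * O v := by
          rw [sum_nodes]
          refine sum_congr rfl fun m _ => ?_
          rw [mul_sum]
          exact sum_congr rfl fun v hv => by rw [mem_lv.1 hv]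
      _ = ∑ ξ, p.P ξ * ∑ t ∈ range H,
          nd ρ D (fun v => (cnt (b ξ t) v : ℝ)) (fun v => (cnt (b ξ (t + 1)) v : ℝ)) := by
          simp only [hO, nd, mul_sum]
          rw [sum_comm]
          refine sum_congr rfl fun ξ _ => ?_
          rw [sum_comm]
          exact sum_congr rfl fun t _ => sum_congr rfl fun v _ => by ring
      _ ≤ _ := sum_le_sum fun ξ _ => mul_le_mul_of_nonneg_left
          (sum_le_sum fun t _ => nd_cnt_le hρ _ _) (p.P0 ξ)
  have h3 : 0 ≤ ∑ m ∈ range (D + 1), wt ρ m * ∑ v ∈ lv Λ m, O v :=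
    sum_nonneg fun m _ => mul_nonneg (wt0 m) (sum_nonneg fun v _ => O0 v)
  refine h1.trans (key.trans (mul_le_mul ?_ h2 h3 (by nlinarith)))
  rw [hTd]; linarith

end Proc

end Crest.Agent.R314
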