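import Crest.Agent.R314.Emb
import Crest.Agent.R314.Tree

/-!
# Row 314: assembly

The path of `y` is `pt y :: [lab 0 y, …, lab (J-1) y]`, depth `D = J + 1`, weights `wt ρ m = rr r₀ (J + 1 - m)` with
`ρ = rr r₀ (J + 1)`.  A suffix of length `m ∈ [1, J]` has head `lab (J - m) y`.
* `loc_anc`: `y` is within `320 rr j` of the place of its ancestor of scale `j` (`d1`), the leaf is at `y` (`d0`), and the
  root is within the diameter.
* `loc_step`: `exists_lca`, `loc_anc` twice and `loc_drift`.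
* `td_path`: `td_le_of_anc` with the part of the path above the highest scale where the labels differ.
* `pk_H`: `park_sum_le` with the nodes `l j :: v`, `v ∈ lv (J-1-j)`, `j ∈ s`; `sum_Mh_mul`.
* `step`: `round`; a node occupied in the support of a `Good` law has `n > 0`, so it is live; the leaf of the request has
  `n ≥ 1` (`hist_of_pw`), so it is occupied; `Good.park_eq` for the drift.
* `virt`: `td_triangle` through `path (x :: h) (pos t i)`; `tot_E`, `sum_Mo_mul`, `sum_nu_mul`, `tot_nu`.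
-/

set_option autoImplicit false
set_option linter.unusedSectionVars false
set_option linter.unusedVariables false

namespace Crest.Agent.R314

open Finset Function
open scoped Classical

variable {Ξ : Type} [Fintype Ξ] {X : Type*} [MetricSpace X] [Fintype X] {k : ℕ} {Λ : Type} [Fintype Λ]

namespace Lbl

variable (L : Lbl X Λ) (J : ℕ)

def path (h : List X) (y : X) : List Λ := L.pt y :: (List.range J).map fun j => L.lab j h y

def loc (x₀ : X) (h : List X) : List Λ → X
  | [] => x₀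
  | c :: v => L.ctr (J - 1 - v.length) h c

def drift (x : X) (h : List X) : List Λ → ℝ
  | [] => 0
  | c :: v => if v.length < J then L.dr (J - 1 - v.length) x h c else 0

/-- mass parked at the nodes of scale `j` named `l` -/
noncomputable def pk (n : List Λ → ℝ) (j : ℕ) (l : Λ) : ℝ :=
  if j < J then ∑ v ∈ lv Λ (J - 1 - j), park (J + 1) n (l :: v) else 0

/-- the offline configuration in the tree -/
def vb (p : Proc Ξ X k) (ξ : Ξ) (t : ℕ) (i : Fin k) : List Λ := L.path J (p.hist ξ t) (p.pos ξ t i)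

variable {L J} {p : Proc Ξ X k} {H : ℕ} {r₀ B : ℝ} {x₀ : X}

/-! ### part a -/

theorem length_path (h : List X) (y : X) : (L.path J h y).length = J + 1 := by
  simp [path]

theorem loc_path (hL : L.Ok p H r₀ J B) (h : List X) (y : X) : L.loc J x₀ h (L.path J h y) = y := by
  exact hL.d0 _ h y

theorem gluea_wt {m j : ℕ} (h : m + j = J + 1) : wt (rr r₀ (J + 1)) m = rr r₀ j := by
  unfold wt rr
  rw [← h, pow_add]; field_simp

theorem gluea_cases {h : List X} {y : X} {u : List Λ} (hu : u <:+ L.path J h y) :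
    u = [] ∨ u = L.path J h y ∨ ∃ j v, j < J ∧ u = L.lab j h y :: v ∧ v.length + j + 1 = J := by
  rcases List.suffix_cons_iff.1 hu with h1 | h1
  · exact Or.inr (Or.inl h1)
  · have hl := h1.length_le
    rw [List.suffix_iff_eq_drop] at h1
    simp only [List.length_map, List.length_range] at hl h1
    rcases Nat.eq_zero_or_pos u.length with h0 | h0
    · exact Or.inl (List.length_eq_zero_iff.1 h0)
    · refine Or.inr (Or.inr ⟨J - u.length, ((List.range J).map fun j => L.lab j h y).drop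
        (J - u.length + 1), by omega, ?_, by simp; omega⟩)
      rw [List.drop_eq_getElem_cons (by simp; omega)] at h1
      simpa using h1

theorem loc_anc (hL : L.Ok p H r₀ J B) (hr : 0 < r₀) (hJ : ∀ y y' : X, dist y y' ≤ rr r₀ J) {h : List X}
    (hH : h.length ≤ H) {y : X} {u w : List Λ} (hw : w <:+ L.path J h y) (hu : u <:+ w) :
    dist (L.loc J x₀ h w) (L.loc J x₀ h u) ≤ 640 * wt (rr r₀ (J + 1)) (u.length + 1) := by
  have hpos : ∀ j, 0 < rr r₀ j := fun j => by unfold rr; positivity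
  rcases gluea_cases (hu.trans hw) with rfl | rfl | ⟨j, v, hj, rfl, hv⟩
  · have e : wt (rr r₀ (J + 1)) (([] : List Λ).length + 1) = rr r₀ J := gluea_wt (by simp; omega)
    rw [e]; linarith [hJ (L.loc J x₀ h w) (L.loc J x₀ h []), hpos J]
  · rw [List.IsSuffix.eq_of_length_le hw hu.length_le, dist_self]
    exact mul_nonneg (by norm_num) (nodesa_wt (hpos _).le _)
  · have e : wt (rr r₀ (J + 1)) ((L.lab j h y :: v).length + 1) = rr r₀ j := gluea_wt (by simp; omega)
    have e1 : L.loc J x₀ h (L.lab j h y :: v) = L.ctr j h (L.lab j h y) := by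
      simp only [loc]; congr 1; omega
    rw [e, e1]
    have d1 := hL.d1 j h y hH
    rcases gluea_cases hw with rfl | rfl | ⟨j', v', hj', rfl, hv'⟩
    · simp at hu
    · rw [loc_path hL]; linarith [hpos j]
    · have e2 : L.loc J x₀ h (L.lab j' h y :: v') = L.ctr j' h (L.lab j' h y) := by
        simp only [loc]; congr 1; omega
      have hle := hu.length_le
      simp only [List.length_cons] at hle
      have : rr r₀ j' ≤ rr r₀ j := by
        unfold rr; gcongr
        · norm_num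
        · omega
      rw [e2]
      linarith [dist_triangle_left (L.ctr j' h (L.lab j' h y)) (L.ctr j h (L.lab j h y)) y,
        hL.d1 j' h y hH]

theorem loc_drift (hL : L.Ok p H r₀ J B) (hr : 0 < r₀) {h : List X} (hH : h.length < H) (x : X) {y : X}
    {u : List Λ} (hu : u <:+ L.path J h y) :
    dist (L.loc J x₀ h u) (L.loc J x₀ (x :: h) u) ≤ L.drift J x h u ∧ 0 ≤ L.drift J x h u ∧
      L.drift J x h u ≤ 321 * wt (rr r₀ (J + 1)) (u.length + 1) := by
  have hpos : ∀ j, 0 < rr r₀ j := fun j => by unfold rr; positivity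
  have h0 : 0 ≤ 321 * wt (rr r₀ (J + 1)) (u.length + 1) :=
    mul_nonneg (by norm_num) (nodesa_wt (hpos _).le _)
  rcases gluea_cases hu with rfl | rfl | ⟨j, v, hj, rfl, hv⟩
  · exact ⟨by simp [loc, drift], le_rfl, h0⟩
  · have e : L.drift J x h (L.path J h y) = 0 := by simp [drift, path]
    have e' : L.loc J x₀ (x :: h) (L.path J h y) = y := hL.d0 _ _ y
    rw [e, e', loc_path hL, dist_self]
    exact ⟨le_rfl, le_rfl, h0⟩
  · have e : wt (rr r₀ (J + 1)) ((L.lab j h y :: v).length + 1) = rr r₀ j := gluea_wt (by simp; omega)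
    have e1 : J - 1 - v.length = j := by omega
    rw [e]
    simp only [loc, drift, e1, if_pos (show v.length < J by omega)]
    exact ⟨hL.d2 j x h y hH, hL.dr0 j x h _⟩

theorem loc_step (hL : L.Ok p H r₀ J B) (hr : 0 < r₀) (hJ : ∀ y y' : X, dist y y' ≤ rr r₀ J) {h : List X}
    (hH : h.length < H) (x : X) {y y' : X} {w w' : List Λ} (hw : w <:+ L.path J h y)
    (hw' : w' <:+ L.path J (x :: h) y') :
    dist (L.loc J x₀ h w) (L.loc J x₀ (x :: h) w') ≤
      1601 * td (rr r₀ (J + 1)) (J + 1) w w' + if w = w' then L.drift J x h w' else 0 := by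
  have hρ : 0 ≤ rr r₀ (J + 1) := by unfold rr; positivity
  split_ifs with e
  · subst e
    linarith [(loc_drift (x₀ := x₀) hL hr hH x hw).1, td_nonneg (D := J + 1) hρ w w]
  · obtain ⟨u, h1, h2, h3⟩ := exists_lca (D := J + 1) hρ (hw.length_le.trans (length_path _ _).le)
      (hw'.length_le.trans (length_path _ _).le) e
    have a1 := loc_anc (x₀ := x₀) hL hr hJ hH.le hw h1
    have a2 := loc_anc (x₀ := x₀) hL hr hJ (h := x :: h) hH hw' h2
    obtain ⟨a3, -, a4⟩ := loc_drift (x₀ := x₀) hL hr hH x (h1.trans hw)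
    have := dist_triangle4 (L.loc J x₀ h w) (L.loc J x₀ h u) (L.loc J x₀ (x :: h) u)
      (L.loc J x₀ (x :: h) w')
    rw [dist_comm (L.loc J x₀ (x :: h) u)] at this
    linarith

theorem td_path (hr : 0 < r₀) (hd : ∀ y y' : X, y ≠ y' → r₀ ≤ dist y y') (h h' : List X) (y y' : X) :
    td (rr r₀ (J + 1)) (J + 1) (L.path J h y) (L.path J h' y') ≤
      10 ^ 4 * ∑ j ∈ range J, rr r₀ j * (if L.lab j h y = L.lab j h' y' then 0 else 1) + 3 * dist y y' := by
  have hpos : ∀ j, 0 < rr r₀ j := fun j => by unfold rr; positivity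
  have hnn : ∀ j ∈ range J, 0 ≤ rr r₀ j * (if L.lab j h y = L.lab j h' y' then 0 else 1 : ℝ) :=
    fun j _ => mul_nonneg (hpos j).le (by split_ifs <;> norm_num)
  have hs := sum_nonneg hnn
  have hdn := dist_nonneg (x := y) (y := y')
  have key : ∀ m ≤ J, (∀ j, m ≤ j → j < J → L.lab j h y = L.lab j h' y') →
      td (rr r₀ (J + 1)) (J + 1) (L.path J h y) (L.path J h' y') ≤ 9 / 4 * rr r₀ m := by
    intro m hm he
    have e : ((List.range J).map fun j => L.lab j h y).drop m =
        ((List.range J).map fun j => L.lab j h' y').drop m := by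
      refine List.ext_getElem (by simp) fun i h1 h2 => ?_
      simp only [List.length_drop, List.length_map, List.length_range] at h1
      simp only [List.getElem_drop, List.getElem_map, List.getElem_range]
      exact he _ (by omega) (by omega)
    have := td_le_of_anc (D := J + 1) (hpos (J + 1)).le
      (u := ((List.range J).map fun j => L.lab j h y).drop m) (p := L.path J h y) (p' := L.path J h' y')
      ((List.drop_suffix _ _).trans (List.suffix_cons _ _))
      (e ▸ (List.drop_suffix _ _).trans (List.suffix_cons _ _))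
    rwa [gluea_wt (j := m) (by simp; omega)] at this
  by_cases hne : ((range J).filter fun j => L.lab j h y ≠ L.lab j h' y').Nonempty
  · obtain ⟨j, hj, hmax⟩ := exists_max_image _ id hne
    obtain ⟨hj1, hj2⟩ := mem_filter.1 hj
    have h1 := key (j + 1) (mem_range.1 hj1) fun i hi hi' => by
      by_contra hc
      have := hmax i (mem_filter.2 ⟨mem_range.2 hi', hc⟩)
      simp only [id] at this; omega
    have h2 := single_le_sum hnn hj1
    rw [if_neg hj2, mul_one] at h2
    have e : rr r₀ (j + 1) = 4096 * rr r₀ j := by unfold rr; ring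
    rw [e] at h1
    linarith [hpos j]
  · have he : ∀ j, j < J → L.lab j h y = L.lab j h' y' := fun j hj => by
      by_contra hc
      exact hne ⟨j, mem_filter.2 ⟨mem_range.2 hj, hc⟩⟩
    by_cases hy : y = y'
    · have : L.path J h y = L.path J h' y' := by
        unfold path
        rw [List.map_congr_left fun j hj => he j (List.mem_range.1 hj), hy]
      rw [this, td_self]; linarith
    · have h1 := key 0 (Nat.zero_le _) fun j _ hj => he j hj
      have e : rr r₀ 0 = r₀ := by simp [rr]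
      rw [e] at h1
      linarith [hd y y' hy]

/-! ### part b -/

theorem pk_nonneg {n : List Λ → ℝ} (hn : Frac k n) (j : ℕ) (l : Λ) : 0 ≤ pk J n j l := by
  unfold pk
  split_ifs
  · refine sum_nonneg fun v _ => ?_
    unfold park
    split_ifs
    · linarith [hn.ch (l :: v)]
    · linarith [hn.nn (l :: v)]
  · exact le_rfl

theorem pk_lip (hr : 0 < r₀) (n n' : List Λ → ℝ) :
    ∑ j ∈ range J, rr r₀ j * ∑ l, |pk J n' j l - pk J n j l| ≤ 2 * nd (rr r₀ (J + 1)) (J + 1) n n' := by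
  set ρ := rr r₀ (J + 1) with hρ
  have hρ0 : 0 ≤ ρ := by rw [hρ]; unfold rr; positivity
  set A : ℕ → ℝ := fun m => ∑ w ∈ lv Λ m, |n' w - n w| with hA
  have hA0 : ∀ m, 0 ≤ A m := fun m => sum_nonneg fun _ _ => abs_nonneg _
  have hnd : nd ρ (J + 1) n n' = ∑ m ∈ range (J + 2), wt ρ m * A m := by
    unfold nd
    rw [sum_nodes]
    refine sum_congr rfl fun m _ => ?_
    rw [hA, mul_sum]
    exact sum_congr rfl fun v hv => by rw [mem_lv.1 hv]
  have hF0 : ∀ m, 0 ≤ wt ρ m * A m := fun m => mul_nonneg (nodesa_wt hρ0 m) (hA0 m)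
  have key : ∀ j ∈ range J, rr r₀ j * ∑ l, |pk J n' j l - pk J n j l| ≤
      wt ρ (J - j) * A (J - j) + wt ρ (J + 1 - j) * A (J + 1 - j) := by
    intro j hj
    have hj' := mem_range.1 hj
    have e1 : J - j = (J - 1 - j) + 1 := by omega
    have e2 : J + 1 - j = (J - j) + 1 := by omega
    have h1 : ∑ l, |pk J n' j l - pk J n j l| ≤ A (J - j) + A (J + 1 - j) := by
      have : A (J - j) + A (J + 1 - j) = ∑ l, ∑ v ∈ lv Λ (J - 1 - j),
          (|n' (l :: v) - n (l :: v)| + ∑ c, |n' (c :: l :: v) - n (c :: l :: v)|) := by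
        simp only [hA]
        rw [e2, sum_lv_succ (J - j), ← sum_add_distrib, e1, sum_lv_succ, sum_comm]
      rw [this]
      refine sum_le_sum fun l _ => ?_
      simp only [pk, if_pos hj']
      rw [← sum_sub_distrib]
      refine (abs_sum_le_sum_abs _ _).trans (sum_le_sum fun v hv => ?_)
      have hl : (l :: v).length < J + 1 := by
        rw [List.length_cons, mem_lv.1 hv]; omega
      simp only [park, if_pos hl]
      have e : n' (l :: v) - ∑ c, n' (c :: l :: v) - (n (l :: v) - ∑ c, n (c :: l :: v)) =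
          (n' (l :: v) - n (l :: v)) - ∑ c, (n' (c :: l :: v) - n (c :: l :: v)) := by
        rw [sum_sub_distrib]; ring
      rw [e]
      exact (abs_sub _ _).trans (add_le_add le_rfl (abs_sum_le_sum_abs _ _))
    have w1 : wt ρ (J + 1 - j) = rr r₀ j := by
      rw [hρ]; unfold wt rr
      have : (4096 : ℝ) ^ (J + 1) = 4096 ^ j * 4096 ^ (J + 1 - j) := by
        rw [← pow_add]; congr 1; omega
      rw [this]; field_simp
    have w2 : rr r₀ j ≤ wt ρ (J - j) := by
      rw [← w1, e2]; unfold wt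
      exact div_le_div_of_nonneg_left hρ0 (by positivity)
        (pow_le_pow_right₀ (by norm_num) (Nat.le_succ _))
    have hr0 : 0 ≤ rr r₀ j := by unfold rr; positivity
    calc rr r₀ j * ∑ l, |pk J n' j l - pk J n j l| ≤ rr r₀ j * (A (J - j) + A (J + 1 - j)) :=
          mul_le_mul_of_nonneg_left h1 hr0
      _ = rr r₀ j * A (J - j) + wt ρ (J + 1 - j) * A (J + 1 - j) := by rw [w1]; ring
      _ ≤ _ := add_le_add (mul_le_mul_of_nonneg_right w2 (hA0 _)) le_rfl
  have hs : ∀ a, a ≤ 1 → ∑ j ∈ range J, wt ρ (J + a - j) * A (J + a - j) ≤ nd ρ (J + 1) n n' := by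
    intro a ha
    rw [hnd, ← sum_image (s := range J) (g := fun j => J + a - j) (f := fun m => wt ρ m * A m)
      (fun x hx y hy hxy => by
        have := mem_range.1 (mem_coe.1 hx); have := mem_range.1 (mem_coe.1 hy)
        simp only at hxy; omega)]
    refine sum_le_sum_of_subset_of_nonneg (fun m hm => ?_) fun m _ _ => hF0 m
    obtain ⟨j, _, rfl⟩ := mem_image.1 hm
    exact mem_range.2 (by omega)
  refine (sum_le_sum key).trans ?_
  rw [sum_add_distrib]
  have h0 := hs 0 (by norm_num)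
  have h1 := hs 1 le_rfl
  simp only [add_zero] at h0
  linarith

theorem glueb_head {h : List X} {y : X} {c : Λ} {v : List Λ} (hs : c :: v <:+ L.path J h y)
    (hv : v.length < J) : c = L.lab (J - 1 - v.length) h y := by
  obtain ⟨t, ht⟩ := hs
  have hl := congrArg List.length ht
  simp only [path, List.length_append, List.length_cons, List.length_map, List.length_range] at hl
  have h1 : (t ++ c :: v)[t.length]? = some c := by simp
  rw [ht] at h1
  obtain ⟨m, hm⟩ : ∃ m, t.length = m + 1 := ⟨t.length - 1, by omega⟩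
  rw [hm, path, List.getElem?_cons_succ, List.getElem?_map, List.getElem?_range (by omega)] at h1
  have : m = J - 1 - v.length := by omega
  rw [← this]
  exact (Option.some.inj h1).symm

theorem pk_H (hL : L.Ok p H r₀ J B) {h : List X} (hH : h.length ≤ H) (hm : 0 < p.mass h) {n : List Λ → ℝ}
    (hn : Frac k n) (h6 : ∀ v, n v ≤ 6 * p.E h fun ξ => cnt (L.vb J p ξ h.length) v)
    (s : Finset ℕ) (l : ℕ → Λ) (y : X) (ρ : ℝ)
    (hs : ∀ j ∈ s, j < J ∧ dist (L.ctr j h (l j)) y + 320 * rr r₀ j ≤ ρ) :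
    ∑ j ∈ s, pk J n j (l j) ≤ 6 * Mb (p.Mh h) y ρ := by
  set 𝒩 : Finset (List Λ) := s.biUnion fun j => (lv Λ (J - 1 - j)).image fun v => l j :: v with h𝒩
  have e : ∑ j ∈ s, pk J n j (l j) = ∑ v ∈ 𝒩, park (J + 1) n v := by
    rw [h𝒩, sum_biUnion]
    · refine sum_congr rfl fun j hj => ?_
      rw [pk, if_pos (hs j hj).1, sum_image fun x _ y _ hxy => (List.cons.inj hxy).2]
    · intro j hj j' hj' hne
      have a1 := (hs j (mem_coe.1 hj)).1
      have a2 := (hs j' (mem_coe.1 hj')).1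
      refine disjoint_left.2 fun w hw hw' => hne ?_
      obtain ⟨v, hv, rfl⟩ := mem_image.1 hw
      obtain ⟨v', hv', e⟩ := mem_image.1 hw'
      have b1 := mem_lv.1 hv
      have b2 := mem_lv.1 hv'
      rw [(List.cons.inj e).2] at b2
      omega
  have hlen : ∀ v ∈ 𝒩, v.length ≤ J + 1 := by
    intro w hw
    obtain ⟨j, _, hw⟩ := mem_biUnion.1 hw
    obtain ⟨v, hv, rfl⟩ := mem_image.1 hw
    rw [List.length_cons, mem_lv.1 hv]; omega
  have key := park_sum_le (D := J + 1) (π := p.pw h) (p.pw_nonneg h) (fun ξ => L.vb J p ξ h.length)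
    hn.nn hn.ch h6 hlen
  rw [e]
  refine key.trans (mul_le_mul_of_nonneg_left ?_ (by norm_num))
  have e2 : Mb (p.Mh h) y ρ = p.E h fun ξ => ∑ i, if dist (p.pos ξ h.length i) y ≤ ρ then 1 else 0 := by
    rw [← p.sum_Mh_mul h fun y' => if dist y' y ≤ ρ then 1 else 0]
    unfold Mb
    exact sum_congr rfl fun y' _ => by split_ifs <;> simp
  rw [e2]
  refine p.E_mono h (f := fun ξ => ∑ i, if ∃ v ∈ 𝒩, v <:+ L.vb J p ξ h.length i then 1 else 0)
    fun ξ hξ => sum_le_sum fun i _ => ?_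
  by_cases hex : ∃ v ∈ 𝒩, v <:+ L.vb J p ξ h.length i
  · rw [if_pos hex, if_pos]
    obtain ⟨w, hw, hsuf⟩ := hex
    obtain ⟨j, hj, hw⟩ := mem_biUnion.1 hw
    obtain ⟨v, hv, rfl⟩ := mem_image.1 hw
    obtain ⟨hjJ, hd⟩ := hs j hj
    rw [vb, p.hist_of_pw hm hξ] at hsuf
    have b1 := mem_lv.1 hv
    have hc := glueb_head (L := L) hsuf (by omega)
    have ej : J - 1 - v.length = j := by omega
    rw [ej] at hc
    have d1 := hL.d1 j h (p.pos ξ h.length i) hH
    rw [← hc] at d1
    linarith [dist_triangle (p.pos ξ h.length i) (L.ctr j h (l j)) y]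
  · rw [if_neg hex]
    split_ifs <;> norm_num

theorem virt (hP : ∑ ξ, p.P ξ = 1) (hr : 0 < r₀) (hd : ∀ y y' : X, y ≠ y' → r₀ ≤ dist y y') (H : ℕ) :
    ∑ ξ, p.P ξ * ∑ t ∈ range H, ∑ i, td (rr r₀ (J + 1)) (J + 1) (L.vb J p ξ t i) (L.vb J p ξ (t + 1) i) ≤
      10 ^ 4 * p.tot H (fun x h => ∑ j ∈ range J, rr r₀ j *
        (∑ y, p.Mo x h y * (if L.lab j h y = L.lab j (x :: h) y then 0 else 1) +
          ∑ y, p.nu x h y * (if L.lab j (x :: h) y = L.lab j (x :: h) x then 0 else 1))) + 3 * p.cost H := by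
  have hρ0 : 0 ≤ rr r₀ (J + 1) := by unfold rr; positivity
  set G : Ξ → ℕ → ℝ := fun ξ t => ∑ j ∈ range J, rr r₀ j *
    ((∑ i, if L.lab j (p.hist ξ t) (p.pos ξ t i) = L.lab j (p.σ ξ t :: p.hist ξ t) (p.pos ξ t i) then 0 else 1) +
      if L.lab j (p.σ ξ t :: p.hist ξ t) (p.pos ξ t (p.j ξ t)) = L.lab j (p.σ ξ t :: p.hist ξ t) (p.σ ξ t)
        then 0 else 1) with hG
  have h1 : ∀ ξ t, ∑ i, td (rr r₀ (J + 1)) (J + 1) (L.vb J p ξ t i) (L.vb J p ξ (t + 1) i) ≤
      10 ^ 4 * G ξ t + 3 * p.d ξ t := by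
    intro ξ t
    have a1 : ∀ i, td (rr r₀ (J + 1)) (J + 1) (L.vb J p ξ t i) (L.vb J p ξ (t + 1) i) ≤
        10 ^ 4 * ∑ j ∈ range J, rr r₀ j *
          (if L.lab j (p.hist ξ t) (p.pos ξ t i) = L.lab j (p.σ ξ t :: p.hist ξ t) (p.pos ξ t i) then 0 else 1) +
        if i = p.j ξ t then 10 ^ 4 * ∑ j ∈ range J, rr r₀ j *
          (if L.lab j (p.σ ξ t :: p.hist ξ t) (p.pos ξ t (p.j ξ t)) =
            L.lab j (p.σ ξ t :: p.hist ξ t) (p.σ ξ t) then 0 else 1) + 3 * p.d ξ t else 0 := by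
      intro i
      refine (td_triangle hρ0 _ (L.path J (p.σ ξ t :: p.hist ξ t) (p.pos ξ t i)) _).trans (add_le_add ?_ ?_)
      · have := td_path (L := L) (J := J) hr hd (p.hist ξ t) (p.σ ξ t :: p.hist ξ t) (p.pos ξ t i) (p.pos ξ t i)
        rw [dist_self, mul_zero, add_zero] at this
        exact this
      · by_cases hi : i = p.j ξ t
        · rw [if_pos hi]
          subst hi
          have := td_path (L := L) (J := J) hr hd (p.σ ξ t :: p.hist ξ t) (p.σ ξ t :: p.hist ξ t)
            (p.pos ξ t (p.j ξ t)) (p.σ ξ t)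
          simp only [vb, Proc.hist, Proc.pos, update_self]
          exact this
        · rw [if_neg hi]
          simp only [vb, Proc.hist, Proc.pos, update_of_ne hi]
          exact (td_self _).le
    refine (sum_le_sum fun i _ => a1 i).trans (le_of_eq ?_)
    rw [sum_add_distrib, sum_ite_eq' univ (p.j ξ t), if_pos (mem_univ _), ← mul_sum, sum_comm]
    simp only [hG, mul_add, sum_add_distrib, ← mul_sum]
    ring
  have h2 : ∑ ξ, p.P ξ * ∑ t ∈ range H, G ξ t ≤ p.tot H (fun x h => ∑ j ∈ range J, rr r₀ j *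
        (∑ y, p.Mo x h y * (if L.lab j h y = L.lab j (x :: h) y then 0 else 1) +
          ∑ y, p.nu x h y * (if L.lab j (x :: h) y = L.lab j (x :: h) x then 0 else 1))) := by
    rw [← p.tot_E H G]
    refine p.tot_mono H fun x h _ hm => ?_
    have e : ∑ j ∈ range J, rr r₀ j *
        (∑ y, p.Mo x h y * (if L.lab j h y = L.lab j (x :: h) y then 0 else 1) +
          ∑ y, p.nu x h y * (if L.lab j (x :: h) y = L.lab j (x :: h) x then 0 else 1)) =
        p.E (x :: h) fun ξ => ∑ j ∈ range J, rr r₀ j *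
          ((∑ i, if L.lab j h (p.pos ξ h.length i) = L.lab j (x :: h) (p.pos ξ h.length i) then 0 else 1) +
            if L.lab j (x :: h) (p.pos ξ h.length (p.j ξ h.length)) = L.lab j (x :: h) x then 0 else 1) := by
      simp only [p.sum_Mo_mul, p.sum_nu_mul]
      simp only [Proc.E]
      simp only [← sum_add_distrib, ← mul_add]
      simp only [mul_sum (s := range J), mul_sum (s := (univ : Finset Ξ))]
      rw [sum_comm]
      exact sum_congr rfl fun ξ _ => sum_congr rfl fun j _ => by ring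
    rw [e]
    refine p.E_mono _ fun ξ hξ => le_of_eq ?_
    have h3 := p.hist_of_pw hm hξ
    simp only [List.length_cons, Proc.hist, List.cons.injEq] at h3
    simp only [hG, h3.1, h3.2]
  calc ∑ ξ, p.P ξ * ∑ t ∈ range H, ∑ i, td (rr r₀ (J + 1)) (J + 1) (L.vb J p ξ t i) (L.vb J p ξ (t + 1) i)
      ≤ ∑ ξ, p.P ξ * ∑ t ∈ range H, (10 ^ 4 * G ξ t + 3 * p.d ξ t) :=
        sum_le_sum fun ξ _ => mul_le_mul_of_nonneg_left (sum_le_sum fun t _ => h1 ξ t) (p.P0 ξ)
    _ = 10 ^ 4 * (∑ ξ, p.P ξ * ∑ t ∈ range H, G ξ t) + 3 * p.cost H := by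
        rw [Proc.cost, mul_sum, mul_sum, ← sum_add_distrib]
        refine sum_congr rfl fun ξ _ => ?_
        rw [sum_add_distrib, ← mul_sum, ← mul_sum]
        ring
    _ ≤ _ := by linarith

/-! ### part c -/

theorem gluec_live {n : List Λ → ℝ} {h : List X} (hm : 0 < p.mass h)
    (h6 : ∀ v, n v ≤ 6 * p.E h fun ξ => cnt (L.vb J p ξ h.length) v) {μ : Conf Λ k (J + 1) → ℝ}
    (hμ : Good n μ) {a : Conf Λ k (J + 1)} (ha : 0 < μ a) (i : Fin k) : ∃ y, (a i : List Λ) <:+ L.path J h y := by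
  have h1 : (1 : ℝ) ≤ cc a (a i) := by
    unfold cc
    rw [cnt_eq_sum]
    have := Finset.single_le_sum (f := fun i' => if (a i : List Λ) <:+ (a i' : List Λ) then (1 : ℝ) else 0)
      (fun i' _ => by split_ifs <;> norm_num) (mem_univ i)
    simpa using this
  have h2 := (abs_lt.1 (hμ.bal a ha (a i) (mem_nodes.1 (a i).2))).2
  by_contra hne
  push Not at hne
  have h3 : (p.E h fun ξ => (cnt (L.vb J p ξ h.length) (a i) : ℝ)) ≤ p.E h fun _ => 0 := by
    refine p.E_mono h fun ξ hξ => ?_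
    rw [cnt_eq_sum]
    refine (sum_eq_zero fun i' _ => if_neg ?_).le
    unfold vb
    rw [p.hist_of_pw hm hξ]
    exact hne _
  have h4 : (p.E h fun _ => (0 : ℝ)) = 0 := by simp [Proc.E]
  linarith [h6 (a i)]

theorem gluec_drift (x : X) (h : List X) (n : List Λ → ℝ) :
    ∑ w ∈ nodes Λ (J + 1), L.drift J x h w * park (J + 1) n w =
      ∑ j ∈ range J, ∑ l, L.dr j x h l * pk J n j l := by
  rw [sum_nodes, sum_range_succ', lv_zero, sum_singleton, sum_range_succ]
  have h0 : ∑ v ∈ lv Λ (J + 1), L.drift J x h v * park (J + 1) n v = 0 := by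
    rw [sum_lv_succ]
    refine sum_eq_zero fun v hv => sum_eq_zero fun c _ => ?_
    simp [drift, mem_lv.1 hv]
  rw [h0, ← sum_range_reflect]
  simp only [drift, zero_mul, add_zero]
  refine sum_congr rfl fun j hj => ?_
  have hj' := mem_range.1 hj
  rw [sum_lv_succ, sum_comm]
  refine sum_congr rfl fun l _ => ?_
  unfold pk
  rw [if_pos hj', mul_sum]
  refine sum_congr rfl fun v hv => ?_
  have hv' := mem_lv.1 hv
  simp only [drift, hv']
  rw [if_pos (by omega), show J - 1 - (J - 1 - j) = j by omega]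

theorem step (hL : L.Ok p H r₀ J B) (hr : 0 < r₀) (hJ : ∀ y y' : X, dist y y' ≤ rr r₀ J)
    {n : List X → List Λ → ℝ} (hn : ∀ h, Frac k (n h))
    (h6 : ∀ h v, n h v ≤ 6 * p.E h fun ξ => cnt (L.vb J p ξ h.length) v)
    (h1 : ∀ h v, (∀ ξ, 0 < p.pw h ξ → 1 ≤ cnt (L.vb J p ξ h.length) v) → 1 ≤ n h v)
    (x : X) (h : List X) (μ : Conf Λ k (J + 1) → ℝ) (hH : h.length < H) (hm : 0 < p.mass (x :: h))
    (hμ : Good (n h) μ) : ∃ ν : Conf Λ k (J + 1) → Conf Λ k (J + 1) → ℝ,
      (∀ a b, 0 ≤ ν a b) ∧ (∀ a, ∑ b, ν a b = μ a) ∧ Good (n (x :: h)) (fun b => ∑ a, ν a b) ∧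
      (∀ a b, 0 < ν a b → ∃ i, L.loc J x₀ (x :: h) (b i) = x) ∧
      ∑ a, ∑ b, ν a b * ∑ i, dist (L.loc J x₀ h (a i)) (L.loc J x₀ (x :: h) (b i)) ≤
        20000 * nd (rr r₀ (J + 1)) (J + 1) (n h) (n (x :: h)) +
          ∑ j ∈ range J, ∑ l, L.dr j x h l * pk J (n (x :: h)) j l := by
  have hρ : 0 < rr r₀ (J + 1) := by unfold rr; positivity
  obtain ⟨ν, ⟨hν0, hν1⟩, hG, hc⟩ := round hρ hμ (hn (x :: h))
  have hb : ∀ a b, 0 < ν a b → 0 < ∑ a, ν a b := fun a b hab =>
    hab.trans_le (Finset.single_le_sum (f := fun a => ν a b) (fun a _ => hν0 a b) (mem_univ a))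
  have ha : ∀ a b, 0 < ν a b → 0 < μ a := fun a b hab => by
    rw [← hν1 a]
    exact hab.trans_le (Finset.single_le_sum (f := fun b => ν a b) (fun b _ => hν0 a b) (mem_univ b))
  refine ⟨ν, hν0, hν1, hG, fun a b hab => ?_, ?_⟩
  · have hv : 1 ≤ n (x :: h) (L.path J (x :: h) x) := by
      refine h1 _ _ fun ξ hξ => ?_
      have hh := p.hist_of_pw hm hξ
      have hx : p.σ ξ h.length = x := by
        simp only [List.length_cons, Proc.hist, List.cons.injEq] at hh
        exact hh.1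
      refine Finset.card_pos.2 ⟨p.j ξ h.length, ?_⟩
      simp only [mem_filter, mem_univ, true_and, vb]
      rw [hh]
      simp [Proc.pos, hx]
    have h2 := (abs_lt.1 (hG.bal b (hb a b hab) (L.path J (x :: h) x) (length_path _ _).le)).1
    have h3 : 0 < cnt (fun i => (b i : List Λ)) (L.path J (x :: h) x) := by
      have : (0 : ℝ) < cc b (L.path J (x :: h) x) := by linarith
      unfold cc at this
      exact_mod_cast this
    obtain ⟨i, hi⟩ := Finset.card_pos.1 h3
    simp only [mem_filter, mem_univ, true_and] at hi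
    refine ⟨i, ?_⟩
    have : L.path J (x :: h) x = b i :=
      hi.eq_of_length_le (by rw [length_path]; exact mem_nodes.1 (b i).2)
    rw [← this, loc_path hL]
  · have hd0 : ∀ w, 0 ≤ L.drift J x h w := fun w => by
      cases w with
      | nil => exact le_rfl
      | cons c v => simp only [drift]; split_ifs; exacts [(hL.dr0 _ _ _ _).1, le_rfl]
    have hpt : ∀ a b, ν a b * ∑ i, dist (L.loc J x₀ h (a i)) (L.loc J x₀ (x :: h) (b i)) ≤
        1601 * (ν a b * ∑ i, td (rr r₀ (J + 1)) (J + 1) (a i : List Λ) (b i)) +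
          ν a b * ∑ i, L.drift J x h (b i) := by
      intro a b
      rcases (hν0 a b).eq_or_lt with h0 | h0
      · simp [← h0]
      · rw [mul_left_comm, ← mul_add, mul_sum _ _ (1601 : ℝ), ← sum_add_distrib]
        refine mul_le_mul_of_nonneg_left (sum_le_sum fun i _ => ?_) h0.le
        obtain ⟨y, hy⟩ := gluec_live (p.mass_tail hm) (h6 h) hμ (ha a b h0) i
        obtain ⟨y', hy'⟩ := gluec_live hm (h6 (x :: h)) hG (hb a b h0) i
        refine (loc_step hL hr hJ hH x hy hy').trans (add_le_add le_rfl ?_)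
        split_ifs
        exacts [le_rfl, hd0 _]
    have hdr : ∑ a, ∑ b, ν a b * ∑ i, L.drift J x h (b i) =
        ∑ j ∈ range J, ∑ l, L.dr j x h l * pk J (n (x :: h)) j l := by
      rw [← gluec_drift, sum_comm]
      have e : ∀ b : Conf Λ k (J + 1), ∑ i, L.drift J x h (b i) =
          ∑ w ∈ nodes Λ (J + 1), L.drift J x h w * ∑ i, if (b i : List Λ) = w then 1 else 0 := fun b => by
        simp only [mul_sum]
        rw [sum_comm]
        refine sum_congr rfl fun i _ => ?_
        simp [(b i).2]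
      simp only [← sum_mul, e]
      simp only [mul_sum (nodes Λ (J + 1))]
      rw [sum_comm]
      refine sum_congr rfl fun w hw => ?_
      rw [← hG.park_eq (mem_nodes.1 hw), mul_sum]
      refine sum_congr rfl fun b _ => ?_
      ring
    have hnd : 0 ≤ nd (rr r₀ (J + 1)) (J + 1) (n h) (n (x :: h)) :=
      sum_nonneg fun v _ => mul_nonneg (nodesa_wt hρ.le _) (abs_nonneg _)
    calc _ ≤ ∑ a, ∑ b, (1601 * (ν a b * ∑ i, td (rr r₀ (J + 1)) (J + 1) (a i : List Λ) (b i)) +
          ν a b * ∑ i, L.drift J x h (b i)) := sum_le_sum fun a _ => sum_le_sum fun b _ => hpt a b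
      _ = 1601 * ∑ a, ∑ b, ν a b * ∑ i, td (rr r₀ (J + 1)) (J + 1) (a i : List Λ) (b i) +
          ∑ a, ∑ b, ν a b * ∑ i, L.drift J x h (b i) := by
          simp only [sum_add_distrib, ← mul_sum]
      _ ≤ _ := by rw [hdr]; linarith

end Lbl

/-! ### part d -/

theorem glued_scale (X : Type*) [MetricSpace X] [Fintype X] : ∃ (r₀ : ℝ) (J : ℕ), 0 < r₀ ∧
    (∀ y y' : X, y ≠ y' → r₀ ≤ dist y y') ∧ ∀ y y' : X, dist y y' ≤ rr r₀ J := by
  obtain ⟨r₀, hr, hd⟩ : ∃ r₀ : ℝ, 0 < r₀ ∧ ∀ y y' : X, y ≠ y' → r₀ ≤ dist y y' := by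
    by_cases hne : (univ.filter fun z : X × X => z.1 ≠ z.2).Nonempty
    · obtain ⟨z, hz, hmin⟩ := Finset.exists_min_image _ (fun z : X × X => dist z.1 z.2) hne
      refine ⟨dist z.1 z.2, dist_pos.2 (by simpa using hz), fun y y' h => hmin (y, y') (by simpa using h)⟩
    · refine ⟨1, one_pos, fun y y' h => absurd ⟨(y, y'), by simpa using h⟩ hne⟩
  obtain ⟨J, hJ⟩ := pow_unbounded_of_one_lt ((∑ z : X × X, dist z.1 z.2) / r₀) (by norm_num : (1 : ℝ) < 4096)
  refine ⟨r₀, J, hr, hd, fun y y' => ?_⟩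
  have h1 : dist y y' ≤ ∑ z : X × X, dist z.1 z.2 :=
    Finset.single_le_sum (f := fun z : X × X => dist z.1 z.2) (fun z _ => dist_nonneg) (mem_univ (y, y'))
  rw [div_lt_iff₀ hr] at hJ
  unfold rr
  linarith

theorem glued_tot_nonneg (p : Proc Ξ X k) (H : ℕ) {c : X → List X → ℝ} (hc : ∀ x h, 0 ≤ c x h) : 0 ≤ p.tot H c :=
  sum_nonneg fun ξ _ => mul_nonneg (p.P0 ξ) (sum_nonneg fun t _ => hc _ _)

/-- choose `r₀ ≤` the least distance and `J`; `emb`, `tree` (with `b = L.vb J p`), `U_le_of_couplings` with `step`,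
`good_init`; then `d4`, `pk_lip`, `virt`, `d3` and `1 ≤ log (k + 1)` -/
theorem yao_main (hk : 2 ≤ k) (s : Fin k → X) : ∃ B, Yao s (10 ^ 32 * Real.log (k + 1) ^ 2) B := by
  have hk0 : 0 < k := by omega
  obtain ⟨r₀, J, hr, hd, hJ⟩ := glued_scale X
  set x₀ := s ⟨0, hk0⟩
  obtain ⟨B, hB, hemb⟩ := emb hk0 x₀ hr hJ
  refine ⟨10 ^ 21 * Real.log (k + 1) * B, fun Ξ _ p H hs hP => ?_⟩
  obtain ⟨Λ, _, L, hL⟩ := hemb Ξ p H hP
  have : Nonempty Λ := ⟨L.pt x₀⟩
  have hρ : 0 < rr r₀ (J + 1) := by unfold rr; positivity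
  obtain ⟨n, hn, h6, h1, hi, hN⟩ := p.tree (L.vb J p) hk0 hP (fun ξ ξ' => rfl) hρ.le (J + 1)
  have hΞ : Nonempty Ξ := by
    by_contra hne
    rw [not_nonempty_iff] at hne
    simp at hP
  obtain ⟨ξ₀⟩ := hΞ
  let a₀ : Conf Λ k (J + 1) := fun i => ⟨L.path J [] (s i), by simp [Lbl.length_path]⟩
  have hU := p.U_le_of_couplings hk0 H (fun h (a : Conf Λ k (J + 1)) i => L.loc J x₀ h (a i))
    (fun h μ => Good (n h) μ)
    (fun x h => 20000 * nd (rr r₀ (J + 1)) (J + 1) (n h) (n (x :: h)) +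
      ∑ j ∈ range J, ∑ l, L.dr j x h l * Lbl.pk J (n (x :: h)) j l)
    (fun h μ hμ => ⟨hμ.nn, hμ.one⟩)
    (fun x h μ hH hm hμ => Lbl.step hL hr hJ hn h6 h1 x h μ hH hm hμ) a₀
    (by
      have := good_init (n := n []) a₀ (fun v => by
        rw [hi ξ₀ v]; unfold cc; congr 2; funext i; simp only [Lbl.vb, Proc.hist, Proc.pos, a₀, hs])
      convert this)
  have hs0 : (fun i => L.loc J x₀ [] (a₀ i)) = s := funext fun i => Lbl.loc_path hL [] (s i)
  rw [hs0, p.tot_add, p.tot_mul] at hU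
  have h4 := hL.d4 (fun h j l => Lbl.pk J (n h) j l) (fun h j l => Lbl.pk_nonneg (hn h) j l)
    (fun h hH hm s l y ρ hs => Lbl.pk_H hL hH hm (hn h) (h6 h) s l y ρ hs)
  have hlip : p.tot H (fun x h => ∑ j ∈ range J, rr r₀ j *
      ∑ l, |Lbl.pk J (n (x :: h)) j l - Lbl.pk J (n h) j l|) ≤
      2 * p.tot H (fun x h => nd (rr r₀ (J + 1)) (J + 1) (n h) (n (x :: h))) := by
    rw [← p.tot_mul]
    exact p.tot_mono H fun x h _ _ => Lbl.pk_lip hr _ _
  have hv := Lbl.virt (L := L) (J := J) hP hr hd H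
  have h3 := hL.d3
  rw [p.tot_add] at h3
  have hN' := hN H
  have hex := glued_tot_nonneg p H hL.ex0
  have hV : 0 ≤ p.tot H (fun x h => ∑ j ∈ range J, rr r₀ j *
      (∑ y, p.Mo x h y * (if L.lab j h y = L.lab j (x :: h) y then 0 else 1) +
        ∑ y, p.nu x h y * (if L.lab j (x :: h) y = L.lab j (x :: h) x then 0 else 1))) := by
    refine glued_tot_nonneg p H fun x h => sum_nonneg fun j _ => mul_nonneg (by unfold rr; positivity) ?_
    refine add_nonneg (sum_nonneg fun y _ => mul_nonneg ?_ (by split_ifs <;> norm_num))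
      (sum_nonneg fun y _ => mul_nonneg ?_ (by split_ifs <;> norm_num))
    · exact p.Post_E_nonneg _ fun ξ => p.Post_at_nonneg _ _ _
    · exact p.Post_E_nonneg _ fun ξ => by split_ifs <;> norm_num
  have hc := p.cost_nonneg H
  have hL1 : 1 ≤ Real.log (k + 1) := by
    rw [Real.le_log_iff_exp_le (by positivity)]
    have : (2 : ℝ) ≤ k := by exact_mod_cast hk
    linarith [Real.exp_one_lt_d9]
  set Lg := Real.log (k + 1)
  set c := p.cost H
  set V := p.tot H (fun x h => ∑ j ∈ range J, rr r₀ j *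
      (∑ y, p.Mo x h y * (if L.lab j h y = L.lab j (x :: h) y then 0 else 1) +
        ∑ y, p.nu x h y * (if L.lab j (x :: h) y = L.lab j (x :: h) x then 0 else 1)))
  set EX := p.tot H L.ex
  set N := p.tot H (fun x h => nd (rr r₀ (J + 1)) (J + 1) (n h) (n (x :: h)))
  have hLc : c ≤ Lg * c := le_mul_of_one_le_left hc hL1
  have hLLc : Lg * c ≤ Lg ^ 2 * c := by nlinarith [mul_nonneg (zero_le_one.trans hL1) hc]
  have hLB : B ≤ Lg * B := le_mul_of_one_le_left hB hL1
  have hN2 : N ≤ 10 ^ 12 * Lg * (10 ^ 4 * (10 ^ 10 * Lg * c + B) + 3 * c) :=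
    hN'.trans (mul_le_mul_of_nonneg_left (by linarith) (by positivity))
  have hN3 : N ≤ 2 * 10 ^ 26 * (Lg ^ 2 * c) + 10 ^ 16 * (Lg * B) := by
    have : 10 ^ 12 * Lg * (10 ^ 4 * (10 ^ 10 * Lg * c + B) + 3 * c) =
        10 ^ 26 * (Lg ^ 2 * c) + 10 ^ 16 * (Lg * B) + 3 * 10 ^ 12 * (Lg * c) := by ring
    nlinarith [mul_nonneg (zero_le_one.trans hL1) hc]
  have e1 : 10 ^ 32 * Lg ^ 2 * c = 10 ^ 32 * (Lg ^ 2 * c) := by ring
  have e2 : 10 ^ 21 * Lg * B = 10 ^ 21 * (Lg * B) := by ring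
  have e3 : 10 ^ 12 * Lg * c = 10 ^ 12 * (Lg * c) := by ring
  have e4 : 10 ^ 10 * Lg * c = 10 ^ 10 * (Lg * c) := by ring
  rw [e1, e2]
  rw [e3] at h4
  rw [e4] at h3
  linarith

end Crest.Agent.R314
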