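import Mathlib

/-!
# Row 314: the universal tree

Nodes are lists, the children of `v` are the `c :: v`, the ancestors of `v` are its suffixes.  `cnt a v` is the
number of servers of the configuration `a` below `v`; `td` is the tree distance for the edge weights
`wt (length of the lower end)`.
-/

set_option autoImplicit false
set_option linter.unusedSectionVars false
set_option linter.unusedVariables false

namespace Crest.Agent.R314

open Finset Function

variable {Λ : Type} [Fintype Λ] [DecidableEq Λ] {k : ℕ}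

/-- nodes of depth at most `D` -/
noncomputable def nodes (Λ : Type) [Fintype Λ] (D : ℕ) : Finset (List Λ) := (List.finite_length_le Λ D).toFinset

/-- nodes of depth `m` -/
noncomputable def lv (Λ : Type) [Fintype Λ] (m : ℕ) : Finset (List Λ) := (List.finite_length_eq Λ m).toFinset

def cnt (a : Fin k → List Λ) (v : List Λ) : ℕ := (univ.filter fun i => v <:+ a i).card

noncomputable def wt (ρ : ℝ) (m : ℕ) : ℝ := ρ / 4096 ^ m

noncomputable def td (ρ : ℝ) (D : ℕ) (p p' : List Λ) : ℝ :=
  ∑ v ∈ nodes Λ D, wt ρ v.length * |(if v <:+ p then 1 else 0 : ℝ) - if v <:+ p' then 1 else 0|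

/-- weighted `ℓ¹` distance of two mass vectors -/
noncomputable def nd (ρ : ℝ) (D : ℕ) (n n' : List Λ → ℝ) : ℝ := ∑ v ∈ nodes Λ D, wt ρ v.length * |n' v - n v|

/-- mass parked at `v` -/
noncomputable def park (D : ℕ) (n : List Λ → ℝ) (v : List Λ) : ℝ :=
  n v - if v.length < D then ∑ c, n (c :: v) else 0

variable {ρ : ℝ} {D : ℕ}

@[simp] theorem mem_nodes {v : List Λ} : v ∈ nodes Λ D ↔ v.length ≤ D := by simp [nodes]

@[simp] theorem mem_lv {m : ℕ} {v : List Λ} : v ∈ lv Λ m ↔ v.length = m := by simp [lv]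

theorem sum_nodes (f : List Λ → ℝ) : ∑ v ∈ nodes Λ D, f v = ∑ m ∈ range (D + 1), ∑ v ∈ lv Λ m, f v := by
  rw [← sum_fiberwise_of_maps_to (g := List.length) (t := range (D + 1)) fun v hv => by
    simpa [Nat.lt_succ_iff] using hv]
  refine sum_congr rfl fun m hm => sum_congr ?_ fun _ _ => rfl
  ext v
  have := mem_range.1 hm
  simp only [mem_filter, mem_nodes, mem_lv]
  omega

theorem sum_lv_succ (m : ℕ) (f : List Λ → ℝ) : ∑ v ∈ lv Λ (m + 1), f v = ∑ v ∈ lv Λ m, ∑ c, f (c :: v) := by
  have e : lv Λ (m + 1) = (lv Λ m ×ˢ (univ : Finset Λ)).image fun q => q.2 :: q.1 := by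
    ext v
    cases v <;> simp
  rw [e, sum_image fun x _ y _ h => by
    simp only [List.cons.injEq] at h
    exact Prod.ext h.2 h.1, sum_product]

theorem lv_zero : lv Λ 0 = {[]} := by
  ext v
  simp

theorem cnt_nil (a : Fin k → List Λ) : cnt a [] = k := by
  simp [cnt]

theorem cnt_le (a : Fin k → List Λ) (v : List Λ) : cnt a v ≤ k := by
  exact (card_filter_le _ _).trans (by simp)

theorem cnt_eq_sum (a : Fin k → List Λ) (v : List Λ) : (cnt a v : ℝ) = ∑ i, if v <:+ a i then 1 else 0 := by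
  simp [cnt]

theorem nodesa_eq {v w p : List Λ} (hv : v <:+ p) (hw : w <:+ p) (h : v.length = w.length) : v = w :=
  (List.suffix_of_suffix_length_le hv hw h.le).eq_of_length h

theorem nodesa_cons {v p : List Λ} (hv : v <:+ p) (h : p ≠ v) : ∃ c, c :: v <:+ p := by
  obtain ⟨t, rfl⟩ := hv
  rcases List.eq_nil_or_concat t with rfl | ⟨t', c, rfl⟩
  · exact absurd rfl h
  · exact ⟨c, t', by simp⟩

theorem nodesa_ind (p v : List Λ) : ((∑ c, if c :: v <:+ p then 1 else 0) + if p = v then 1 else 0) =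
    if v <:+ p then 1 else 0 := by
  by_cases h : p = v
  · subst h
    have : ∀ c, ¬ c :: p <:+ p := fun c hc => by simpa using hc.length_le
    simp [this]
  by_cases hv : v <:+ p
  · obtain ⟨c, hc⟩ := nodesa_cons hv h
    have : ∀ c', c' :: v <:+ p ↔ c' = c := fun c' =>
      ⟨fun h2 => (List.cons.inj (nodesa_eq h2 hc (by simp))).1, fun h2 => h2 ▸ hc⟩
    simp [h, hv, this]
  · have : ∀ c, ¬ c :: v <:+ p := fun c hc => hv ((List.suffix_cons c v).trans hc)
    simp [this, h, hv]

theorem sum_cnt_cons (a : Fin k → List Λ) (v : List Λ) :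
    ∑ c, cnt a (c :: v) + (univ.filter fun i => a i = v).card = cnt a v := by
  simp only [cnt, card_filter]
  rw [sum_comm, ← sum_add_distrib]
  exact sum_congr rfl fun i _ => nodesa_ind (a i) v

theorem park_cnt {a : Fin k → List Λ} (ha : ∀ i, (a i).length ≤ D) {v : List Λ} (hv : v.length ≤ D) :
    park D (fun w => (cnt a w : ℝ)) v = ∑ i, if a i = v then 1 else 0 := by
  simp only [park]
  split_ifs with h
  · rw [← sum_cnt_cons a v]
    simp
  · rw [sub_zero, cnt_eq_sum]
    refine sum_congr rfl fun i _ => if_congr ⟨fun h1 => ?_, fun h1 => h1 ▸ List.suffix_refl _⟩ rfl rfl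
    exact (h1.eq_of_length_le (by have := ha i; omega)).symm

theorem nodesa_wt (hρ : 0 ≤ ρ) (m : ℕ) : 0 ≤ wt ρ m := div_nonneg hρ (by positivity)

theorem td_nonneg (hρ : 0 ≤ ρ) (p p' : List Λ) : 0 ≤ td ρ D p p' := by
  exact sum_nonneg fun v _ => mul_nonneg (nodesa_wt hρ _) (abs_nonneg _)

theorem td_self (p : List Λ) : td ρ D p p = 0 := by
  simp [td]

theorem td_comm (p p' : List Λ) : td ρ D p p' = td ρ D p' p := by
  exact sum_congr rfl fun v _ => by rw [abs_sub_comm]

theorem td_triangle (hρ : 0 ≤ ρ) (p p' p'' : List Λ) : td ρ D p p'' ≤ td ρ D p p' + td ρ D p' p'' := by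
  unfold td
  rw [← sum_add_distrib]
  refine sum_le_sum fun v _ => ?_
  rw [← mul_add]
  exact mul_le_mul_of_nonneg_left (abs_sub_le _ _ _) (nodesa_wt hρ _)

theorem nd_cnt_le (hρ : 0 ≤ ρ) (a b : Fin k → List Λ) :
    nd ρ D (fun v => (cnt a v : ℝ)) (fun v => (cnt b v : ℝ)) ≤ ∑ i, td ρ D (a i) (b i) := by
  simp only [nd, td]
  rw [sum_comm]
  refine sum_le_sum fun v _ => ?_
  rw [← mul_sum, cnt_eq_sum, cnt_eq_sum, abs_sub_comm, ← sum_sub_distrib]
  exact mul_le_mul_of_nonneg_left (abs_sum_le_sum_abs _ _) (nodesa_wt hρ _)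

/-- two distinct nodes have a last common ancestor, and the distance is at least the weight below it -/
theorem exists_lca (hρ : 0 ≤ ρ) {p p' : List Λ} (hp : p.length ≤ D) (hp' : p'.length ≤ D) (h : p ≠ p') :
    ∃ u, u <:+ p ∧ u <:+ p' ∧ wt ρ (u.length + 1) ≤ td ρ D p p' := by
  obtain ⟨u, hu, hmax⟩ := exists_max_image ((nodes Λ D).filter fun u => u <:+ p ∧ u <:+ p') List.length
    ⟨[], by simp⟩
  obtain ⟨-, h1, h2⟩ := mem_filter.1 hu
  refine ⟨u, h1, h2, ?_⟩
  have key : ∀ {p p' : List Λ} {c : Λ}, p.length ≤ D → c :: u <:+ p → ¬ c :: u <:+ p' →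
      wt ρ (u.length + 1) ≤ td ρ D p p' := fun {p p' c} hp hc hc' => by
    have := single_le_sum (s := nodes Λ D) (f := fun v => wt ρ v.length *
      |(if v <:+ p then 1 else 0 : ℝ) - if v <:+ p' then 1 else 0|)
      (fun v _ => mul_nonneg (nodesa_wt hρ _) (abs_nonneg _)) (mem_nodes.2 (hc.length_le.trans hp))
    simpa [hc, hc', td] using this
  have hn : ∀ c, c :: u <:+ p → ¬ c :: u <:+ p' := fun c h3 h4 => by
    simpa using hmax (c :: u) (mem_filter.2 ⟨mem_nodes.2 (h3.length_le.trans hp), h3, h4⟩)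
  by_cases h3 : p = u
  · obtain ⟨c, hc⟩ := nodesa_cons h2 fun h4 => h (h3.trans h4.symm)
    rw [td_comm]
    exact key hp' hc fun h5 => hn c h5 hc
  · obtain ⟨c, hc⟩ := nodesa_cons h1 h3
    exact key hp hc (hn c hc)

theorem nodesa_geom (hρ : 0 ≤ ρ) (l n : ℕ) : ∑ m ∈ range n, (if l < m then wt ρ m else 0) ≤
    9 / 8 * wt ρ (l + 1) - 9 / 8 * wt ρ (max n (l + 1)) := by
  induction n with
  | zero => simp
  | succ n ih =>
    rw [sum_range_succ]
    split_ifs with h
    · rw [max_eq_left (by omega)] at ih ⊢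
      have e : wt ρ (n + 1) = wt ρ n / 4096 := by rw [wt, wt, pow_succ, div_div]
      linarith [nodesa_wt hρ n]
    · rw [max_eq_right (by omega)] at ih ⊢
      linarith

theorem nodesa_chain (hρ : 0 ≤ ρ) (l : ℕ) (p : List Λ) :
    ∑ v ∈ nodes Λ D, wt ρ v.length * (if l < v.length ∧ v <:+ p then 1 else 0) ≤ 9 / 8 * wt ρ (l + 1) := by
  rw [sum_nodes]
  refine le_trans (sum_le_sum fun m _ => ?_)
    ((nodesa_geom hρ l (D + 1)).trans (sub_le_self _ (mul_nonneg (by norm_num) (nodesa_wt hρ _))))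
  rw [sum_congr rfl (g := fun v => wt ρ m * (if l < m ∧ v <:+ p then 1 else 0)) fun v hv => by
    rw [mem_lv.1 hv], ← mul_sum]
  split_ifs with h
  · refine mul_le_of_le_one_right (nodesa_wt hρ _) ?_
    simp only [h, true_and, sum_boole, Nat.cast_le_one]
    refine card_le_one.2 fun v hv w hw => ?_
    rw [mem_filter, mem_lv] at hv hw
    exact nodesa_eq hv.2 hw.2 (hv.1.trans hw.1.symm)
  · simp [h]

/-- below a common ancestor each chain has weight at most `wt (|u| + 1) · 4096/4095` -/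
theorem td_le_of_anc (hρ : 0 ≤ ρ) {u p p' : List Λ} (h : u <:+ p) (h' : u <:+ p') :
    td ρ D p p' ≤ 9 / 4 * wt ρ (u.length + 1) := by
  have h1 := nodesa_chain (D := D) hρ u.length p
  have h2 := nodesa_chain (D := D) hρ u.length p'
  refine le_trans ?_ ((add_le_add h1 h2).trans (le_of_eq (by ring)))
  rw [← sum_add_distrib]
  refine sum_le_sum fun v _ => ?_
  rw [← mul_add]
  refine mul_le_mul_of_nonneg_left ?_ (nodesa_wt hρ _)
  by_cases hl : u.length < v.length
  · simp only [hl, true_and]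
    split_ifs <;> norm_num
  · have e : v <:+ p ↔ v <:+ p' :=
      ⟨fun h3 => (List.suffix_of_suffix_length_le h3 h (not_lt.1 hl)).trans h',
        fun h3 => (List.suffix_of_suffix_length_le h3 h' (not_lt.1 hl)).trans h⟩
    simp [hl, e]

theorem nodesb_child {c : Λ} {v w p : List Λ} (hw : v <:+ w) (hw' : w <:+ p) (h : (c :: v) <:+ p)
    (e : w ≠ v) : (c :: v) <:+ w := by
  refine List.suffix_of_suffix_length_le h hw' ?_
  have h1 := hw.length_le
  have h2 : v.length ≠ w.length := fun h => e (hw.eq_of_length h).symm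
  simp only [List.length_cons]; omega

theorem nodesb_uniq {c c' : Λ} {v p : List Λ} (h : (c :: v) <:+ p) (h' : (c' :: v) <:+ p) : c = c' := by
  have := (List.suffix_of_suffix_length_le h h' (by simp)).eq_of_length (by simp)
  simpa using this

/-- descend along an excess -/
theorem descend (f g : List Λ → ℝ) {v : List Λ} (hv : v.length ≤ D) (h : g v < f v) :
    ∃ p, v <:+ p ∧ p.length ≤ D ∧ (∀ w, v <:+ w → w <:+ p → g w < f w) ∧ park D g p < park D f p := by
  obtain ⟨m, hm⟩ : ∃ m, D = v.length + m := Nat.exists_eq_add_of_le hv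
  induction m generalizing v with
  | zero =>
    refine ⟨v, List.suffix_rfl, hv, fun w h1 h2 => ?_, ?_⟩
    · rwa [← h1.eq_of_length (le_antisymm h1.length_le h2.length_le)]
    · have : ¬ v.length < D := by omega
      simpa [park, this] using h
  | succ m ih =>
    by_cases hp : park D g v < park D f v
    · refine ⟨v, List.suffix_rfl, hv, fun w h1 h2 => ?_, hp⟩
      rwa [← h1.eq_of_length (le_antisymm h1.length_le h2.length_le)]
    · have hlt : v.length < D := by omega
      simp only [park, hlt, if_true, not_lt] at hp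
      have hs : ∑ c, g (c :: v) < ∑ c, f (c :: v) := by linarith
      obtain ⟨c, -, hc⟩ := Finset.exists_lt_of_sum_lt hs
      obtain ⟨p, h1, h2, h3, h4⟩ := ih (v := c :: v) (by simp; omega) hc (by simp; omega)
      refine ⟨p, (List.suffix_cons c v).trans h1, h2, fun w hw hw' => ?_, h4⟩
      by_cases e : w = v
      · rwa [e]
      · exact h3 w (nodesb_child hw hw' h1 e) hw'

/-- an excess below `u` outside the child `c :: u` -/
theorem descend_off (f g : List Λ → ℝ) {u : List Λ} {c : Λ} (hu : u.length < D)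
    (h : g u - g (c :: u) < f u - f (c :: u)) :
    ∃ p, u <:+ p ∧ ¬ (c :: u) <:+ p ∧ p.length ≤ D ∧ (∀ w, u <:+ w → w ≠ u → w <:+ p → g w < f w) ∧
      park D g p < park D f p := by
  by_cases hp : park D g u < park D f u
  · refine ⟨u, List.suffix_rfl, fun h => ?_, hu.le, fun w h1 h2 h3 => ?_, hp⟩
    · have := h.length_le
      simp at this
    · exact absurd (h1.eq_of_length (le_antisymm h1.length_le h3.length_le)).symm h2
  · simp only [park, hu, if_true, not_lt] at hp
    rw [← Finset.add_sum_erase _ _ (Finset.mem_univ c),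
      ← Finset.add_sum_erase _ (fun c => g (c :: u)) (Finset.mem_univ c)] at hp
    have hs : ∑ c' ∈ univ.erase c, g (c' :: u) < ∑ c' ∈ univ.erase c, f (c' :: u) := by linarith
    obtain ⟨c', hc', hc⟩ := Finset.exists_lt_of_sum_lt hs
    obtain ⟨p, h1, h2, h3, h4⟩ := descend (D := D) f g (v := c' :: u) (by simp; omega) hc
    refine ⟨p, (List.suffix_cons c' u).trans h1, fun h => ?_, h2, fun w hw e hw' => ?_, h4⟩
    · exact Finset.ne_of_mem_erase hc' (nodesb_uniq h1 h)
    · exact h3 w (nodesb_child hw hw' h1 e) hw'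

theorem nodesb_split (w v : List Λ) (x : ℝ) :
    (if w <:+ v then x else 0) = (if v = w then x else 0) + ∑ c, if (c :: w) <:+ v then x else 0 := by
  by_cases e : v = w
  · subst e
    rw [if_pos List.suffix_rfl, if_pos rfl, Finset.sum_eq_zero, add_zero]
    intro c _
    refine if_neg fun h => ?_
    have := h.length_le
    simp at this
  · rw [if_neg e, zero_add]
    by_cases h : w <:+ v
    · obtain ⟨t, rfl⟩ := h
      rcases t.eq_nil_or_concat with rfl | ⟨t', c, rfl⟩
      · simp at e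
      · have hc : (c :: w) <:+ t'.concat c ++ w := ⟨t', by simp⟩
        rw [if_pos (List.suffix_append _ _), Finset.sum_eq_single c, if_pos hc]
        · intro c' _ hc'
          exact if_neg fun h => hc' (nodesb_uniq h hc)
        · simp
    · rw [if_neg h, Finset.sum_eq_zero]
      intro c _
      exact if_neg fun h' => h ((List.suffix_cons c w).trans h')

/-- parked mass over a family of nodes.  Downward induction on `w`: the sum over the `v ∈ 𝒩` below `w` is at most
`n w`, and at most `6 ∑ ξ, π ξ * #{i | ∃ v ∈ 𝒩, w <:+ v ∧ v <:+ b ξ i}` (first bound if `w ∈ 𝒩`, else sum over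
the children). -/
theorem park_sum_le {Ξ : Type*} [Fintype Ξ] {π : Ξ → ℝ} (hπ : ∀ ξ, 0 ≤ π ξ) (b : Ξ → Fin k → List Λ)
    {n : List Λ → ℝ} (h0 : ∀ v, 0 ≤ n v) (hc : ∀ v, ∑ c, n (c :: v) ≤ n v)
    (h6 : ∀ v, n v ≤ 6 * ∑ ξ, π ξ * cnt (b ξ) v) {𝒩 : Finset (List Λ)} (h𝒩 : ∀ v ∈ 𝒩, v.length ≤ D) :
    ∑ v ∈ 𝒩, park D n v ≤ 6 * ∑ ξ, π ξ * ∑ i, if ∃ v ∈ 𝒩, v <:+ b ξ i then 1 else 0 := by
  classical
  set S : List Λ → ℝ := fun w => ∑ v ∈ 𝒩, if w <:+ v then park D n v else 0 with hS
  set T : List Λ → ℝ := fun w =>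
    6 * ∑ ξ, π ξ * ∑ i, if ∃ v ∈ 𝒩, w <:+ v ∧ v <:+ b ξ i then 1 else 0 with hT
  have hT0 : ∀ w, 0 ≤ T w := fun w => mul_nonneg (by norm_num) (Finset.sum_nonneg fun ξ _ =>
    mul_nonneg (hπ ξ) (Finset.sum_nonneg fun i _ => by split_ifs <;> norm_num))
  have hsplit : ∀ w, S w = (if w ∈ 𝒩 then park D n w else 0) + ∑ c, S (c :: w) := by
    intro w
    simp only [hS]
    rw [Finset.sum_comm, ← Finset.sum_ite_eq' 𝒩 w (park D n), ← Finset.sum_add_distrib]
    exact Finset.sum_congr rfl fun v _ => nodesb_split w v _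
  have hzero : ∀ w : List Λ, D < w.length → S w = 0 := fun w hw =>
    Finset.sum_eq_zero fun v hv => if_neg fun h => by
      have := h.length_le; have := h𝒩 v hv; omega
  have hTc : ∀ w, ∑ c, T (c :: w) ≤ T w := by
    intro w
    simp only [hT, ← Finset.mul_sum]
    refine mul_le_mul_of_nonneg_left ?_ (by norm_num)
    rw [Finset.sum_comm]
    refine Finset.sum_le_sum fun ξ _ => ?_
    rw [← Finset.mul_sum]
    refine mul_le_mul_of_nonneg_left ?_ (hπ ξ)
    rw [Finset.sum_comm]
    refine Finset.sum_le_sum fun i _ => ?_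
    by_cases h : ∃ c, ∃ v ∈ 𝒩, (c :: w) <:+ v ∧ v <:+ b ξ i
    · obtain ⟨c, v, hv, h1, h2⟩ := h
      rw [if_pos ⟨v, hv, (List.suffix_cons c w).trans h1, h2⟩, Finset.sum_eq_single c]
      · split_ifs <;> norm_num
      · intro c' _ hc'
        refine if_neg ?_
        rintro ⟨v', _, h1', h2'⟩
        exact hc' (nodesb_uniq (h1'.trans h2') (h1.trans h2))
      · simp
    · rw [Finset.sum_eq_zero fun c _ => if_neg fun h' => h ⟨c, h'⟩]
      split_ifs <;> norm_num
  have key : ∀ m (w : List Λ), D + 1 ≤ w.length + m → S w ≤ n w ∧ S w ≤ T w := by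
    intro m
    induction m with
    | zero => intro w hw; rw [hzero w (by omega)]; exact ⟨h0 w, hT0 w⟩
    | succ m ih =>
      intro w hw
      have ih' : ∀ c, S (c :: w) ≤ n (c :: w) ∧ S (c :: w) ≤ T (c :: w) :=
        fun c => ih _ (by simp; omega)
      have h1 : ∑ c, S (c :: w) ≤ ∑ c, n (c :: w) := Finset.sum_le_sum fun c _ => (ih' c).1
      have h2 : ∑ c, S (c :: w) ≤ ∑ c, T (c :: w) := Finset.sum_le_sum fun c _ => (ih' c).2
      by_cases hN : w ∈ 𝒩
      · have h3 : S w ≤ n w := by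
          rw [hsplit, if_pos hN, park]
          split_ifs with hl
          · linarith
          · rw [Finset.sum_eq_zero fun c _ => hzero _ (by simp; omega)]; simp
        refine ⟨h3, h3.trans ((h6 w).trans ?_)⟩
        refine mul_le_mul_of_nonneg_left (Finset.sum_le_sum fun ξ _ =>
          mul_le_mul_of_nonneg_left ?_ (hπ ξ)) (by norm_num)
        rw [cnt_eq_sum]
        refine Finset.sum_le_sum fun i _ => ?_
        by_cases h : w <:+ b ξ i
        · rw [if_pos h, if_pos ⟨w, hN, List.suffix_rfl, h⟩]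
        · rw [if_neg h]; split_ifs <;> norm_num
      · rw [hsplit, if_neg hN, zero_add]
        exact ⟨h1.trans (hc w), h2.trans (hTc w)⟩
  have := (key (D + 1) [] (by simp)).2
  simpa [hS, hT] using this

end Crest.Agent.R314
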