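import Crest.Agent.R314.Sup

/-!
# Row 314: page functions of the star algorithm

`Gf s = s u²` (`u = uu s`), `Gd = Gf'`, `bf = (1+s) u² + (2/T) s² u²`.  For a page with true value `a`, estimate `z`
and slope `g ∈ [3,4]` put `ζ = g z`, `s = g a`, `e = s - ζ`, `u = uu ζ`.  `Zs` says `|e| ≤ ζ u / T`.
If `u = 0` then `e = 0` and everything vanishes.  If `u > 0`: `ζ < 2`, `uu s = u - e/2`,
`bf ζ - uu s ² - (Gf ζ + Gd ζ e) = (2/T) ζ² u² + (3/2) ζ u e - e²/4 ∈ [0, 7 ζ u² / T]`,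
`ζ u² (1 - 2/T) ≤ Gf ζ + Gd ζ e ≤ ζ u² (1 + 2/T)`, `u ≤ 1.01 (1 - a)`.
`|Gd| ≤ 1`, `Gd` is `2`-Lipschitz, `bf' = ζ u (-3/2 + (2/T)(2u - ζ))` on `[0,2]`, `|bf'| ≤ 2 ζ u ≤ 1`.
-/

set_option autoImplicit false
set_option linter.unusedSectionVars false
set_option linter.unusedVariables false

namespace Crest.Agent.R314

open Finset Function

noncomputable def Gf (s : ℝ) : ℝ := s * uu s ^ 2
noncomputable def Gd (s : ℝ) : ℝ := uu s ^ 2 - s * uu s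
noncomputable def bf (T s : ℝ) : ℝ := (1 + s) * uu s ^ 2 + 2 / T * s ^ 2 * uu s ^ 2

variable {k : ℕ}

/-- Brier score, affine in `x` -/
def br (x z : Fin k → ℝ) : ℝ := ∑ i, (x i * (1 - 2 * z i) + z i ^ 2)
def sqd (x z : Fin k → ℝ) : ℝ := ∑ i, (x i - z i) ^ 2
/-- linearised capacity -/
noncomputable def RtP (g : ℝ) (z x : Fin k → ℝ) : ℝ :=
  ∑ i, (Gf (g * z i) + Gd (g * z i) * (g * x i - g * z i))
noncomputable def BP (T g : ℝ) (z : Fin k → ℝ) : ℝ := ∑ i, bf T (g * z i)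
def In01 (z : Fin k → ℝ) : Prop := ∀ i, 0 ≤ z i ∧ z i ≤ 1
def ZsP (T g : ℝ) (z a : Fin k → ℝ) : Prop := ∀ i, |g * a i - g * z i| ≤ g * z i * uu (g * z i) / T

variable {T g g' : ℝ} {z a w : Fin k → ℝ}

/-! ### part a -/

theorem pagea_uu_nonneg (s : ℝ) : 0 ≤ uu s := le_max_right _ _

theorem pagea_uu_anti {s t : ℝ} (h : s ≤ t) : uu t ≤ uu s := max_le_max (by linarith) le_rfl

theorem pagea_key (hT : 10 ^ 5 ≤ T) {ζ s : ℝ} (h0 : 0 ≤ ζ) (h : |s - ζ| ≤ ζ * uu ζ / T) :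
    (bf T ζ = 0 ∧ Gf ζ + Gd ζ * (s - ζ) = 0 ∧ uu s = 0) ∨ ∃ u τ δ : ℝ, 0 < u ∧ ζ = 2 - 2 * u ∧ δ = 1 / T ∧
      δ ≤ 1 / 10 ^ 5 ∧ -δ ≤ τ ∧ τ ≤ δ ∧ s = ζ * (1 + τ * u) ∧ uu s = u * (1 - τ * ζ / 2) ∧ uu s = 1 - s / 2 ∧
      bf T ζ = u ^ 2 * (1 + ζ + 2 * δ * ζ ^ 2) ∧ Gf ζ + Gd ζ * (s - ζ) = ζ * u ^ 2 * (1 + τ * (u - ζ)) := by
  have hT0 : 0 < T := lt_of_lt_of_le (by norm_num) hT
  rcases le_or_gt (1 - ζ / 2) 0 with h1 | h1
  · have e : uu ζ = 0 := max_eq_right h1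
    rw [e, mul_zero, zero_div, abs_nonpos_iff, sub_eq_zero] at h
    exact Or.inl (by simp [bf, Gf, Gd, h, e])
  have e : uu ζ = 1 - ζ / 2 := max_eq_left h1.le
  obtain ⟨τ, hτ, hs⟩ : ∃ τ, |τ| ≤ 1 / T ∧ s = ζ * (1 + τ * (1 - ζ / 2)) := by
    rw [e] at h
    rcases h0.eq_or_lt with rfl | h2
    · exact ⟨0, by simpa using hT0.le, by simpa using h⟩
    · refine ⟨(s - ζ) / (ζ * (1 - ζ / 2)), ?_, by generalize 1 - ζ / 2 = u at h1; field_simp; ring⟩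
      rwa [abs_div, abs_of_pos (mul_pos h2 h1), div_le_iff₀ (mul_pos h2 h1), one_div, ← div_eq_inv_mul]
  have hδ : 1 / T ≤ 1 / 10 ^ 5 := one_div_le_one_div_of_le (by norm_num) hT
  have e1 : (1 - ζ / 2) * (1 - τ * ζ / 2) = 1 - s / 2 := by rw [hs]; ring
  have e2 : uu s = 1 - s / 2 := max_eq_left (e1 ▸ mul_nonneg h1.le (by nlinarith [(abs_le.1 hτ).2]))
  refine Or.inr ⟨1 - ζ / 2, τ, 1 / T, h1, by ring, rfl, hδ, (abs_le.1 hτ).1, (abs_le.1 hτ).2, hs, e2.trans e1.symm, e2,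
    by rw [bf, e]; ring, by rw [Gf, Gd, e, hs]; ring⟩

theorem RtP_bd (hT : 10 ^ 5 ≤ T) (h3 : 3 ≤ g) (h4 : g ≤ 4) (hz : In01 z) (ha : In01 a) (h : ZsP T g z a) :
    0 ≤ RtP g z a ∧ RtP g z a ≤ 3 * Lf 2 a ∧ BP T g z ≤ 4 * Lf 2 a := by
  have key : ∀ i, 0 ≤ Gf (g * z i) + Gd (g * z i) * (g * a i - g * z i) ∧
      Gf (g * z i) + Gd (g * z i) * (g * a i - g * z i) ≤ 3 * uu (2 * a i) ^ 2 ∧
      bf T (g * z i) ≤ 4 * uu (2 * a i) ^ 2 := fun i => by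
    have h0 : 0 ≤ g * z i := mul_nonneg (by linarith) (hz i).1
    rcases pagea_key hT h0 (h i) with ⟨e1, e2, -⟩ | ⟨u, τ, δ, hu, hζ, -, hδ, h1, h2, -, e0, -, e1, e2⟩
    · rw [e1, e2]
      exact ⟨le_rfl, by positivity, by positivity⟩
    have a1 : u * (99 / 100) ≤ uu (2 * a i) := by
      refine le_trans ?_ (pagea_uu_anti (mul_le_mul_of_nonneg_right (by linarith : 2 ≤ g) (ha i).1))
      rw [e0]
      exact mul_le_mul_of_nonneg_left (by nlinarith) hu.le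
    have a2 := pow_le_pow_left₀ (by positivity) a1 2
    rw [e1, e2]
    generalize g * z i = ζ at *
    have a3 : ζ * (1 + τ * (u - ζ)) ≤ 2 * (11 / 10) := mul_le_mul (by linarith) (by nlinarith) (by nlinarith) two_pos.le
    have a4 : 1 + ζ + 2 * δ * ζ ^ 2 ≤ 31 / 10 := by nlinarith [mul_le_mul hδ (show ζ ^ 2 ≤ 4 by nlinarith) (sq_nonneg _) (by norm_num)]
    exact ⟨mul_nonneg (by positivity) (by nlinarith), by nlinarith [mul_le_mul_of_nonneg_left a3 (sq_nonneg u)],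
      by nlinarith [mul_le_mul_of_nonneg_left a4 (sq_nonneg u)]⟩
  simp only [RtP, BP, Lf, mul_sum]
  exact ⟨sum_nonneg fun i _ => (key i).1, sum_le_sum fun i _ => (key i).2.1, sum_le_sum fun i _ => (key i).2.2⟩

theorem BP_nonneg (hT : 10 ^ 5 ≤ T) (h3 : 3 ≤ g) (hz : In01 z) : 0 ≤ BP T g z := by
  refine sum_nonneg fun i _ => ?_
  have h0 : 0 ≤ g * z i := mul_nonneg (by linarith) (hz i).1
  have hT0 : 0 < T := lt_of_lt_of_le (by norm_num) hT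
  unfold bf
  positivity

theorem W_bd (hT : 10 ^ 5 ≤ T) (h3 : 3 ≤ g) (h4 : g ≤ 4) (hz : In01 z) (ha : In01 a) (h : ZsP T g z a) :
    RtP g z a ≤ BP T g z - Lf g a ∧ BP T g z - Lf g a ≤ (1 + 9 / T) * RtP g z a := by
  have key : ∀ i, Gf (g * z i) + Gd (g * z i) * (g * a i - g * z i) ≤ bf T (g * z i) - uu (g * a i) ^ 2 ∧
      bf T (g * z i) - uu (g * a i) ^ 2 ≤ (1 + 9 / T) * (Gf (g * z i) + Gd (g * z i) * (g * a i - g * z i)) :=
    fun i => by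
    have h0 : 0 ≤ g * z i := mul_nonneg (by linarith) (hz i).1
    rcases pagea_key hT h0 (h i) with ⟨e1, e2, e3⟩ | ⟨u, τ, δ, hu, hζ, hδT, hδ, h1, h2, -, e0, -, e1, e2⟩
    · simp [e1, e2, e3]
    rw [e0, e1, e2, show 9 / T = 9 * δ by rw [hδT]; ring]
    generalize g * z i = ζ at *
    have a0 : u ^ 2 * (1 + ζ + 2 * δ * ζ ^ 2) - (u * (1 - τ * ζ / 2)) ^ 2 - ζ * u ^ 2 * (1 + τ * (u - ζ)) =
        ζ * u ^ 2 * (ζ * (2 * δ + 3 / 2 * τ - τ ^ 2 / 4)) := by rw [hζ]; ring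
    have a1 : 0 ≤ 2 * δ + 3 / 2 * τ - τ ^ 2 / 4 := by nlinarith
    have a2 : ζ * (2 * δ + 3 / 2 * τ - τ ^ 2 / 4) ≤ 2 * (7 / 2 * δ) :=
      mul_le_mul (by linarith) (by nlinarith) a1 two_pos.le
    have a3 : δ * (9 / 10) ≤ δ * (1 + τ * (u - ζ)) := mul_le_mul_of_nonneg_left (by nlinarith) (by linarith)
    have a4 : 0 ≤ ζ * u ^ 2 := by positivity
    have a5 : ζ * (2 * δ + 3 / 2 * τ - τ ^ 2 / 4) ≤ 9 * δ * (1 + τ * (u - ζ)) := by linarith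
    exact ⟨by linarith [mul_nonneg a4 (mul_nonneg h0 a1)], by linarith [mul_le_mul_of_nonneg_left a5 a4]⟩
  simp only [RtP, BP, Lf, mul_sum, ← sum_sub_distrib]
  exact ⟨sum_le_sum fun i _ => (key i).1, sum_le_sum fun i _ => (key i).2⟩

/-- page-wise `uu (γ a)² - uu s² ≥ 8 θ a uu s ≥ 2 θ s (uu s)²` and `s (uu s)² ≥ ζ u² (1 - 1/T)³` -/
theorem slack_bd (hT : 10 ^ 5 ≤ T) {γ θ : ℝ} (hγ : 3 ≤ γ) (hθ : 0 ≤ θ) (h4 : γ + 8 * θ ≤ 4) (hz : In01 z)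
    (ha : In01 a) (h : ZsP T (γ + 8 * θ) z a) :
    19 / 10 * θ * RtP (γ + 8 * θ) z a ≤ Lf γ a - Lf (γ + 8 * θ) a := by
  simp only [RtP, Lf, mul_sum, ← sum_sub_distrib]
  refine sum_le_sum fun i _ => ?_
  have h0 : 0 ≤ (γ + 8 * θ) * z i := mul_nonneg (by linarith) (hz i).1
  rcases pagea_key hT h0 (h i) with ⟨-, e2, e3⟩ | ⟨u, τ, δ, hu, hζ, -, hδ, h1, h2, hs, e0, e3, -, e2⟩
  · simp [e2, e3, sq_nonneg]
  have a0 := pagea_uu_nonneg ((γ + 8 * θ) * a i)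
  have a1 : uu ((γ + 8 * θ) * a i) + 4 * θ * a i ≤ uu (γ * a i) := le_max_of_le_left (by rw [e3]; linarith)
  have a2 := pow_le_pow_left₀ (add_nonneg a0 (mul_nonneg (by positivity) (ha i).1)) a1 2
  have a3 : (γ + 8 * θ) * a i ≤ 4 * a i := mul_le_mul_of_nonneg_right h4 (ha i).1
  rw [e2]
  generalize (γ + 8 * θ) * z i = ζ at *
  have a4 : ζ * (99 / 100) ≤ 4 * a i :=
    (mul_le_mul_of_nonneg_left (by nlinarith) h0).trans (hs.symm.trans_le a3)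
  have a5 : u * (99 / 100) ≤ uu ((γ + 8 * θ) * a i) := by
    rw [e0]
    exact mul_le_mul_of_nonneg_left (by nlinarith) hu.le
  have a6 := mul_le_mul_of_nonneg_left (mul_le_mul a4 a5 (by positivity) (by linarith [(ha i).1])) hθ
  have a7 : u * (1 + τ * (u - ζ)) ≤ 1 * (101 / 100) :=
    mul_le_mul (by linarith) (by nlinarith) (by nlinarith) one_pos.le
  nlinarith [mul_le_mul_of_nonneg_left a7 (show 0 ≤ θ * ζ * u by positivity), sq_nonneg (θ * a i),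
    show 0 ≤ θ * ζ * u by positivity]

/-- a small child: `1 - a i ≤ 1.1 √(1/11) < 1/3` -/
theorem inactive_bd (hT : 10 ^ 5 ≤ T) (h3 : 3 ≤ g) (h4 : g ≤ 4) (hz : In01 z) (ha : In01 a) (hw : In01 w)
    (h : ZsP T g z a) (hm : Lf 2 w < 1 / 11) (hs : sqd a w ≤ Lf 2 w / 100) :
    BP T g z = 0 ∧ RtP g z a = 0 ∧ Lf g a = 0 := by
  have key : ∀ i, bf T (g * z i) = 0 ∧ Gf (g * z i) + Gd (g * z i) * (g * a i - g * z i) = 0 ∧ uu (g * a i) = 0 :=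
    fun i => by
    have a1 : (1 - w i) ^ 2 ≤ Lf 2 w := by
      rw [Lf_two fun i => (hw i).2]
      exact single_le_sum (f := fun i => (1 - w i) ^ 2) (fun _ _ => sq_nonneg _) (mem_univ i)
    have a2 : (a i - w i) ^ 2 ≤ sqd a w :=
      single_le_sum (f := fun i => (a i - w i) ^ 2) (fun _ _ => sq_nonneg _) (mem_univ i)
    have a3 : 2 / 3 < a i := by nlinarith [sq_nonneg ((1 - w i) + 10 * (a i - w i))]
    refine (pagea_key hT (mul_nonneg (by linarith) (hz i).1) (h i)).resolve_right ?_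
    rintro ⟨u, τ, δ, -, -, -, -, -, -, -, -, e3, -, -⟩
    nlinarith [pagea_uu_nonneg (g * a i)]
  exact ⟨sum_eq_zero fun i _ => (key i).1, sum_eq_zero fun i _ => (key i).2.1,
    sum_eq_zero fun i _ => by rw [(key i).2.2]; ring⟩

/-! ### part b -/

theorem pageb_clamp (s : ℝ) :
    uu s = 1 - min s 2 / 2 ∧ s * uu s = min s 2 * (1 - min s 2 / 2) := by
  unfold uu
  rcases le_total s 2 with h | h
  · rw [min_eq_left h, max_eq_left (by linarith)]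
    exact ⟨rfl, rfl⟩
  · rw [min_eq_right h, max_eq_right (by linarith)]
    norm_num

theorem pageb_mul_le {q L d e : ℝ} (h1 : -L ≤ q) (h2 : q ≤ L) (h : |d| ≤ |e|) : |d * q| ≤ L * |e| := by
  rw [abs_mul, mul_comm]
  exact mul_le_mul (abs_le.2 ⟨h1, h2⟩) h (abs_nonneg _) (by linarith)

theorem pageb_Gd {s : ℝ} (hs : 0 ≤ s) : |Gd s| ≤ 1 := by
  obtain ⟨h1, h2⟩ := pageb_clamp s
  have t0 : 0 ≤ min s 2 := le_min hs (by norm_num)
  have t2 : min s 2 ≤ 2 := min_le_right _ _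
  unfold Gd
  rw [h2, h1]
  generalize min s 2 = t at *
  exact abs_le.2 ⟨by nlinarith [sq_nonneg (t - 4 / 3)], by nlinarith⟩

theorem pageb_lip (hT : 10 ^ 5 ≤ T) {s s' : ℝ} (hs : 0 ≤ s) (hs' : 0 ≤ s') :
    |Gf s' - Gf s| ≤ 3 * |s' - s| ∧ |Gd s' - Gd s| ≤ 2 * |s' - s| ∧
      |bf T s' - bf T s| ≤ 1 * |s' - s| := by
  obtain ⟨h1, h2⟩ := pageb_clamp s
  obtain ⟨h1', h2'⟩ := pageb_clamp s'
  have t0 : 0 ≤ min s 2 := le_min hs (by norm_num)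
  have t2 : min s 2 ≤ 2 := min_le_right _ _
  have t0' : 0 ≤ min s' 2 := le_min hs' (by norm_num)
  have t2' : min s' 2 ≤ 2 := min_le_right _ _
  have hm : |min s' 2 - min s 2| ≤ |s' - s| := by
    have := abs_min_sub_min_le_max s' 2 s 2
    rwa [sub_self, abs_zero, max_eq_left (abs_nonneg _)] at this
  have eG : ∀ r, Gf r = (r * uu r) * uu r := fun r => by unfold Gf; ring
  have eb : ∀ r, bf T r = uu r ^ 2 + (r * uu r) * uu r + 2 / T * (r * uu r) ^ 2 := fun r => by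
    unfold bf; ring
  have hc0 : 0 ≤ 2 / T := by
    have : 0 < T := lt_of_lt_of_le (by norm_num) hT
    positivity
  have hc1 : 2 / T ≤ 1 / 4 := by
    rw [div_le_iff₀ (lt_of_lt_of_le (by norm_num) hT)]
    linarith
  rw [eG, eG, eb, eb]
  unfold Gd
  rw [h2, h2', h1, h1']
  generalize min s 2 = t at *
  generalize min s' 2 = t' at *
  generalize 2 / T = c at *
  have p1 : t * t ≤ 2 * t := by nlinarith
  have p2 : t' * t' ≤ 2 * t' := by nlinarith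
  have p3 : t * t' ≤ t + t' := by nlinarith
  have p4 : 0 ≤ t * t' := mul_nonneg t0 t0'
  refine ⟨?_, ?_, ?_⟩
  · rw [show t' * (1 - t' / 2) * (1 - t' / 2) - t * (1 - t / 2) * (1 - t / 2) =
      (t' - t) * (1 - (t + t') + (t * t + t * t' + t' * t') / 4) by ring]
    exact pageb_mul_le (by nlinarith) (by linarith) hm
  · rw [show (1 - t' / 2) ^ 2 - t' * (1 - t' / 2) - ((1 - t / 2) ^ 2 - t * (1 - t / 2)) =
      (t' - t) * (-2 + 3 * (t + t') / 4) by ring]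
    exact pageb_mul_le (by linarith) (by linarith) hm
  · rw [show (1 - t' / 2) ^ 2 + t' * (1 - t' / 2) * (1 - t' / 2) + c * (t' * (1 - t' / 2)) ^ 2 -
        ((1 - t / 2) ^ 2 + t * (1 - t / 2) * (1 - t / 2) + c * (t * (1 - t / 2)) ^ 2) =
      (t' - t) * (-3 * (t + t') / 4 + (t * t + t * t' + t' * t') / 4 +
        c * ((t * (1 - t / 2) + t' * (1 - t' / 2)) * (1 - (t + t') / 2))) by ring]
    have q1 : |t * (1 - t / 2) + t' * (1 - t' / 2)| ≤ |1| := by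
      rw [abs_one]
      exact abs_le.2 ⟨by nlinarith, by nlinarith [sq_nonneg (t - 1), sq_nonneg (t' - 1)]⟩
    have q2 := pageb_mul_le (q := 1 - (t + t') / 2) (L := 1) (by linarith) (by linarith) q1
    rw [abs_one, mul_one] at q2
    obtain ⟨q3, q4⟩ := abs_le.1 q2
    generalize (t * (1 - t / 2) + t' * (1 - t' / 2)) * (1 - (t + t') / 2) = m at *
    have q5 : -(1 / 4) ≤ c * m := by nlinarith
    have q6 : c * m ≤ 1 / 4 := by nlinarith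
    exact pageb_mul_le (by nlinarith [sq_nonneg (t + t' - 2), sq_nonneg (t - t')]) (by linarith) hm

theorem pageb_slope (hT : 10 ^ 5 ≤ T) (h3 : 3 ≤ g) (h4 : g ≤ 4) (h3' : 3 ≤ g') (h4' : g' ≤ 4) {z a : ℝ}
    (hz : 0 ≤ z ∧ z ≤ 1) (ha : 0 ≤ a ∧ a ≤ 1) (h : |g * a - g * z| ≤ g * z * uu (g * z) / T) :
    |Gf (g' * z) + Gd (g' * z) * (g' * a - g' * z) - (Gf (g * z) + Gd (g * z) * (g * a - g * z))| ≤
      30 * (1 - a) ^ 2 * |g' - g| ∧ |bf T (g' * z) - bf T (g * z)| ≤ 10 * (1 - a) ^ 2 * |g' - g| := by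
  rcases le_or_gt (2 / 3) z with h1 | h1
  · have e1 : uu (g * z) = 0 := max_eq_right (by nlinarith)
    have e2 : uu (g' * z) = 0 := max_eq_right (by nlinarith)
    simp only [Gf, Gd, bf, e1, e2]
    have p1 : (0 : ℝ) ≤ 30 * (1 - a) ^ 2 * |g' - g| := by positivity
    have p2 : (0 : ℝ) ≤ 10 * (1 - a) ^ 2 * |g' - g| := by positivity
    exact ⟨le_trans (le_of_eq (by simp)) p1, le_trans (le_of_eq (by simp)) p2⟩
  have hT0 : 0 < T := lt_of_lt_of_le (by norm_num) hT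
  have hs : 0 ≤ g * z := mul_nonneg (by linarith) hz.1
  have hs' : 0 ≤ g' * z := mul_nonneg (by linarith) hz.1
  have hu : uu (g * z) ≤ 1 := max_le (by linarith) zero_le_one
  have hd : |a - z| ≤ 1 / 1000 := by
    rw [← mul_sub, abs_mul, abs_of_nonneg (by linarith : 0 ≤ g), le_div_iff₀ hT0] at h
    have h5 : g * z * uu (g * z) ≤ g * 1 :=
      (mul_le_of_le_one_right hs hu).trans (mul_le_mul_of_nonneg_left hz.2 (by linarith))
    have h6 : |a - z| * T ≤ 1 := le_of_mul_le_mul_left (by linarith) (by linarith : 0 < g)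
    nlinarith [abs_nonneg (a - z)]
  have ha1 : 1 / 10 ≤ (1 - a) ^ 2 := by
    have := (abs_le.1 hd).2
    nlinarith
  obtain ⟨l1, l2, l3⟩ := pageb_lip hT hs hs'
  have l4 := pageb_Gd hs
  have e : |g' * z - g * z| ≤ 2 / 3 * |g' - g| := by
    rw [← sub_mul, abs_mul, abs_of_nonneg hz.1, mul_comm]
    exact mul_le_mul_of_nonneg_right h1.le (abs_nonneg _)
  have hg := abs_nonneg (g' - g)
  have k1 := mul_le_mul_of_nonneg_right ha1 hg
  refine ⟨?_, by linarith⟩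
  rw [show Gf (g' * z) + Gd (g' * z) * (g' * a - g' * z) - (Gf (g * z) + Gd (g * z) * (g * a - g * z)) =
    Gf (g' * z) - Gf (g * z) + ((Gd (g' * z) - Gd (g * z)) * (g' * (a - z)) +
      (g' - g) * (Gd (g * z) * (a - z))) by ring]
  have m1 : |g' * (a - z)| ≤ 1 / 2 := by
    rw [abs_mul, abs_of_nonneg (by linarith : 0 ≤ g')]
    nlinarith [abs_nonneg (a - z)]
  have m2 : |Gd (g * z) * (a - z)| ≤ 1 / 4 := by
    rw [abs_mul]
    nlinarith [abs_nonneg (a - z), abs_nonneg (Gd (g * z))]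
  have m3 := pageb_mul_le (abs_le.1 m1).1 (abs_le.1 m1).2 (le_refl |Gd (g' * z) - Gd (g * z)|)
  have m4 := pageb_mul_le (abs_le.1 m2).1 (abs_le.1 m2).2 (le_refl |g' - g|)
  have m5 := abs_add_le (Gf (g' * z) - Gf (g * z)) ((Gd (g' * z) - Gd (g * z)) * (g' * (a - z)) +
      (g' - g) * (Gd (g * z) * (a - z)))
  have m6 := abs_add_le ((Gd (g' * z) - Gd (g * z)) * (g' * (a - z))) ((g' - g) * (Gd (g * z) * (a - z)))
  linarith

/-- only pages with `z i < 2/3` matter, and they have `(1 - a i)² ≥ 1/10` -/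
theorem slope_lip (hT : 10 ^ 5 ≤ T) (h3 : 3 ≤ g) (h4 : g ≤ 4) (h3' : 3 ≤ g') (h4' : g' ≤ 4) (hz : In01 z)
    (ha : In01 a) (h : ZsP T g z a) :
    |RtP g' z a - RtP g z a| ≤ 30 * Lf 2 a * |g' - g| ∧ |BP T g' z - BP T g z| ≤ 10 * Lf 2 a * |g' - g| := by
  have h := fun i => pageb_slope hT h3 h4 h3' h4' (hz i) (ha i) (h i)
  rw [Lf_two fun i => (ha i).2]
  unfold RtP BP
  rw [← sum_sub_distrib, ← sum_sub_distrib, mul_sum, mul_sum, sum_mul, sum_mul]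
  exact ⟨(abs_sum_le_sum_abs _ _).trans (sum_le_sum fun i _ => (h i).1),
    (abs_sum_le_sum_abs _ _).trans (sum_le_sum fun i _ => (h i).2)⟩

theorem br_eq (a w : Fin k → ℝ) : br a w = br a a + sqd a w := by
  unfold br sqd
  rw [← sum_add_distrib]
  exact sum_congr rfl fun i _ => by ring

theorem br_nonneg (ha : In01 a) (w : Fin k → ℝ) : 0 ≤ br a w := by
  exact sum_nonneg fun i _ => by nlinarith [sq_nonneg (a i - w i), mul_nonneg (ha i).1 (sub_nonneg.2 (ha i).2)]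

theorem Lf_le_of_sqd (ha : In01 a) (hw : In01 w) : Lf 2 a ≤ 2 * Lf 2 w + 2 * sqd a w := by
  rw [Lf_two fun i => (ha i).2, Lf_two fun i => (hw i).2]
  unfold sqd
  rw [mul_sum, mul_sum, ← sum_add_distrib]
  exact sum_le_sum fun i _ => by nlinarith [sq_nonneg (1 - w i + (a i - w i))]

/-- Minkowski, in the form `(x + y)² ≤ (1 + ε) x² + (1 + 1/ε) y²` with `ε = 1/10`, resp. `1/9` -/
theorem Lf_track {ι : Type*} (s : Finset ι) {a w : ι → Fin k → ℝ} (ha : ∀ c, In01 (a c)) (hw : ∀ c, In01 (w c))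
    (h : ∑ c ∈ s, sqd (a c) (w c) ≤ (∑ c ∈ s, Lf 2 (w c)) / 100) :
    81 / 100 * ∑ c ∈ s, Lf 2 (w c) ≤ ∑ c ∈ s, Lf 2 (a c) ∧
      ∑ c ∈ s, Lf 2 (a c) ≤ 121 / 100 * ∑ c ∈ s, Lf 2 (w c) := by
  have h1 : ∀ c, Lf 2 (w c) ≤ 10 / 9 * Lf 2 (a c) + 10 * sqd (a c) (w c) := fun c => by
    rw [Lf_two fun i => (ha c i).2, Lf_two fun i => (hw c i).2]
    unfold sqd
    rw [mul_sum, mul_sum, ← sum_add_distrib]
    exact sum_le_sum fun i _ => by nlinarith [sq_nonneg ((1 - a c i) - 9 * (a c i - w c i))]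
  have h2 : ∀ c, Lf 2 (a c) ≤ 11 / 10 * Lf 2 (w c) + 11 * sqd (a c) (w c) := fun c => by
    rw [Lf_two fun i => (ha c i).2, Lf_two fun i => (hw c i).2]
    unfold sqd
    rw [mul_sum, mul_sum, ← sum_add_distrib]
    exact sum_le_sum fun i _ => by nlinarith [sq_nonneg ((1 - w c i) + 10 * (a c i - w c i))]
  have h3 := sum_le_sum fun c (_ : c ∈ s) => h1 c
  have h4 := sum_le_sum fun c (_ : c ∈ s) => h2 c
  rw [sum_add_distrib, ← mul_sum, ← mul_sum] at h3 h4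
  constructor <;> linarith

theorem Lf_two_le (ha : In01 a) : Lf 2 a ≤ ∑ i, (1 - a i) := by
  rw [Lf_two fun i => (ha i).2]
  exact sum_le_sum fun i _ => by nlinarith [mul_nonneg (ha i).1 (sub_nonneg.2 (ha i).2)]

/-- dependence on the true pages -/
theorem RtP_lip (h3 : 3 ≤ g) (h4 : g ≤ 4) (hz : In01 z) (x x' : Fin k → ℝ) :
    |RtP g z x' - RtP g z x| ≤ 4 * ∑ i, |x' i - x i| := by
  unfold RtP
  rw [← sum_sub_distrib, mul_sum]
  refine (abs_sum_le_sum_abs _ _).trans (sum_le_sum fun i _ => ?_)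
  obtain ⟨l1, l2⟩ := abs_le.1 (pageb_Gd (mul_nonneg (by linarith : 0 ≤ g) (hz i).1))
  rw [show Gf (g * z i) + Gd (g * z i) * (g * x' i - g * z i) -
    (Gf (g * z i) + Gd (g * z i) * (g * x i - g * z i)) = (x' i - x i) * (g * Gd (g * z i)) by ring]
  exact pageb_mul_le (by nlinarith) (by nlinarith) le_rfl

theorem br_lip (hz : In01 z) (x x' : Fin k → ℝ) : |br x' z - br x z| ≤ ∑ i, |x' i - x i| := by
  unfold br
  rw [← sum_sub_distrib]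
  refine (abs_sum_le_sum_abs _ _).trans (sum_le_sum fun i _ => ?_)
  rw [show x' i * (1 - 2 * z i) + z i ^ 2 - (x i * (1 - 2 * z i) + z i ^ 2) =
    (x' i - x i) * (1 - 2 * z i) by ring, ← one_mul |x' i - x i|]
  exact pageb_mul_le (by linarith [(hz i).2]) (by linarith [(hz i).1]) le_rfl

theorem init_page (hT : 10 ^ 5 ≤ T) (h3 : 3 ≤ g) {x : Fin k → ℝ} (hx : ∀ i, x i = 0 ∨ x i = 1) :
    BP T g x = ∑ i, (1 - x i) ∧ RtP g x x = 0 ∧ br x x = 0 ∧ ZsP T g x x ∧ Lf g x = ∑ i, (1 - x i) ∧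
      Lf 2 x = ∑ i, (1 - x i) := by
  have u0 : uu 0 = 1 := by simp [uu]
  have u1 : uu g = 0 := max_eq_right (by linarith)
  have u2 : uu 2 = 0 := by simp [uu]
  refine ⟨sum_congr rfl fun i _ => ?_, sum_eq_zero fun i _ => ?_, sum_eq_zero fun i _ => ?_, fun i => ?_,
    sum_congr rfl fun i _ => ?_, sum_congr rfl fun i _ => ?_⟩ <;>
    rcases hx i with h | h <;> simp [h, bf, Gf, u0, u1, u2] <;> norm_num

/-! ### part c -/

theorem pc_uu_le {s : ℝ} (h : s ≤ 2) : uu s = 1 - s / 2 := max_eq_left (by linarith)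

theorem pc_uu_ge {s : ℝ} (h : 2 ≤ s) : uu s = 0 := max_eq_right (by linarith)

theorem pc_A {s ζ : ℝ} (hs0 : 0 ≤ s) (hζ0 : 0 ≤ ζ) :
    Gf s - (Gf ζ + Gd ζ * (s - ζ)) ≤ (s - ζ) ^ 2 := by
  unfold Gf Gd
  rcases le_total ζ 2 with hζ | hζ <;> rcases le_total s 2 with hs | hs
  · rw [pc_uu_le hζ, pc_uu_le hs]
    have e : s * (1 - s / 2) ^ 2 - (ζ * (1 - ζ / 2) ^ 2 + ((1 - ζ / 2) ^ 2 - ζ * (1 - ζ / 2)) * (s - ζ)) =
        (s - ζ) ^ 2 * (-1 + ζ / 2 + s / 4) := by ring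
    rw [e]
    nlinarith [sq_nonneg (s - ζ)]
  · rw [pc_uu_le hζ, pc_uu_ge hs]
    have hu : 0 ≤ 1 - ζ / 2 := by linarith
    have he : 0 ≤ s - ζ := by linarith
    have h1 : ζ * (1 - ζ / 2) ≤ s - ζ := by nlinarith
    have h2 : ζ * (1 - ζ / 2) * (s - ζ) ≤ (s - ζ) * (s - ζ) := mul_le_mul_of_nonneg_right h1 he
    have h3 : 0 ≤ ζ * (1 - ζ / 2) ^ 2 := by positivity
    have h4 : 0 ≤ (1 - ζ / 2) ^ 2 * (s - ζ) := by positivity
    nlinarith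
  · rw [pc_uu_ge hζ, pc_uu_le hs]
    have hv : 0 ≤ 1 - s / 2 := by linarith
    have h1 : (1 - s / 2) ^ 2 ≤ ((ζ - s) / 2) ^ 2 := pow_le_pow_left₀ hv (by linarith) 2
    have h2 : s * (1 - s / 2) ^ 2 ≤ 2 * (1 - s / 2) ^ 2 := mul_le_mul_of_nonneg_right hs (sq_nonneg _)
    nlinarith [sq_nonneg (s - ζ)]
  · rw [pc_uu_ge hζ, pc_uu_ge hs]
    nlinarith [sq_nonneg (s - ζ)]

theorem pc_B0 {c s ζ : ℝ} (hc0 : 0 ≤ c) (hc : c ≤ 1 / 4) (hs0 : 0 ≤ s) (hs : s ≤ 2) (hζ0 : 0 ≤ ζ)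
    (hζ : ζ ≤ 2) :
    |((1 + s) * (1 - s / 2) ^ 2 + c * s ^ 2 * (1 - s / 2) ^ 2) -
      ((1 + ζ) * (1 - ζ / 2) ^ 2 + c * ζ ^ 2 * (1 - ζ / 2) ^ 2)| ≤
      |s - ζ| * (2 * (ζ * (1 - ζ / 2)) + |s - ζ|) := by
  have e : ((1 + s) * (1 - s / 2) ^ 2 + c * s ^ 2 * (1 - s / 2) ^ 2) -
      ((1 + ζ) * (1 - ζ / 2) ^ 2 + c * ζ ^ 2 * (1 - ζ / 2) ^ 2) =
      (s - ζ) * ((-3 / 2 + 2 * c * (1 - (s + ζ) / 2)) * (ζ * (1 - ζ / 2)) +
        (-3 / 4 + ζ / 2 + s / 4 + c * (1 - (s + ζ) / 2) ^ 2) * (s - ζ)) := by ring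
  rw [e, abs_mul]
  refine mul_le_mul_of_nonneg_left ((abs_add_le _ _).trans (add_le_add ?_ ?_)) (abs_nonneg _)
  · have hP : 0 ≤ ζ * (1 - ζ / 2) := mul_nonneg hζ0 (by linarith)
    rw [abs_mul, abs_of_nonneg hP]
    refine mul_le_mul_of_nonneg_right (abs_le.2 ⟨?_, ?_⟩) hP <;> nlinarith
  · rw [abs_mul]
    have hm : (1 - (s + ζ) / 2) ^ 2 ≤ 1 := by nlinarith
    have h1 : c * (1 - (s + ζ) / 2) ^ 2 ≤ 1 / 4 := by nlinarith [sq_nonneg (1 - (s + ζ) / 2)]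
    have h2 : 0 ≤ c * (1 - (s + ζ) / 2) ^ 2 := by positivity
    have h3 : |-3 / 4 + ζ / 2 + s / 4 + c * (1 - (s + ζ) / 2) ^ 2| ≤ 1 := abs_le.2 ⟨by linarith, by linarith⟩
    nlinarith [abs_nonneg (s - ζ)]

theorem pc_bf_min (T : ℝ) (s : ℝ) : bf T s =
    (1 + min s 2) * (1 - min s 2 / 2) ^ 2 + 2 / T * min s 2 ^ 2 * (1 - min s 2 / 2) ^ 2 := by
  unfold bf
  rcases le_total s 2 with hs | hs
  · rw [pc_uu_le hs, min_eq_left hs]
  · rw [pc_uu_ge hs, min_eq_right hs]; ring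

theorem pc_B (hT : 10 ^ 5 ≤ T) {s ζ : ℝ} (hs0 : 0 ≤ s) (hζ0 : 0 ≤ ζ) :
    |bf T s - bf T ζ| ≤ |s - ζ| * (2 * (ζ * uu ζ) + |s - ζ|) := by
  have hT0 : 0 < T := by linarith [show (0 : ℝ) < 10 ^ 5 by norm_num]
  have hc : 2 / T ≤ 1 / 4 := by
    rw [div_le_iff₀ hT0]
    linarith [show (10 : ℝ) ^ 5 = 100000 by norm_num]
  have h := pc_B0 (c := 2 / T) (s := min s 2) (ζ := min ζ 2) (by positivity) hc (le_min hs0 (by norm_num))
    (min_le_right _ _) (le_min hζ0 (by norm_num)) (min_le_right _ _)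
  rw [pc_bf_min T s, pc_bf_min T ζ]
  have e : min ζ 2 * (1 - min ζ 2 / 2) = ζ * uu ζ := by
    rcases le_total ζ 2 with hs | hs
    · rw [pc_uu_le hs, min_eq_left hs]
    · rw [pc_uu_ge hs, min_eq_right hs]; ring
  rw [e] at h
  have hm : |min s 2 - min ζ 2| ≤ |s - ζ| := by
    have := abs_min_sub_min_le_max s 2 ζ 2
    simpa using this
  have hP : 0 ≤ ζ * uu ζ := mul_nonneg hζ0 (le_max_right _ _)
  exact h.trans (mul_le_mul hm (by linarith) (by positivity) (abs_nonneg _))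

/-- one page: minimise over `z' ∈ [0,1]` the left side; at a minimiser violating the condition a small
step towards `a` gains `2048 T |a - z'|` from the square, loses at most `160 T |a - z'|` in the first term
and `17 · 4 · 2 ζ u` (+ second order) in the last. -/
theorem page_step (hT : 10 ^ 5 ≤ T) (h3 : 3 ≤ g) (h4 : g ≤ 4) {ψ a z : ℝ} (h0 : 0 ≤ ψ) (h5 : ψ ≤ 5)
    (ha : 0 ≤ a ∧ a ≤ 1) (hz : 0 ≤ z ∧ z ≤ 1) : ∃ z', (0 ≤ z' ∧ z' ≤ 1) ∧
      |g * a - g * z'| ≤ g * z' * uu (g * z') / T ∧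
      T * ψ * (Gf (g * z') + Gd (g * z') * (g * a - g * z')) + 1024 * T * (a * (1 - 2 * z') + z' ^ 2) +
        17 * |bf T (g * z') - bf T (g * z)| ≤
      T * ψ * (Gf (g * z) + Gd (g * z) * (g * a - g * z)) + 1024 * T * (a * (1 - 2 * z) + z ^ 2) := by
  -- either `z' = z` works, or the full step `z' = a` does
  have hT0 : 0 < T := by linarith [show (0 : ℝ) < 10 ^ 5 by norm_num]
  by_cases hc : |g * a - g * z| ≤ g * z * uu (g * z) / T
  · exact ⟨z, hz, hc, by simp⟩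
  push Not at hc
  have hs0 : 0 ≤ g * a := mul_nonneg (by linarith) ha.1
  have hζ0 : 0 ≤ g * z := mul_nonneg (by linarith) hz.1
  refine ⟨a, ha, ?_, ?_⟩
  · rw [sub_self, abs_zero]
    exact div_nonneg (mul_nonneg hs0 (le_max_right _ _)) hT0.le
  rw [div_lt_iff₀ hT0] at hc
  have hA := pc_A hs0 hζ0
  have hB := pc_B hT hs0 hζ0
  have he : (g * a - g * z) ^ 2 ≤ 16 * (a - z) ^ 2 := by
    have : (g * a - g * z) ^ 2 = g ^ 2 * (a - z) ^ 2 := by ring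
    rw [this]
    exact mul_le_mul_of_nonneg_right (by nlinarith) (sq_nonneg _)
  have hB' : |bf T (g * a) - bf T (g * z)| ≤ (2 * T + 1) * (16 * (a - z) ^ 2) := by
    refine hB.trans (le_trans ?_ (mul_le_mul_of_nonneg_left he (by linarith)))
    rw [← sq_abs (g * a - g * z)]
    nlinarith [abs_nonneg (g * a - g * z)]
  have hA' : T * ψ * (Gf (g * a) - (Gf (g * z) + Gd (g * z) * (g * a - g * z))) ≤
      T * 5 * (16 * (a - z) ^ 2) :=
    (mul_le_mul_of_nonneg_left (hA.trans he) (by positivity)).trans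
      (mul_le_mul_of_nonneg_right (mul_le_mul_of_nonneg_left h5 hT0.le) (by positivity))
  have hd : (a - z) ^ 2 ≤ T * (a - z) ^ 2 := by
    nlinarith [sq_nonneg (a - z), show (10 : ℝ) ^ 5 = 100000 by norm_num]
  have hd0 : 0 ≤ T * (a - z) ^ 2 := by positivity
  rw [sub_self, mul_zero, add_zero]
  nlinarith

end Crest.Agent.R314
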