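import Crest.Agent.R314.Val

/-!
# Row 314: policies

`ec` is the recursive form of `expCost`; `opt` the offline optimum.
* `expCost_eq`: prove for all `q p c` that the sum over `j : Fin σ.length → Fin k` of
  `pathProb A q p (σ.zip (ofFn j)) * pathCost c (σ.zip (ofFn j))` is `ec A q p c σ` and that the path
  probabilities sum to one (`Fin.consEquiv`, `List.ofFn_succ`).
* `exists_mix` (Kuhn): with `l = reqs.dropLast.zip past`, `wA = θ * pathProb A [] [] l`,
  `wB = (1-θ) * pathProb B [] [] l`, let `M.prob reqs past i = (wA * A.prob + wB * B.prob) / (wA + wB)`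
  (`A.prob` if `wA + wB = 0`).  Invariant: `(wA + wB) * ec M q p c σ = wA * ec A q p c σ + wB * ec B q p c σ`
  for `q.length = p.length`.
* `exists_pol_map`: `Function.extend (List.map e)`.
* `exists_pol_U`: a deterministic policy; from `(reqs, past)` recompute the restricted weights and the
  current configuration by recursion along the lists and choose the minimiser of `U_succ_eq`.
* `pol_compact`: policies are the points of a closed subset of the compact product
  `List X → List (Fin k) → Fin k → [0,1]`, `ec` is continuous in the `prob` function; finite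
  intersection property (`IsCompact.inter_iInter_nonempty` or an ultrafilter).
-/

set_option autoImplicit false
set_option linter.unusedSectionVars false
set_option linter.unusedVariables false

namespace Crest.Agent.R314

open Finset Function Crest.LogicCS.KServer

variable {X : Type*} [MetricSpace X] {k : ℕ}

/-- expected cost of the remaining requests -/
noncomputable def ec (A : Policy X k) : List X → List (Fin k) → (Fin k → X) → List X → ℝ
  | _, _, _, [] => 0
  | q, p, c, r :: σ => ∑ i, A.prob (q ++ [r]) p i *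
      (dist (c i) r + ec A (q ++ [r]) (p ++ [i]) (update c i r) σ)

/-- offline optimum -/
noncomputable def opt : (Fin k → X) → List X → ℝ
  | _, [] => 0
  | c, r :: σ => ⨅ i, (dist (c i) r + opt (update c i r) σ)

/-! ### part a -/

theorem pola_sum_cons {n : ℕ} (f : (Fin (n + 1) → Fin k) → ℝ) :
    ∑ j, f j = ∑ i : Fin k, ∑ j : Fin n → Fin k, f (Fin.cons i j) := by
  rw [← (Fin.consEquiv fun _ : Fin (n + 1) => Fin k).sum_comp, Fintype.sum_prod_type]
  rfl

theorem pola_prob (A : Policy X k) (σ : List X) : ∀ (q : List X) (p : List (Fin k)),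
    ∑ j : Fin σ.length → Fin k, pathProb A q p (σ.zip (List.ofFn j)) = 1 := by
  induction σ with
  | nil => intro q p; simp [pathProb]
  | cons r σ ih =>
    intro q p
    rw [show (∑ j : Fin (r :: σ).length → Fin k, pathProb A q p ((r :: σ).zip (List.ofFn j))) =
      ∑ j : Fin (σ.length + 1) → Fin k, pathProb A q p ((r :: σ).zip (List.ofFn j)) from rfl,
      pola_sum_cons]
    simp only [List.ofFn_succ, Fin.cons_zero, Fin.cons_succ, List.zip_cons_cons, pathProb,
      ← Finset.mul_sum, ih, mul_one]
    exact A.prob_sum _ _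

theorem pola_sum (A : Policy X k) (σ : List X) : ∀ (q : List X) (p : List (Fin k)) (c : Fin k → X),
    ∑ j : Fin σ.length → Fin k, pathProb A q p (σ.zip (List.ofFn j)) *
      pathCost c (σ.zip (List.ofFn j)) = ec A q p c σ := by
  induction σ with
  | nil => intro q p c; simp [pathCost, ec]
  | cons r σ ih =>
    intro q p c
    rw [show (∑ j : Fin (r :: σ).length → Fin k, pathProb A q p ((r :: σ).zip (List.ofFn j)) *
      pathCost c ((r :: σ).zip (List.ofFn j))) =
      ∑ j : Fin (σ.length + 1) → Fin k, pathProb A q p ((r :: σ).zip (List.ofFn j)) *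
      pathCost c ((r :: σ).zip (List.ofFn j)) from rfl,
      pola_sum_cons]
    simp only [List.ofFn_succ, Fin.cons_zero, Fin.cons_succ, List.zip_cons_cons, pathProb,
      pathCost, ec]
    refine Finset.sum_congr rfl fun i _ => ?_
    simp only [mul_assoc, ← Finset.mul_sum, mul_add, Finset.sum_add_distrib, ← Finset.sum_mul,
      pola_prob, ih, one_mul]

theorem pola_update (c c' : Fin k → X) (i : Fin k) (r : X) :
    dist (c i) r + ∑ j, dist (update c i r j) (update c' i r j) ≤
      dist (c' i) r + ∑ j, dist (c j) (c' j) := by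
  rw [← Finset.add_sum_erase _ _ (Finset.mem_univ i),
    ← Finset.add_sum_erase _ (fun j => dist (c j) (c' j)) (Finset.mem_univ i)]
  have : ∑ j ∈ univ.erase i, dist (update c i r j) (update c' i r j) =
      ∑ j ∈ univ.erase i, dist (c j) (c' j) :=
    Finset.sum_congr rfl fun j hj => by
      rw [update_of_ne (Finset.ne_of_mem_erase hj), update_of_ne (Finset.ne_of_mem_erase hj)]
  rw [this, update_self, update_self, dist_self]
  linarith [dist_triangle (c i) (c' i) r]

theorem expCost_eq (A : Policy X k) (s : Fin k → X) (σ : List X) :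
    expCost A s σ = ec A [] [] s σ := by
  exact pola_sum A σ [] [] s

theorem ec_nonneg (A : Policy X k) (q : List X) (p : List (Fin k)) (c : Fin k → X) (σ : List X) :
    0 ≤ ec A q p c σ := by
  induction σ generalizing q p c with
  | nil => exact le_rfl
  | cons r σ ih =>
    exact Finset.sum_nonneg fun i _ =>
      mul_nonneg (A.prob_nonneg _ _ _) (add_nonneg dist_nonneg (ih _ _ _))

theorem ec_lip (A : Policy X k) (q : List X) (p : List (Fin k)) (c c' : Fin k → X) (σ : List X) :
    ec A q p c σ ≤ ec A q p c' σ + ∑ i, dist (c i) (c' i) := by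
  induction σ generalizing q p c c' with
  | nil => simp only [ec, zero_add]; exact Finset.sum_nonneg fun i _ => dist_nonneg
  | cons r σ ih =>
    simp only [ec]
    calc _ ≤ ∑ i, A.prob (q ++ [r]) p i * ((dist (c' i) r +
          ec A (q ++ [r]) (p ++ [i]) (update c' i r) σ) + ∑ j, dist (c j) (c' j)) := by
          refine Finset.sum_le_sum fun i _ => mul_le_mul_of_nonneg_left ?_ (A.prob_nonneg _ _ _)
          linarith [ih (q ++ [r]) (p ++ [i]) (update c i r) (update c' i r), pola_update c c' i r]
      _ = _ := by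
          simp only [mul_add _ _ (∑ j, dist (c j) (c' j)), Finset.sum_add_distrib,
            ← Finset.sum_mul, A.prob_sum, one_mul]

theorem ec_prefix (A : Policy X k) (q : List X) (p : List (Fin k)) (c : Fin k → X) (σ τ : List X) :
    ec A q p c σ ≤ ec A q p c (σ ++ τ) := by
  induction σ generalizing q p c with
  | nil => exact ec_nonneg A q p c τ
  | cons r σ ih =>
    simp only [List.cons_append, ec]
    exact Finset.sum_le_sum fun i _ => mul_le_mul_of_nonneg_left
      (add_le_add le_rfl (ih _ _ _)) (A.prob_nonneg _ _ _)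

theorem opt_nonneg (c : Fin k → X) (σ : List X) : 0 ≤ opt c σ := by
  induction σ generalizing c with
  | nil => exact le_rfl
  | cons r σ ih => exact Real.iInf_nonneg fun i => add_nonneg dist_nonneg (ih _)

theorem opt_le (c : Fin k → X) (σ : List X) (j : Fin σ.length → Fin k) :
    opt c σ ≤ pathCost c (σ.zip (List.ofFn j)) := by
  induction σ generalizing c with
  | nil => simp [opt, pathCost]
  | cons r σ ih =>
    rw [show List.ofFn j = List.ofFn (n := σ.length + 1) j from rfl, List.ofFn_succ,
      List.zip_cons_cons]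
    simp only [opt, pathCost]
    exact (ciInf_le (Set.finite_range _).bddBelow _).trans (add_le_add le_rfl (ih _ _))

theorem opt_lip (c c' : Fin k → X) (σ : List X) : opt c σ ≤ opt c' σ + ∑ i, dist (c i) (c' i) := by
  induction σ generalizing c c' with
  | nil => simp only [opt, zero_add]; exact Finset.sum_nonneg fun i _ => dist_nonneg
  | cons r σ ih =>
    simp only [opt]
    rcases isEmpty_or_nonempty (Fin k) with hk | hk
    · simp
    · obtain ⟨i, hi⟩ := exists_eq_ciInf_of_finite
        (f := fun i => dist (c' i) r + opt (update c' i r) σ)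
      rw [← hi]
      refine (ciInf_le (Set.finite_range _).bddBelow i).trans ?_
      linarith [ih (update c i r) (update c' i r), pola_update c c' i r]

/-! ### part b -/

theorem polb_nonneg (A : Policy X k) : ∀ (l : List (X × Fin k)) (q : List X) (p : List (Fin k)), 0 ≤ pathProb A q p l
  | [], _, _ => zero_le_one
  | (_, i) :: l, _, _ => mul_nonneg (A.prob_nonneg _ _ i) (polb_nonneg A l _ _)

theorem polb_snoc (A : Policy X k) (r : X) (i : Fin k) : ∀ (l : List (X × Fin k)) (q : List X) (p : List (Fin k)),
    pathProb A q p (l ++ [(r, i)]) = pathProb A q p l * A.prob (q ++ l.map Prod.fst ++ [r]) (p ++ l.map Prod.snd) i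
  | [], q, p => by simp [pathProb]
  | (r', i') :: l, q, p => by simp [pathProb, polb_snoc A r i l, mul_assoc]

theorem polb_step (A : Policy X k) {q : List X} {p : List (Fin k)} (h : q.length = p.length) (r : X) (i : Fin k) :
    pathProb A [] [] ((q ++ [r]).zip (p ++ [i])) = pathProb A [] [] (q.zip p) * A.prob (q ++ [r]) p i := by
  rw [List.zip_append h, List.zip_cons_cons, List.zip_nil_left, polb_snoc, List.map_fst_zip h.le,
    List.map_snd_zip h.ge, List.nil_append, List.nil_append]

theorem exists_mix (A B : Policy X k) {θ : ℝ} (h0 : 0 ≤ θ) (h1 : θ ≤ 1) : ∃ M : Policy X k,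
    ∀ c σ, ec M [] [] c σ = θ * ec A [] [] c σ + (1 - θ) * ec B [] [] c σ := by
  set a : List X → List (Fin k) → ℝ := fun q p => θ * pathProb A [] [] (q.zip p) with ha
  set b : List X → List (Fin k) → ℝ := fun q p => (1 - θ) * pathProb B [] [] (q.zip p) with hb
  have a0 : ∀ q p, 0 ≤ a q p := fun q p => mul_nonneg h0 (polb_nonneg A _ _ _)
  have b0 : ∀ q p, 0 ≤ b q p := fun q p => mul_nonneg (sub_nonneg.2 h1) (polb_nonneg B _ _ _)
  let M : Policy X k := ⟨fun q p i => if a q.dropLast p + b q.dropLast p = 0 then A.prob q p i else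
      (a q.dropLast p * A.prob q p i + b q.dropLast p * B.prob q p i) / (a q.dropLast p + b q.dropLast p),
    fun q p i => by
      split_ifs
      · exact A.prob_nonneg _ _ _
      · exact div_nonneg (add_nonneg (mul_nonneg (a0 _ _) (A.prob_nonneg _ _ _))
          (mul_nonneg (b0 _ _) (B.prob_nonneg _ _ _))) (add_nonneg (a0 _ _) (b0 _ _)),
    fun q p => by
      split_ifs with h
      · exact A.prob_sum _ _
      · rw [← sum_div, sum_add_distrib, ← mul_sum, ← mul_sum, A.prob_sum, B.prob_sum, mul_one, mul_one, div_self h]⟩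
  have hM : ∀ q r p i, (a q p + b q p) * M.prob (q ++ [r]) p i =
      a q p * A.prob (q ++ [r]) p i + b q p * B.prob (q ++ [r]) p i := fun q r p i => by
    simp only [M, List.dropLast_concat]
    split_ifs with h
    · rw [show b q p = 0 by linarith [a0 q p, b0 q p]]
      ring
    · rw [mul_div_cancel₀ _ h]
  have key : ∀ (σ q : List X) (p : List (Fin k)) (c : Fin k → X), q.length = p.length →
      (a q p + b q p) * ec M q p c σ = a q p * ec A q p c σ + b q p * ec B q p c σ := fun σ => by
    induction σ with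
    | nil => intros; simp [ec]
    | cons r σ ih =>
      intro q p c h
      simp only [ec, mul_sum, ← sum_add_distrib]
      refine sum_congr rfl fun i _ => ?_
      have h2 := ih (q ++ [r]) (p ++ [i]) (update c i r) (by simp [h])
      have h3 : a (q ++ [r]) (p ++ [i]) = a q p * A.prob (q ++ [r]) p i := by
        simp only [ha, polb_step A h, mul_assoc]
      have h4 : b (q ++ [r]) (p ++ [i]) = b q p * B.prob (q ++ [r]) p i := by
        simp only [hb, polb_step B h, mul_assoc]
      rw [h3, h4] at h2
      rw [← mul_assoc, hM]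
      linear_combination h2
  exact ⟨M, fun c σ => by simpa [ha, hb, pathProb] using key σ [] [] c rfl⟩

theorem exists_pol_map {Y : Type*} [MetricSpace Y] {e : Y → X} (he : Isometry e) (A : Policy Y k) :
    ∃ A' : Policy X k, ∀ (c : Fin k → Y) (σ : List Y),
      ec A' [] [] (e ∘ c) (σ.map e) = ec A [] [] c σ := by
  set f : List X → List Y := extend (List.map e) id fun _ => [] with hf
  have h1 : ∀ l, f (l.map e) = l := fun l => (List.map_injective_iff.2 he.injective).extend_apply _ _ l
  let A' : Policy X k := ⟨fun q => A.prob (f q), fun _ => A.prob_nonneg _, fun _ => A.prob_sum _⟩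
  have key : ∀ (σ q : List Y) (p : List (Fin k)) (c : Fin k → Y),
      ec A' (q.map e) p (e ∘ c) (σ.map e) = ec A q p c σ := fun σ => by
    induction σ with
    | nil => intros; simp [ec]
    | cons r σ ih =>
      intro q p c
      have h2 : q.map e ++ [e r] = (q ++ [r]).map e := by simp
      simp only [List.map_cons, ec, h2, ← comp_update, ih, comp_apply, he.dist_eq]
      simp only [A', h1]
  exact ⟨A', fun c σ => key σ [] [] c⟩

theorem opt_map {Y : Type*} [MetricSpace Y] {e : Y → X} (he : Isometry e) (c : Fin k → Y)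
    (σ : List Y) : opt (e ∘ c) (σ.map e) = opt c σ := by
  induction σ generalizing c with
  | nil => rfl
  | cons r σ ih => simp only [List.map_cons, opt, ← comp_update, ih, comp_apply, he.dist_eq]

/-! ### part c -/

/-- answer the first request `r` with server `i r`, then follow `B r` -/
theorem polc_graft (hk : 0 < k) (i : X → Fin k) (B : X → Policy X k) : ∃ A : Policy X k,
    ∀ c r τ, ec A [] [] c (r :: τ) = dist (c (i r)) r + ec (B r) [] [] (update c (i r) r) τ := by
  let A : Policy X k := ⟨fun q p j => q.casesOn (if j = ⟨0, hk⟩ then 1 else 0) fun r q =>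
    if q = [] then (if j = i r then 1 else 0) else (B r).prob q p.tail j, fun q p j => by
      have := fun r q => (B r).prob_nonneg q p.tail j
      cases q <;> dsimp only <;> split_ifs <;> simp [this], fun q p => by
      cases q with
      | nil => simp
      | cons r q => by_cases h : q = [] <;> simp [h, (B r).prob_sum]⟩
  have key : ∀ τ r q j p c, ec A (r :: q) (j :: p) c τ = ec (B r) q p c τ := fun τ => by
    induction τ with
    | nil => simp [ec]
    | cons r' τ ih => exact fun r q j p c => by simp [ec, ih, A]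
  exact ⟨A, fun c r τ => by simp [ec, key, A]⟩

theorem exists_pol_U [Fintype X] {Ξ : Type} [Fintype Ξ] (hk : 0 < k) (σ : Ξ → ℕ → X) {P : Ξ → ℝ}
    (hP : ∀ ξ, 0 ≤ P ξ) (H : ℕ) (s : Fin k → X) : ∃ A : Policy X k,
      ∑ ξ, P ξ * ec A [] [] s ((List.range H).map (σ ξ)) ≤ U σ H P 0 s := by
  suffices h : ∀ (n t : ℕ) (P : Ξ → ℝ) (C : Fin k → X), ∃ A : Policy X k,
      ∑ ξ, P ξ * ec A [] [] C ((List.range' t n).map (σ ξ)) ≤ U σ n P t C by
    simpa only [List.range_eq_range'] using h H 0 P s
  intro n
  induction n with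
  | zero =>
    exact fun t P C => ⟨⟨fun _ _ j => if j = ⟨0, hk⟩ then 1 else 0, fun _ _ j => by positivity, by simp⟩,
      by simp [ec, U]⟩
  | succ n ih =>
    intro t P C
    obtain ⟨i, hi⟩ := U_succ_eq (σ := σ) (P := P) hk n t C
    choose B hB using fun r => ih (t + 1) (res σ P t r) (update C (i r) r)
    obtain ⟨A, hA⟩ := polc_graft hk i B
    refine ⟨A, ?_⟩
    rw [hi, ← sum_res (σ := σ) t]
    refine sum_le_sum fun r _ => le_trans (le_of_eq ?_) (add_le_add_right (hB r) _)
    rw [sum_mul, ← sum_add_distrib]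
    refine sum_congr rfl fun ξ _ => ?_
    by_cases h : σ ξ t = r
    · rw [List.range'_succ, List.map_cons, hA, h, mul_add]
    · simp [res, h]

/-- configurations along a schedule -/
def polcPos (s : Fin k → X) (σ : ℕ → X) (j : ℕ → Fin k) : ℕ → Fin k → X
  | 0 => s
  | t + 1 => update (polcPos s σ j t) (j t) (σ t)

theorem polc_succ (s : Fin k → X) (σ : ℕ → X) (j : ℕ → Fin k) (t : ℕ) : polcPos s σ j (t + 1) =
    polcPos (update s (j 0) (σ 0)) (fun t => σ (t + 1)) (fun t => j (t + 1)) t := by
  induction t with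
  | zero => rfl
  | succ t ih => rw [polcPos, ih, polcPos]

theorem polc_opt (hk : 0 < k) (l : List X) (s : Fin k → X) : ∃ (σ : ℕ → X) (j : ℕ → Fin k), ∀ H, l.length ≤ H →
    l <+: (List.range H).map σ ∧ ∑ t ∈ range H, dist (polcPos s σ j t (j t)) (σ t) = opt s l := by
  induction l generalizing s with
  | nil =>
    have e : ∀ t, polcPos s (fun _ => s ⟨0, hk⟩) (fun _ => ⟨0, hk⟩) t = s := fun t => by
      induction t with
      | zero => rfl
      | succ t ih => rw [polcPos, ih, update_eq_self]
    exact ⟨fun _ => s ⟨0, hk⟩, fun _ => ⟨0, hk⟩, fun H _ => ⟨List.nil_prefix, by simp [e, opt]⟩⟩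
  | cons r l ih =>
    have : Nonempty (Fin k) := ⟨⟨0, hk⟩⟩
    obtain ⟨i, hi⟩ := exists_eq_ciInf_of_finite (f := fun i => dist (s i) r + opt (update s i r) l)
    obtain ⟨σ, j, h⟩ := ih (update s i r)
    refine ⟨fun t => t.casesOn r σ, fun t => t.casesOn i j, fun H hH => ?_⟩
    obtain ⟨H, rfl⟩ := Nat.exists_eq_add_one.2 (lt_of_lt_of_le (Nat.succ_pos _) hH)
    obtain ⟨h1, h2⟩ := h H (Nat.le_of_succ_le_succ hH)
    refine ⟨?_, ?_⟩
    · rw [List.range_succ_eq_map, List.map_cons, List.map_map]
      exact (List.prefix_cons_inj r).2 h1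
    · rw [sum_range_succ', opt, ← hi, ← h2, add_comm]
      simp only [polc_succ]
      rfl

/-- optimal schedules, padded after the end of the list by requests at the position of server `0` -/
theorem exists_proc [Fintype X] {Ξ : Type} [Fintype Ξ] (hk : 0 < k) (l : Ξ → List X) {P : Ξ → ℝ}
    (hP : ∀ ξ, 0 ≤ P ξ) (s : Fin k → X) : ∃ (p : Proc Ξ X k) (H : ℕ), p.P = P ∧ p.s = s ∧
      (∀ ξ, l ξ <+: (List.range H).map (p.σ ξ)) ∧ p.cost H = ∑ ξ, P ξ * opt s (l ξ) := by
  choose σ j h using fun ξ => polc_opt hk (l ξ) s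
  have hH : ∀ ξ, (l ξ).length ≤ univ.sup fun ξ => (l ξ).length := fun ξ =>
    le_sup (f := fun ξ => (l ξ).length) (mem_univ ξ)
  refine ⟨⟨P, hP, σ, j, s⟩, _, rfl, rfl, fun ξ => (h ξ _ (hH ξ)).1, sum_congr rfl fun ξ _ => ?_⟩
  have e : ∀ t, Proc.pos ⟨P, hP, σ, j, s⟩ ξ t = polcPos s (σ ξ) (j ξ) t := fun t => by
    induction t with
    | zero => rfl
    | succ t ih => rw [Proc.pos, polcPos, ih]
  simp only [Proc.d, e, (h ξ _ (hH ξ)).2]

/-! ### part d -/

theorem pold_lim {ι : Type*} (A : ι → Policy X k) (U : Ultrafilter ι) : ∃ B : Policy X k,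
    ∀ q p i, Filter.Tendsto (fun a => (A a).prob q p i) U (nhds (B.prob q p i)) := by
  have h01 : ∀ a q p i, (A a).prob q p i ∈ Set.Icc (0 : ℝ) 1 := by
    intro a q p i
    refine ⟨(A a).prob_nonneg q p i, ?_⟩
    rw [← (A a).prob_sum q p]
    exact Finset.single_le_sum (fun j _ => (A a).prob_nonneg q p j) (Finset.mem_univ i)
  have hex : ∀ q p i, ∃ x ∈ Set.Icc (0 : ℝ) 1,
      Filter.Tendsto (fun a => (A a).prob q p i) U (nhds x) := by
    intro q p i
    have := isCompact_Icc.ultrafilter_le_nhds (U.map fun a => (A a).prob q p i) (by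
      rw [Filter.le_principal_iff]
      exact Ultrafilter.mem_map.2 (Filter.univ_mem' fun a => h01 a q p i))
    obtain ⟨x, hx, hle⟩ := this
    exact ⟨x, hx, hle⟩
  choose f hf hlim using hex
  refine ⟨⟨f, fun q p i => (hf q p i).1, fun q p => ?_⟩, hlim⟩
  have h1 : Filter.Tendsto (fun a => ∑ i, (A a).prob q p i) U (nhds (∑ i, f q p i)) :=
    tendsto_finsetSum _ fun i _ => hlim q p i
  simp only [Policy.prob_sum] at h1
  exact (tendsto_nhds_unique tendsto_const_nhds h1).symm

theorem pold_ec {ι : Type*} (A : ι → Policy X k) (B : Policy X k) (F : Filter ι)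
    (hB : ∀ q p i, Filter.Tendsto (fun a => (A a).prob q p i) F (nhds (B.prob q p i)))
    (σ : List X) : ∀ (q : List X) (p : List (Fin k)) (c : Fin k → X),
      Filter.Tendsto (fun a => ec (A a) q p c σ) F (nhds (ec B q p c σ)) := by
  induction σ with
  | nil => intro q p c; simp only [ec]; exact tendsto_const_nhds
  | cons r σ ih =>
    intro q p c
    simp only [ec]
    exact tendsto_finsetSum _ fun i _ =>
      (hB _ _ _).mul (tendsto_const_nhds.add (ih _ _ _))

theorem pol_compact (s : Fin k → X) (b : List X → ℝ)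
    (h : ∀ (I : Finset (List X)) (ε : ℝ), 0 < ε → ∃ A : Policy X k, ∀ σ ∈ I, ec A [] [] s σ ≤ b σ + ε) :
    ∃ A : Policy X k, ∀ σ, ec A [] [] s σ ≤ b σ := by
  classical
  choose A hA using fun a : Finset (List X) × ℕ =>
    h a.1 (1 / ((a.2 : ℝ) + 1)) Nat.one_div_pos_of_nat
  let U : Ultrafilter (Finset (List X) × ℕ) := Ultrafilter.of Filter.atTop
  have hU : (U : Filter (Finset (List X) × ℕ)) ≤ Filter.atTop := Ultrafilter.of_le _
  obtain ⟨B, hB⟩ := pold_lim A U
  refine ⟨B, fun σ => ?_⟩
  have h1 := pold_ec A B (U : Filter _) hB σ [] [] s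
  have h2 : Filter.Tendsto (fun a : Finset (List X) × ℕ => b σ + 1 / ((a.2 : ℝ) + 1)) U
      (nhds (b σ + 0)) := by
    refine Filter.Tendsto.add tendsto_const_nhds ?_
    refine (tendsto_one_div_add_atTop_nhds_zero_nat (𝕜 := ℝ)).comp ?_
    refine Filter.Tendsto.mono_left ?_ hU
    rw [← Filter.prod_atTop_atTop_eq]
    exact Filter.tendsto_snd
  rw [add_zero] at h2
  refine le_of_tendsto_of_tendsto h1 h2 ?_
  refine Filter.Eventually.filter_mono hU ?_
  filter_upwards [Filter.eventually_ge_atTop (({σ} : Finset (List X)), (0 : ℕ))] with a ha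
  exact hA a σ (ha.1 (Finset.mem_singleton_self σ))

end Crest.Agent.R314
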