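import Crest.Agent.R314.Val

/-!
# Row 314: removing the additive constant by repetition

`cat p H p'`: run `p` for `H` steps, then `p'` (independent).  `rst m p`: `m` cycles through the start
configuration, then `p`.
* `U_cat`: induction on the number of remaining steps of the first part, generalising the weights of the
  first factor; at the junction `U` only depends on the marginal (`U_marg`, induction, homogeneity).
* `U_rst`: with `v = U p.σ H p.P 0 s`: (1) from any `C`, at any time of the reset, the value is at least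
  `v - ∑ i, dist (C i) (s (π i))` for every `π` (`U_lip` and the triangle inequality); (2) if one cycle costs
  less than `δ = min dist (s i) (s i')`, the configuration after it is a permutation of `s`.  So after `m`
  cycles the value is at least `min v (v - k * diam + m * δ)`.
* `yao_strict`: `n` blocks `p; reset` have value `≥ n * U` and offline cost `≤ 2 n * cost`.
-/

set_option autoImplicit false
set_option linter.unusedSectionVars false
set_option linter.unusedVariables false

namespace Crest.Agent.R314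

open Finset Function

variable {Ξ Ξ' : Type} [Fintype Ξ] [Fintype Ξ'] {X : Type*} [MetricSpace X] [Fintype X] {k : ℕ}

/-- concatenation -/
def Proc.cat (p : Proc Ξ X k) (H : ℕ) (p' : Proc Ξ' X k) : Proc (Ξ × Ξ') X k where
  P z := p.P z.1 * p'.P z.2
  P0 z := mul_nonneg (p.P0 _) (p'.P0 _)
  σ z t := if t < H then p.σ z.1 t else p'.σ z.2 (t - H)
  j z t := if t < H then p.j z.1 t else p'.j z.2 (t - H)
  s := p.s

/-- `m` cycles through the start configuration first (request `s i` is served by server `i`) -/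
def Proc.rst (p : Proc Ξ X k) (hk : 0 < k) (m : ℕ) : Proc Ξ X k where
  P := p.P
  P0 := p.P0
  σ ξ t := if t < m * k then p.s ⟨t % k, Nat.mod_lt _ hk⟩ else p.σ ξ (t - m * k)
  j ξ t := if t < m * k then ⟨t % k, Nat.mod_lt _ hk⟩ else p.j ξ (t - m * k)
  s := p.s

/-! ### part a -/

theorem U_marg {σ : Ξ × Ξ' → ℕ → X} {σ' : Ξ' → ℕ → X} {H : ℕ} (hσ : ∀ z t, σ z (H + t) = σ' z.2 t)
    {Q : Ξ → ℝ} (hQ : ∀ ξ, 0 ≤ Q ξ) (n : ℕ) (Q' : Ξ' → ℝ) (t : ℕ) (C : Fin k → X) :
    U σ n (fun z => Q z.1 * Q' z.2) (H + t) C = (∑ ξ, Q ξ) * U σ' n Q' t C := by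
  induction n generalizing Q' t C with
  | zero => simp [U]
  | succ n ih =>
    have hr : ∀ r, res σ (fun z => Q z.1 * Q' z.2) (H + t) r =
        fun z => Q z.1 * res σ' Q' t r z.2 := by
      intro r; funext z
      have := hσ z t
      by_cases h : σ' z.2 t = r <;> simp [res, this, h]
    simp only [U, hr, mul_sum]
    refine sum_congr rfl fun r _ => ?_
    rw [Real.mul_iInf_of_nonneg (sum_nonneg fun ξ _ => hQ ξ)]
    refine iInf_congr fun i => ?_
    rw [add_assoc, ih, Fintype.sum_prod_type, ← sum_mul_sum]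
    ring

theorem U_cat_aux (hk : 0 < k) (p : Proc Ξ X k) (H : ℕ) (p' : Proc Ξ' X k) (H' : ℕ) {v : ℝ}
    (h1 : ∑ ξ, p'.P ξ = 1) (hv : ∀ C : Fin k → X, v ≤ U p'.σ H' p'.P 0 C) (m : ℕ) (Q : Ξ → ℝ)
    (hQ : ∀ ξ, 0 ≤ Q ξ) (t : ℕ) (ht : t + m = H) (C : Fin k → X) :
    U p.σ m Q t C + (∑ ξ, Q ξ) * v ≤
      U (p.cat H p').σ (m + H') (fun z => Q z.1 * p'.P z.2) t C := by
  induction m generalizing Q t C with
  | zero =>
    have := U_marg (σ := (p.cat H p').σ) (σ' := p'.σ) (H := H) (fun z t => by simp [Proc.cat]) hQ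
      H' p'.P 0 C
    obtain rfl : t = H := ht
    rw [add_zero] at this
    rw [zero_add, this]
    simp only [U, zero_add]
    exact mul_le_mul_of_nonneg_left (hv C) (sum_nonneg fun ξ _ => hQ ξ)
  | succ m ih =>
    have hr : ∀ r, res (p.cat H p').σ (fun z => Q z.1 * p'.P z.2) t r =
        fun z => res p.σ Q t r z.1 * p'.P z.2 := by
      intro r; funext z
      have : t < H := by omega
      by_cases h : p.σ z.1 t = r <;> simp [res, Proc.cat, this, h]
    obtain ⟨i, hi⟩ := U_succ_eq (σ := (p.cat H p').σ) (P := fun z => Q z.1 * p'.P z.2) hk (m + H') t C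
    rw [show m + 1 + H' = m + H' + 1 by omega, hi]
    have h2 := sum_res (σ := p.σ) (P := Q) t (fun _ => v)
    simp only [← sum_mul] at h2
    rw [← h2, sum_mul]
    refine (add_le_add_left (U_succ_le m t C i) _).trans ?_
    rw [← sum_add_distrib]
    refine sum_le_sum fun r _ => ?_
    rw [hr, Fintype.sum_prod_type, ← sum_mul_sum, h1, mul_one, add_assoc]
    exact add_le_add_right (ih _ (res_nonneg hQ t r) (t + 1) (by omega) _) _

theorem U_cat (hk : 0 < k) (p : Proc Ξ X k) (H : ℕ) (p' : Proc Ξ' X k) (H' : ℕ) {v : ℝ}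
    (h1 : ∑ ξ, p'.P ξ = 1) (hv : ∀ C : Fin k → X, v ≤ U p'.σ H' p'.P 0 C) (C : Fin k → X) :
    U p.σ H p.P 0 C + (∑ ξ, p.P ξ) * v ≤ U (p.cat H p').σ (H + H') (p.cat H p').P 0 C :=
  U_cat_aux hk p H p' H' h1 hv H p.P p.P0 0 (zero_add H) C

theorem cat_sum_dist_update (C s : Fin k → X) (j : Fin k) (x : X) :
    ∑ i, dist (update C j x i) (s i) + dist (C j) (s j) = ∑ i, dist (C i) (s i) + dist x (s j) := by
  rw [← add_sum_erase _ _ (mem_univ j), ← add_sum_erase _ (fun i => dist (C i) (s i)) (mem_univ j),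
    update_self, sum_congr rfl fun i hi => by rw [update_of_ne (ne_of_mem_erase hi)]]
  ring

theorem cat_dist_le (p : Proc Ξ X k) (ξ : Ξ) (t : ℕ) :
    ∑ i, dist (p.pos ξ t i) (p.s i) ≤ ∑ u ∈ range t, p.d ξ u := by
  induction t with
  | zero => simp [Proc.pos]
  | succ t ih =>
    have h1 := cat_sum_dist_update (p.pos ξ t) p.s (p.j ξ t) (p.σ ξ t)
    have h2 := dist_triangle_left (p.σ ξ t) (p.s (p.j ξ t)) (p.pos ξ t (p.j ξ t))
    rw [sum_range_succ, Proc.pos, Proc.d]
    linarith

theorem cat_pos_shift (q : Proc Ξ X k) (p : Proc Ξ' X k) (z : Ξ) (ξ : Ξ') (a n : ℕ)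
    (h0 : q.pos z a = p.s) (hσ : ∀ t < n, q.σ z (a + t) = p.σ ξ t)
    (hj : ∀ t < n, q.j z (a + t) = p.j ξ t) :
    (∀ t ≤ n, q.pos z (a + t) = p.pos ξ t) ∧
      ∑ t ∈ range n, q.d z (a + t) = ∑ t ∈ range n, p.d ξ t := by
  have h : ∀ t ≤ n, q.pos z (a + t) = p.pos ξ t := by
    intro t
    induction t with
    | zero => exact fun _ => h0
    | succ t ih =>
      intro ht
      rw [← add_assoc, Proc.pos, Proc.pos, ih (by omega), hσ t (by omega), hj t (by omega)]
  refine ⟨h, sum_congr rfl fun t ht => ?_⟩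
  have ht := mem_range.1 ht
  rw [Proc.d, Proc.d, h t ht.le, hσ t ht, hj t ht]

theorem cat_reset (hk : 0 < k) (q : Proc Ξ X k) (z : Ξ) (a n : ℕ)
    (hj : ∀ t < n, q.j z (a + t) = ⟨t % k, Nat.mod_lt _ hk⟩)
    (hσ : ∀ t < n, q.σ z (a + t) = q.s ⟨t % k, Nat.mod_lt _ hk⟩) :
    (∀ i : Fin k, i.1 < n → q.pos z (a + n) i = q.s i) ∧
      ∑ t ∈ range n, q.d z (a + t) + ∑ i, dist (q.pos z (a + n) i) (q.s i) =
        ∑ i, dist (q.pos z a i) (q.s i) := by
  induction n with
  | zero => simp
  | succ n ih =>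
    obtain ⟨h1, h2⟩ := ih (fun t ht => hj t (by omega)) (fun t ht => hσ t (by omega))
    rw [← add_assoc, Proc.pos, sum_range_succ, Proc.d, hj n (by omega), hσ n (by omega)]
    refine ⟨fun i hi => ?_, ?_⟩
    · by_cases h : i = ⟨n % k, Nat.mod_lt _ hk⟩
      · rw [h, update_self]
      · rw [update_of_ne h]
        refine h1 i (lt_of_le_of_ne (by omega) fun h' => h (Fin.ext ?_))
        rw [← h']; exact (Nat.mod_eq_of_lt i.2).symm
    · have := cat_sum_dist_update (q.pos z (a + n)) q.s ⟨n % k, Nat.mod_lt _ hk⟩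
        (q.s ⟨n % k, Nat.mod_lt _ hk⟩)
      rw [dist_self] at this
      linarith

/-- after the first part every server is within its travelled distance of its start; the first cycle of
the reset brings it back -/
theorem cost_cat_rst (hk : 0 < k) (p : Proc Ξ X k) (H : ℕ) (p' : Proc Ξ' X k) (H' m : ℕ) (hm : 0 < m)
    (hs : p'.s = p.s) (h1 : ∑ ξ, p.P ξ = 1) (h1' : ∑ ξ, p'.P ξ = 1) :
    (p.cat H (p'.rst hk m)).cost (H + (m * k + H')) ≤ 2 * p.cost H + p'.cost H' := by
  set q := p.cat H (p'.rst hk m) with hq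
  have key : ∀ z : Ξ × Ξ', ∑ t ∈ range (H + (m * k + H')), q.d z t ≤
      2 * ∑ t ∈ range H, p.d z.1 t + ∑ t ∈ range H', p'.d z.2 t := by
    intro z
    obtain ⟨a1, a2⟩ := cat_pos_shift q p z z.1 0 H rfl (fun t ht => by simp [hq, Proc.cat, ht])
      (fun t ht => by simp [hq, Proc.cat, ht])
    obtain ⟨b1, b2⟩ := cat_reset hk q z H (m * k) (fun t ht => by simp [hq, Proc.cat, Proc.rst, ht])
      (fun t ht => by simp [hq, Proc.cat, Proc.rst, ht, hs])
    have b3 : q.pos z (H + m * k) = p'.s := by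
      funext i
      rw [hs]; exact b1 i (lt_of_lt_of_le i.2 (Nat.le_mul_of_pos_left k hm))
    obtain ⟨-, c2⟩ := cat_pos_shift q p' z z.2 (H + m * k) H' b3
      (fun t ht => by simp [hq, Proc.cat, Proc.rst, add_assoc])
      (fun t ht => by simp [hq, Proc.cat, Proc.rst, add_assoc])
    have d1 := cat_dist_le p z.1 H
    have d2 : 0 ≤ ∑ i, dist (q.pos z (H + m * k) i) (q.s i) := sum_nonneg fun _ _ => dist_nonneg
    have d3 := a1 H le_rfl
    simp only [zero_add] at a2 d3
    rw [d3] at b2
    have d4 : q.s = p.s := rfl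
    rw [← add_assoc, sum_range_add, sum_range_add, a2, c2]
    rw [d4] at b2 d2
    linarith
  calc q.cost (H + (m * k + H')) ≤ ∑ z : Ξ × Ξ', p.P z.1 * p'.P z.2 *
        (2 * ∑ t ∈ range H, p.d z.1 t + ∑ t ∈ range H', p'.d z.2 t) :=
        sum_le_sum fun z _ => mul_le_mul_of_nonneg_left (key z) (q.P0 z)
    _ = 2 * p.cost H * ∑ ξ, p'.P ξ + (∑ ξ, p.P ξ) * p'.cost H' := by
        simp only [Proc.cost]
        rw [mul_assoc, sum_mul_sum, sum_mul_sum, mul_sum, Fintype.sum_prod_type, ← sum_add_distrib]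
        refine sum_congr rfl fun ξ _ => ?_
        rw [mul_sum univ _ 2, ← sum_add_distrib]
        exact sum_congr rfl fun ξ' _ => by ring
    _ = _ := by rw [h1, h1', mul_one, one_mul]

/-! ### part b -/

/-- time shift: after the reset the game is the original one -/
theorem repB_shift (σ σ' : Ξ → ℕ → X) (T : ℕ) (h : ∀ ξ t, σ' ξ (T + t) = σ ξ t) (n : ℕ) :
    ∀ (P : Ξ → ℝ) (t : ℕ) (C : Fin k → X), U σ' n P (T + t) C = U σ n P t C := by
  induction n with
  | zero => intro P t C; simp [U]
  | succ n ih =>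
    intro P t C
    have hres : ∀ r, res σ' P (T + t) r = res σ P t r := by
      intro r; funext ξ; unfold res; rw [h]
    simp only [U, hres]
    refine Finset.sum_congr rfl fun r _ => ?_
    congr 1
    funext i
    rw [add_assoc T t 1, ih]

/-- a step with a deterministic request -/
theorem repB_step (hk : 0 < k) (σ : Ξ → ℕ → X) (P : Ξ → ℝ) (h1 : ∑ ξ, P ξ = 1) (n t : ℕ) (r0 : X)
    (h : ∀ ξ, σ ξ t = r0) (C : Fin k → X) :
    ∃ i, U σ (n + 1) P t C = dist (C i) r0 + U σ n P (t + 1) (update C i r0) := by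
  obtain ⟨i, hi⟩ := U_succ_eq (σ := σ) (P := P) hk n t C
  refine ⟨i r0, ?_⟩
  rw [hi, Finset.sum_eq_single r0]
  · have hr : res σ P t r0 = P := by
      funext ξ; simp [res, h]
    rw [hr, h1, one_mul]
  · intro r _ hr
    have hz : res σ P t r = fun _ => 0 := by
      funext ξ; simp [res, h, Ne.symm hr]
    rw [hz, U_zero]; simp
  · intro hr; exact absurd (Finset.mem_univ _) hr

theorem repB_upd (C : Fin k → X) (i : Fin k) (r : X) (y : Fin k → X) :
    ∑ j, dist (update C i r j) (y j) ≤ dist (C i) r + ∑ j, dist (C j) (y j) := by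
  have h : ∀ j, dist (update C i r j) (y j) ≤
      (if j = i then dist (C i) r else 0) + dist (C j) (y j) := by
    intro j
    by_cases hj : j = i
    · subst hj
      simp only [update_self, if_true]
      have := dist_triangle r (C j) (y j)
      rwa [dist_comm r (C j)] at this
    · simp [hj]
  calc ∑ j, dist (update C i r j) (y j)
      ≤ ∑ j, ((if j = i then dist (C i) r else 0) + dist (C j) (y j)) :=
        Finset.sum_le_sum fun j _ => h j
    _ = dist (C i) r + ∑ j, dist (C j) (y j) := by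
        rw [Finset.sum_add_distrib]; simp

/-- the deterministic game of the reset -/
theorem repB_abs (hk : 0 < k) {s : Fin k → X} (hs : Injective s) (m : ℕ) {v δ D : ℝ} (hδ0 : 0 ≤ δ)
    (hδ : ∀ i i', i ≠ i' → δ ≤ dist (s i) (s i')) (hD : ∀ C : Fin k → X, ∑ i, dist (C i) (s i) ≤ D)
    (G : ℕ → (Fin k → X) → ℝ)
    (hstep : ∀ t, t < m * k → ∀ C : Fin k → X, ∃ i, G t C = dist (C i) (s ⟨t % k, Nat.mod_lt _ hk⟩) +
      G (t + 1) (update C i (s ⟨t % k, Nat.mod_lt _ hk⟩)))
    (hend : ∀ (C : Fin k → X) (π : Equiv.Perm (Fin k)),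
      v ≤ G (m * k) C + ∑ i, dist (C i) (s (π i))) (C : Fin k → X) :
    min v (v - D + m * δ) ≤ G 0 C := by
  -- (1) the lower bound at every time of the reset
  have h1 : ∀ a t, t + a = m * k → ∀ (C : Fin k → X) (π : Equiv.Perm (Fin k)),
      v ≤ G t C + ∑ i, dist (C i) (s (π i)) := by
    intro a
    induction a with
    | zero => intro t ht C π; rw [add_zero] at ht; rw [ht]; exact hend C π
    | succ a ih =>
      intro t ht C π
      obtain ⟨i, hi⟩ := hstep t (by omega) C
      have h2 := ih (t + 1) (by omega) (update C i (s ⟨t % k, Nat.mod_lt _ hk⟩)) π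
      have h3 := repB_upd C i (s ⟨t % k, Nat.mod_lt _ hk⟩) (fun j => s (π j))
      linarith
  -- (2) one cycle
  have h2 : ∀ a, a < m → ∀ (C : Fin k → X) (j : ℕ), j ≤ k → ∃ (C' : Fin k → X) (c : ℝ), 0 ≤ c ∧
      G (a * k) C = c + G (a * k + j) C' ∧
      (δ ≤ c ∨ ∀ l : Fin k, l.val < j → ∃ i, C' i = s l) := by
    intro a ha C j
    induction j with
    | zero => intro _; exact ⟨C, 0, le_rfl, by simp, Or.inr fun l hl => absurd hl (by omega)⟩
    | succ j ih =>
      intro hj
      obtain ⟨C', c, hc, hG, hor⟩ := ih (by omega)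
      have hlt : a * k + j < m * k := by
        have : (a + 1) * k ≤ m * k := Nat.mul_le_mul_right k ha
        rw [add_mul, one_mul] at this
        omega
      obtain ⟨i, hi⟩ := hstep (a * k + j) hlt C'
      have hmod : (⟨(a * k + j) % k, Nat.mod_lt _ hk⟩ : Fin k) = ⟨j, by omega⟩ := by
        apply Fin.ext
        simp only
        rw [add_comm, Nat.add_mul_mod_self_right, Nat.mod_eq_of_lt (by omega)]
      rw [hmod] at hi
      have hd : 0 ≤ dist (C' i) (s ⟨j, by omega⟩) := dist_nonneg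
      refine ⟨update C' i (s ⟨j, by omega⟩), c + dist (C' i) (s ⟨j, by omega⟩), by linarith, ?_, ?_⟩
      · rw [hG, hi, add_assoc (a * k) j 1]; ring
      · rcases hor with hor | hor
        · left; linarith
        · by_cases hex : ∃ l : Fin k, l.val < j ∧ C' i = s l
          · obtain ⟨l, hl, hli⟩ := hex
            left
            have := hδ l ⟨j, by omega⟩ (by
              intro h; rw [h] at hl; simp at hl)
            rw [hli]; linarith
          · right
            intro l hl
            by_cases hlj : l.val = j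
            · refine ⟨i, ?_⟩
              rw [update_self]; congr 1; exact Fin.ext hlj.symm
            · obtain ⟨i', hi'⟩ := hor l (by omega)
              have hne : i' ≠ i := by
                intro h; exact hex ⟨l, by omega, h ▸ hi'⟩
              exact ⟨i', by rw [update_of_ne hne, hi']⟩
  have h3 : ∀ a, a < m → ∀ C : Fin k → X, v ≤ G (a * k) C ∨
      ∃ C' : Fin k → X, δ + G ((a + 1) * k) C' ≤ G (a * k) C := by
    intro a ha C
    obtain ⟨C', c, hc, hG, hor⟩ := h2 a ha C k le_rfl
    have he : a * k + k = (a + 1) * k := by ring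
    rw [he] at hG
    rcases hor with hor | hor
    · right; exact ⟨C', by linarith⟩
    · left
      choose f hf using fun l : Fin k => hor l l.2
      have hfi : Injective f := by
        intro l l' hl
        apply hs
        rw [← hf l, ← hf l', hl]
      have hfb : Bijective f := Finite.injective_iff_bijective.1 hfi
      obtain ⟨b, hb⟩ : ∃ b, (a + 1) * k + b = m * k :=
        Nat.exists_eq_add_of_le (Nat.mul_le_mul_right k ha) |>.imp fun b hb => hb.symm
      have h4 := h1 b _ hb C' (Equiv.ofBijective f hfb).symm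
      have h5 : ∑ i, dist (C' i) (s ((Equiv.ofBijective f hfb).symm i)) = 0 := by
        refine Finset.sum_eq_zero fun i _ => ?_
        rw [← hf, dist_eq_zero]
        congr 1
        exact ((Equiv.ofBijective f hfb).apply_symm_apply i).symm
      linarith
  -- (3) induction over the cycles
  have h4 : ∀ b a, a + b = m → ∀ C : Fin k → X, min v (v - D + b * δ) ≤ G (a * k) C := by
    intro b
    induction b with
    | zero =>
      intro a ha C
      rw [add_zero] at ha
      have h5 := hend C (Equiv.refl _)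
      have h6 := hD C
      simp only [Equiv.refl_apply] at h5
      rw [ha]
      refine (min_le_right _ _).trans ?_
      simp only [Nat.cast_zero, zero_mul, add_zero]
      linarith
    | succ b ih =>
      intro a ha C
      rcases h3 a (by omega) C with h5 | ⟨C', h5⟩
      · exact (min_le_left _ _).trans h5
      · have h6 := ih (a + 1) (by omega) C'
        rcases min_le_iff.1 h6 with h7 | h7
        · exact (min_le_left _ _).trans (by linarith)
        · refine (min_le_right _ _).trans ?_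
          push_cast
          linarith
  simpa using h4 m 0 (by simp) C

theorem U_rst (hk : 0 < k) {s : Fin k → X} (hs : Injective s) : ∃ m : ℕ, 0 < m ∧
    ∀ (Ξ : Type) [Fintype Ξ] (p : Proc Ξ X k) (H : ℕ), p.s = s → ∑ ξ, p.P ξ = 1 →
      ∀ C : Fin k → X, U p.σ H p.P 0 s ≤ U (p.rst hk m).σ (m * k + H) p.P 0 C := by
  classical
  have : Nonempty (Fin k) := ⟨⟨0, hk⟩⟩
  obtain ⟨δ, hδ0, hδ⟩ : ∃ δ : ℝ, 0 < δ ∧ ∀ i i', i ≠ i' → δ ≤ dist (s i) (s i') := by
    obtain ⟨z, hz⟩ := Finite.exists_min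
      (fun z : Fin k × Fin k => if z.1 = z.2 then (1 : ℝ) else dist (s z.1) (s z.2))
    refine ⟨if z.1 = z.2 then (1 : ℝ) else dist (s z.1) (s z.2), ?_, fun i i' h => ?_⟩
    · split_ifs with h
      · exact one_pos
      · exact dist_pos.2 fun h' => h (hs h')
    · have := hz (i, i')
      simpa [h] using this
  obtain ⟨D, hD⟩ : ∃ D : ℝ, ∀ C : Fin k → X, ∑ i, dist (C i) (s i) ≤ D :=
    Finite.exists_le _
  obtain ⟨m0, hm0⟩ := exists_nat_ge (D / δ)
  refine ⟨m0 + 1, Nat.succ_pos _, ?_⟩
  intro Ξ _ p H hps h1 C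
  set m := m0 + 1 with hm
  have hmD : D ≤ m * δ := by
    rw [div_le_iff₀ hδ0] at hm0
    rw [hm]; push_cast; nlinarith
  have key := repB_abs hk hs m (v := U p.σ H p.P 0 s) hδ0.le hδ hD
    (fun t C => U (p.rst hk m).σ (m * k - t + H) p.P t C) ?_ ?_ C
  · rw [min_eq_left (by linarith)] at key
    simpa using key
  · intro t ht C
    have he : m * k - t + H = (m * k - (t + 1) + H) + 1 := by omega
    rw [he]
    refine repB_step hk _ _ h1 _ _ _ (fun ξ => ?_) C
    simp [Proc.rst, ht, hps]
  · intro C π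
    have hsh := repB_shift (k := k) p.σ (p.rst hk m).σ (m * k) (fun ξ t => by simp [Proc.rst]) H p.P 0 C
    simp only [Nat.sub_self, zero_add]
    rw [add_zero] at hsh
    rw [hsh]
    have hl := U_lip (σ := p.σ) p.P0 H 0 s C π.symm
    rw [h1, one_mul] at hl
    have hsum : ∑ i, dist (s i) (C (π.symm i)) = ∑ i, dist (C i) (s (π i)) := by
      rw [← Equiv.sum_comp π]
      simp [dist_comm]
    linarith

/-! ### part c -/

theorem yao_strict (hk : 0 < k) {s : Fin k → X} (hs : Injective s) {c B : ℝ} (hc : 0 ≤ c)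
    (h : Yao s c B) : Yao s (2 * c) 0 := by
  intro Ξ _ p H hp h1
  obtain ⟨m, hm, hr⟩ := U_rst hk hs
  have key : ∀ n : ℕ, ∃ (Ξ' : Type) (_ : Fintype Ξ') (q : Proc Ξ' X k) (H' : ℕ), q.s = s ∧
      ∑ ξ, q.P ξ = 1 ∧ n * U p.σ H p.P 0 s ≤ U q.σ H' q.P 0 s ∧ q.cost H' ≤ n * (2 * p.cost H) := by
    intro n
    induction n with
    | zero => exact ⟨Ξ, inferInstance, p, 0, hp, h1, by simp [U], by simp [Proc.cost]⟩
    | succ n ih =>
      obtain ⟨Ξ', _, q, H', hq, hq1, hU, hC⟩ := ih
      refine ⟨Ξ × Ξ', inferInstance, p.cat H (q.rst hk m), H + (m * k + H'), hp, ?_, ?_, ?_⟩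
      · change ∑ z : Ξ × Ξ', p.P z.1 * q.P z.2 = 1
        rw [Fintype.sum_prod_type]
        simp only [← mul_sum, hq1, mul_one, h1]
      · have := U_cat hk p H (q.rst hk m) (m * k + H') (v := U q.σ H' q.P 0 s) hq1
          (hr Ξ' q H' hq hq1) s
        rw [h1] at this
        push_cast
        linarith
      · have := cost_cat_rst hk p H q H' m hm (hq.trans hp.symm) h1 hq1
        push_cast
        linarith
  by_contra hlt
  rw [add_zero, not_le] at hlt
  obtain ⟨n, hn⟩ := exists_nat_gt (B / (U p.σ H p.P 0 s - 2 * c * p.cost H))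
  rw [div_lt_iff₀ (sub_pos.2 hlt)] at hn
  obtain ⟨Ξ', _, q, H', hq, hq1, hU, hC⟩ := key n
  have h2 := h Ξ' q H' hq hq1
  have h3 := mul_le_mul_of_nonneg_left hC hc
  nlinarith

end Crest.Agent.R314
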