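import Mathlib

/-!
# Row 314: the share step (abstract)

Active children `A`, heavy child `h ∉ A`, shares `q` in the simplex on `A ∪ {h}`.  A minimiser of `FF` respects
the capacities.  Write `Rh = R h + ∑ A f R`; `∂/∂q c` of the `T`-term is `(T/η c) (Rh q c - f c R c)/(q c + δ c)`.
* `share_light`: if `q c Y > W c`, move `ε` from `c` to `h`.  `Rh ≥ Y/(1+9/T)`, so `Rh q c - f c R c ≥ 119 η q Y/T`.
  If `q c > δ c` the gain is `≥ 59 Y` against `5 Y + 2 Y`; if `q c ≤ δ c` the `min` term gains `8 Y`.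
* `share_heavy`: if `q h Y > W h`, move `ε` from `h` to `A` with `p c = η c (q c + δ c) / Z`.  The `T`-term has
  derivative `(T/Z)(R h - Rh q h)` and `Rh q h - R h > (1 - q h)(W h - R h) + q h · 400 (e/T) R h ≥ 0` (so `A`
  is nonempty).  The `min` term loses at most `8 Y min (1, e/(32 Z))`, the rest gains `5 Y - 2 Y`.  If `Z ≥ e/8` done.
  Else `q h ≥ 3/4`; if `R h ≤ Y/2`, `Rh q h - R h ≥ Y/5`, `T/Z ≥ 4 T`; if `R h > Y/2` the gain is `≥ 1200 Y`.
-/

set_option autoImplicit false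
set_option linter.unusedSectionVars false
set_option linter.unusedVariables false

namespace Crest.Agent.R314

open Finset Function

variable {Λ : Type*} [Fintype Λ] [DecidableEq Λ]

/-- data of the share step -/
structure Sh (Λ : Type*) where
  A : Finset Λ
  h : Λ
  T : ℝ
  Y : ℝ
  e : ℝ
  η : Λ → ℝ
  δ : Λ → ℝ
  R : Λ → ℝ
  W : Λ → ℝ
  q0 : Λ → ℝ

namespace Sh

variable (s : Sh Λ)

noncomputable def f (c : Λ) : ℝ := 1 - 128 * s.η c / s.T

structure Ok : Prop where
  hA : s.h ∉ s.A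
  hT : 10 ^ 5 ≤ s.T
  hY : 0 < s.Y
  e0 : 0 ≤ s.e
  e2 : s.e ≤ 2
  hη : ∀ c ∈ s.A, 1 ≤ s.η c
  hδ : ∀ c ∈ s.A, 0 < s.δ c
  hf : ∀ c ∈ s.A, 0 ≤ s.f c
  he : ∑ c ∈ s.A, s.η c * s.δ c = s.e / 64
  hR : ∀ c, 0 ≤ s.R c
  hW : ∀ c, s.R c ≤ s.W c ∧ s.W c ≤ (1 + 9 / s.T) * s.R c
  slack : s.Y ≤ s.W s.h - 400 * (s.e / s.T) * s.R s.h + ∑ c ∈ s.A, s.f c * s.R c

/-- the simplex on `A ∪ {h}` -/
def Sx (q : Λ → ℝ) : Prop := (∀ c, 0 ≤ q c) ∧ ∑ c, q c = 1 ∧ ∀ c, c ≠ s.h → c ∉ s.A → q c = 0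

noncomputable def FF (q : Λ → ℝ) : ℝ :=
  s.T * ((s.R s.h + ∑ c ∈ s.A, s.f c * s.R c) *
      (∑ c ∈ s.A, (q c - s.δ c * Real.log (1 + q c / s.δ c)) / s.η c) -
    ∑ c ∈ s.A, s.f c * s.R c * (Real.log ((q c + s.δ c) / (1 + s.δ c)) / s.η c)) +
  s.Y * (8 * ∑ c ∈ s.A, min (q c) (s.δ c) + 5 * q s.h) + s.Y * ∑ c, |q c - s.q0 c|

variable {s}

theorem sharel_sum {A : Finset Λ} {c : Λ} (hc : c ∈ A) {F G : Λ → ℝ} (h : ∀ i ∈ A, i ≠ c → F i = G i) :
    ∑ i ∈ A, F i = ∑ i ∈ A, G i + (F c - G c) := by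
  rw [← sub_eq_iff_eq_add', ← sum_sub_distrib]
  exact sum_eq_single_of_mem c hc fun i hi hic => sub_eq_zero.2 (h i hi hic)

theorem sharel_log {a b δ x y : ℝ} (ha : 0 ≤ a) (hb : 0 ≤ b) (hδ : 0 < δ) (hx : 0 ≤ x) (hy : 0 ≤ y) :
    a * ((x - δ * Real.log (1 + x / δ)) - (y - δ * Real.log (1 + y / δ))) -
      b * (Real.log ((x + δ) / (1 + δ)) - Real.log ((y + δ) / (1 + δ))) ≤ -((y - x) * (a * x - b) / (x + δ)) := by
  have h1 : ∀ z, 0 ≤ z → Real.log (1 + z / δ) = Real.log (z + δ) - Real.log δ := fun z hz => by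
    rw [← Real.log_div (by positivity) hδ.ne']
    congr 1
    field_simp
    ring
  rw [h1 x hx, h1 y hy, Real.log_div (by positivity) (by positivity), Real.log_div (by positivity) (by positivity)]
  have h2 := Real.log_le_sub_one_of_pos (show 0 < (y + δ) / (x + δ) by positivity)
  rw [Real.log_div (by positivity) (by positivity)] at h2
  have h3 := mul_le_mul_of_nonneg_left h2 (show 0 ≤ a * δ + b by positivity)
  have h4 : -((y - x) * (a * x - b) / (x + δ)) = a * (x - y) + (a * δ + b) * ((y + δ) / (x + δ) - 1) := by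
    field_simp
    ring
  rw [h4]
  linarith

theorem share_light (hs : s.Ok) {q : Λ → ℝ} (hq : s.Sx q) (hmin : ∀ q', s.Sx q' → s.FF q ≤ s.FF q') {c : Λ}
    (hc : c ∈ s.A) : q c * s.Y ≤ s.W c := by
  by_contra h0
  rw [not_le] at h0
  have hT := hs.hT
  have hT0 : 0 < s.T := by linarith
  have hY := hs.hY
  have hη := hs.hη c hc
  have hδ := hs.hδ c hc
  have hf := hs.hf c hc
  have hR := hs.hR c
  have hch : c ≠ s.h := fun h => hs.hA (h ▸ hc)
  have hW := (hs.hW c).1
  have hq0 : 0 < q c := (mul_pos_iff_of_pos_right hY).1 (by linarith)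
  have hS : 0 ≤ ∑ c ∈ s.A, s.f c * s.R c := sum_nonneg fun i hi => mul_nonneg (hs.hf i hi) (hs.hR i)
  set a := s.R s.h + ∑ c ∈ s.A, s.f c * s.R c with ha
  have ha0 : 0 ≤ a := add_nonneg (hs.hR _) hS
  have haY : s.Y ≤ (1 + 9 / s.T) * a := by
    have h1 := hs.slack
    have h2 := (hs.hW s.h).2
    have h3 : 0 ≤ 400 * (s.e / s.T) * s.R s.h := by have := hs.e0; have := hs.hR s.h; positivity
    have h4 : 0 ≤ 9 / s.T * ∑ c ∈ s.A, s.f c * s.R c := by positivity
    rw [ha]
    linarith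
  have haY' : (1 - 9 / s.T) * s.Y ≤ a := by
    have h1 : 9 / s.T ≤ 1 := (div_le_one hT0).2 (by linarith)
    have h2 := mul_le_mul_of_nonneg_left haY (sub_nonneg.2 h1)
    nlinarith [mul_nonneg (sq_nonneg (9 / s.T)) ha0]
  set t := s.Y / (s.Y + a * s.T) with ht
  have ht0 : 0 < t := by positivity
  have ht1 : t ≤ 1 := (div_le_one (by positivity)).2 (by nlinarith)
  have ht2 : a * t ≤ s.Y / s.T := by
    rw [ht, ← mul_div_assoc, div_le_div_iff₀ (by positivity) hT0]
    nlinarith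
  set ε := q c * t with hε
  have hε0 : 0 < ε := by positivity
  have hx : 0 ≤ q c - ε := by nlinarith
  set q' : Λ → ℝ := update (update q c (q c - ε)) s.h (q s.h + ε) with hq'
  have e1 : q' c = q c - ε := by simp [hq', hch]
  have e2 : q' s.h = q s.h + ε := by simp [hq']
  have e3 : ∀ i, i ≠ c → i ≠ s.h → q' i = q i := fun i h1 h2 => by simp [hq', h1, h2]
  have e4 : ∀ i ∈ s.A, i ≠ c → q' i = q i := fun i h1 h2 => e3 i h2 fun h => hs.hA (h ▸ h1)
  have two : ∀ F : Λ → ℝ → ℝ, ∑ i, F i (q' i) =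
      ∑ i, F i (q i) + (F c (q c - ε) - F c (q c)) + (F s.h (q s.h + ε) - F s.h (q s.h)) := fun F => by
    rw [add_assoc, ← sub_eq_iff_eq_add', ← sum_sub_distrib, ← e1, ← e2]
    exact Fintype.sum_eq_add c s.h hch fun i hi => by rw [e3 i hi.1 hi.2, sub_self]
  have hsx : s.Sx q' := by
    refine ⟨fun i => ?_, ?_, fun i h1 h2 => ?_⟩
    · by_cases h1 : i = c
      · rwa [h1, e1]
      by_cases h2 : i = s.h
      · rw [h2, e2]
        linarith [hq.1 s.h]
      · rw [e3 i h1 h2]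
        exact hq.1 i
    · rw [two fun _ x => x, hq.2.1]
      ring
    · rw [e3 i (fun h => h2 (h ▸ hc)) h1]
      exact hq.2.2 i h1 h2
  have h1 := hmin q' hsx
  unfold FF at h1
  rw [← ha, two fun i x => |x - s.q0 i|, e2,
    sharel_sum hc (F := fun i => (q' i - s.δ i * Real.log (1 + q' i / s.δ i)) / s.η i)
      (G := fun i => (q i - s.δ i * Real.log (1 + q i / s.δ i)) / s.η i) (fun i h2 h3 => by rw [e4 i h2 h3]),
    sharel_sum hc (F := fun i => s.f i * s.R i * (Real.log ((q' i + s.δ i) / (1 + s.δ i)) / s.η i))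
      (G := fun i => s.f i * s.R i * (Real.log ((q i + s.δ i) / (1 + s.δ i)) / s.η i))
      (fun i h2 h3 => by rw [e4 i h2 h3]),
    sharel_sum hc (F := fun i => min (q' i) (s.δ i)) (G := fun i => min (q i) (s.δ i))
      (fun i h2 h3 => by rw [e4 i h2 h3]), e1] at h1
  have h2 : |q c - ε - s.q0 c| - |q c - s.q0 c| ≤ ε :=
    (abs_sub_abs_le_abs_sub _ _).trans (abs_le.2 ⟨by linarith, by linarith⟩)
  have h3 : |q s.h + ε - s.q0 s.h| - |q s.h - s.q0 s.h| ≤ ε :=
    (abs_sub_abs_le_abs_sub _ _).trans (abs_le.2 ⟨by linarith, by linarith⟩)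
  have h4 := sharel_log ha0 (mul_nonneg hf hR) hδ hx hq0.le
  have h5 : 118 * s.η c * q c * s.Y / s.T ≤ a * (q c - ε) - s.f c * s.R c := by
    have g1 : s.f c * s.R c ≤ s.f c * (q c * s.Y) := by gcongr; linarith
    have g2 := mul_le_mul_of_nonneg_left haY' hq0.le
    have g3 := mul_le_mul_of_nonneg_left ht2 hq0.le
    have g4 : q c * (s.Y / s.T) ≤ s.η c * (q c * (s.Y / s.T)) := le_mul_of_one_le_left (by positivity) hη
    have g5 : s.f c * (q c * s.Y) = q c * s.Y - 128 * (s.η c * (q c * (s.Y / s.T))) := by unfold f; ring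
    have g6 : 118 * s.η c * q c * s.Y / s.T = 118 * (s.η c * (q c * (s.Y / s.T))) := by ring
    have g7 : q c * ((1 - 9 / s.T) * s.Y) = q c * s.Y - 9 * (q c * (s.Y / s.T)) := by ring
    rw [hε]
    linarith
  have h6 : ε * (118 * s.η c * q c * s.Y / s.T) / (q c + s.δ c) ≤
      (q c - (q c - ε)) * (a * (q c - ε) - s.f c * s.R c) / (q c - ε + s.δ c) := by
    rw [sub_sub_cancel]
    gcongr
    · exact mul_nonneg hε0.le (le_trans (by positivity) h5)
    · linarith
  have h7 := mul_le_mul_of_nonneg_left (h4.trans (neg_le_neg h6)) (show 0 ≤ s.T / s.η c by positivity)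
  have h8 : s.T / s.η c * -(ε * (118 * s.η c * q c * s.Y / s.T) / (q c + s.δ c)) =
      -(s.Y * ε * (118 * q c / (q c + s.δ c))) := by field_simp
  have h9 : 8 * (min (q c - ε) (s.δ c) - min (q c) (s.δ c)) - ε * (118 * q c / (q c + s.δ c)) ≤ -8 * ε := by
    rcases le_total (q c) (s.δ c) with g | g
    · rw [min_eq_left g, min_eq_left (by linarith)]
      have : 0 ≤ ε * (118 * q c / (q c + s.δ c)) := by positivity
      linarith
    · have g1 : min (q c - ε) (s.δ c) ≤ min (q c) (s.δ c) := min_le_min_right _ (by linarith)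
      have g2 : 8 ≤ 118 * q c / (q c + s.δ c) := by rw [le_div_iff₀ (by positivity)]; linarith
      nlinarith
  have h10 := mul_le_mul_of_nonneg_left h9 hY.le
  have h11 := mul_le_mul_of_nonneg_left (add_le_add h2 h3) hY.le
  have h12 := mul_pos hY hε0
  rw [h8] at h7
  simp only [div_eq_mul_inv] at h1 h7 h10
  linarith

theorem share_heavy_log {t : ℝ} (ht : 0 ≤ t) : t - t ^ 2 ≤ Real.log (1 + t) := by
  have h := Real.one_sub_inv_le_log_of_pos (show 0 < 1 + t by linarith)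
  have : t - t ^ 2 ≤ 1 - (1 + t)⁻¹ := by
    have h1 : 1 - (1 + t)⁻¹ = t / (1 + t) := by field_simp; ring
    rw [h1, le_div_iff₀ (by linarith)]
    nlinarith [pow_nonneg ht 3]
  linarith

theorem share_heavy_step (hs : s.Ok) {q : Λ → ℝ} (hq : s.Sx q) {Z ε : ℝ}
    (hZ : Z = ∑ c ∈ s.A, s.η c * (q c + s.δ c)) (hZ0 : 0 < Z) (hε : 0 < ε) (hεq : ε ≤ q s.h)
    {μ : ℝ} (hμ : μ = 1 ∨ μ = s.e / (32 * Z)) : ∃ q', s.Sx q' ∧ s.FF q' ≤ s.FF q +
      ε * (s.T * ((s.R s.h - (s.R s.h + ∑ c ∈ s.A, s.f c * s.R c) * q s.h) / Z) + s.Y * (8 * μ - 3)) +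
      ε ^ 2 * (s.T * ∑ c ∈ s.A,
        ((s.R s.h + ∑ c ∈ s.A, s.f c * s.R c) * s.δ c + s.f c * s.R c) * s.η c / Z ^ 2) := by
  obtain ⟨q0, q1, q2⟩ := hq
  set Rh := s.R s.h + ∑ c ∈ s.A, s.f c * s.R c with hRh
  have hRh0 : 0 ≤ Rh := add_nonneg (hs.hR _) (sum_nonneg fun c hc => mul_nonneg (hs.hf c hc) (hs.hR c))
  let p : Λ → ℝ := fun c => s.η c * (q c + s.δ c) / Z
  have hp0 : ∀ c ∈ s.A, 0 ≤ p c := fun c hc => by
    have := hs.hη c hc; have := hs.hδ c hc; have := q0 c
    positivity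
  have hp1 : ∑ c ∈ s.A, p c = 1 := by rw [← sum_div, ← hZ, div_self hZ0.ne']
  let d : Λ → ℝ := fun c => (if c ∈ s.A then ε * p c else 0) - if c = s.h then ε else 0
  have hdA : ∀ c ∈ s.A, d c = ε * p c := fun c hc => by
    have : c ≠ s.h := fun h => hs.hA (h ▸ hc)
    simp [d, hc, this]
  have hdh : d s.h = -ε := by simp [d, hs.hA]
  have hsA : ∑ c, (if c ∈ s.A then ε * p c else 0) = ε := by
    rw [sum_ite_mem, univ_inter, ← mul_sum, hp1, mul_one]
  have hqA : ∑ c ∈ s.A, q c = 1 - q s.h := by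
    rw [← q1, ← sum_subset (subset_univ (insert s.h s.A)) fun c _ hc => q2 c
      (fun h => hc (h ▸ mem_insert_self _ _)) fun h => hc (mem_insert_of_mem h), sum_insert hs.hA]
    ring
  refine ⟨fun c => q c + d c, ⟨fun c => ?_, ?_, fun c h1 h2 => by simp [d, h1, h2, q2 c h1 h2]⟩, ?_⟩
  · change 0 ≤ q c + d c
    by_cases hc : c ∈ s.A
    · rw [hdA c hc]; exact add_nonneg (q0 c) (mul_nonneg hε.le (hp0 c hc))
    · by_cases hh : c = s.h
      · rw [hh, hdh]; linarith
      · simp [d, hc, hh, q0 c]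
  · rw [sum_add_distrib, q1, sum_sub_distrib, hsA]; simp
  -- the logarithmic terms
  have hlog : ∀ c ∈ s.A, Rh * ((q c + d c - s.δ c * Real.log (1 + (q c + d c) / s.δ c)) / s.η c) -
      s.f c * s.R c * (Real.log ((q c + d c + s.δ c) / (1 + s.δ c)) / s.η c) ≤
      Rh * ((q c - s.δ c * Real.log (1 + q c / s.δ c)) / s.η c) -
      s.f c * s.R c * (Real.log ((q c + s.δ c) / (1 + s.δ c)) / s.η c) +
      ε * ((Rh * q c - s.f c * s.R c) / Z) +
      ε ^ 2 * ((Rh * s.δ c + s.f c * s.R c) * s.η c / Z ^ 2) := by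
    intro c hc
    have hη := hs.hη c hc; have hδ := hs.hδ c hc; have hq := q0 c
    have hη0 : 0 < s.η c := by linarith
    have hfR := mul_nonneg (hs.hf c hc) (hs.hR c)
    set t := ε * s.η c / Z with ht
    have ht0 : 0 ≤ t := by positivity
    have e1 : 1 + (q c + d c) / s.δ c = (1 + q c / s.δ c) * (1 + t) := by
      rw [hdA c hc]; simp only [p, ht]; field_simp; ring
    have e2 : (q c + d c + s.δ c) / (1 + s.δ c) = (q c + s.δ c) / (1 + s.δ c) * (1 + t) := by
      rw [hdA c hc]; simp only [p, ht]; field_simp; ring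
    rw [e1, e2, Real.log_mul (by positivity) (by positivity),
      Real.log_mul (by positivity) (by positivity)]
    have h1 := mul_le_mul_of_nonneg_left (share_heavy_log ht0)
      (div_nonneg (add_nonneg (mul_nonneg hRh0 hδ.le) hfR) hη0.le)
    have e3 : (Rh * s.δ c + s.f c * s.R c) / s.η c * (t - t ^ 2) =
        ε * ((Rh * s.δ c + s.f c * s.R c) / Z) -
          ε ^ 2 * ((Rh * s.δ c + s.f c * s.R c) * s.η c / Z ^ 2) := by
      rw [ht]; field_simp
    have e4 : Rh * (d c / s.η c) = ε * ((Rh * q c - s.f c * s.R c) / Z) +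
        ε * ((Rh * s.δ c + s.f c * s.R c) / Z) := by
      rw [hdA c hc]; simp only [p]; field_simp; ring
    have e5 : ∀ L1 L2 L : ℝ, Rh * ((q c + d c - s.δ c * (L1 + L)) / s.η c) -
        s.f c * s.R c * ((L2 + L) / s.η c) = Rh * ((q c - s.δ c * L1) / s.η c) -
        s.f c * s.R c * (L2 / s.η c) + Rh * (d c / s.η c) -
        (Rh * s.δ c + s.f c * s.R c) / s.η c * L := fun _ _ _ => by ring
    rw [e5]
    linarith
  have hS := sum_le_sum hlog
  simp only [sum_add_distrib, sum_sub_distrib, ← mul_sum, ← sum_div] at hS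
  rw [hqA] at hS
  have hS2 : (Rh * (1 - q s.h) - ∑ c ∈ s.A, s.f c * s.R c) = s.R s.h - Rh * q s.h := by
    rw [hRh]; ring
  rw [hS2] at hS
  have hmin : ∑ c ∈ s.A, min (q c + d c) (s.δ c) ≤ ∑ c ∈ s.A, min (q c) (s.δ c) + ε * μ := by
    rcases hμ with rfl | rfl
    · rw [← hp1, mul_sum, ← sum_add_distrib]
      refine sum_le_sum fun c hc => ?_
      rw [hdA c hc, ← min_add_add_right]
      exact min_le_min le_rfl (le_add_of_nonneg_right (mul_nonneg hε.le (hp0 c hc)))
    · have e : ε * (s.e / (32 * Z)) = ∑ c ∈ s.A, ε * (2 * (s.η c * s.δ c) / Z) := by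
        rw [← mul_sum, ← sum_div, ← mul_sum, hs.he]; field_simp; ring
      rw [e, ← sum_add_distrib]
      refine sum_le_sum fun c hc => ?_
      have hη := hs.hη c hc; have hδ := hs.hδ c hc
      rcases le_total (q c) (s.δ c) with h | h
      · rw [min_eq_left h, hdA c hc]
        refine (min_le_left _ _).trans (add_le_add_right (mul_le_mul_of_nonneg_left ?_ hε.le) _)
        exact div_le_div_of_nonneg_right (by nlinarith) hZ0.le
      · rw [min_eq_right h]
        exact (min_le_right _ _).trans (le_add_of_nonneg_right (by positivity))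
  have habs : ∑ c, |q c + d c - s.q0 c| ≤ ∑ c, |q c - s.q0 c| + 2 * ε := by
    have e : 2 * ε = ∑ c, ((if c ∈ s.A then ε * p c else 0) + if c = s.h then ε else 0) := by
      rw [sum_add_distrib, hsA]; simp; ring
    rw [e, ← sum_add_distrib]
    refine sum_le_sum fun c _ => ?_
    have h1 : 0 ≤ (if c ∈ s.A then ε * p c else 0) := by
      split_ifs with hc
      exacts [mul_nonneg hε.le (hp0 c hc), le_rfl]
    have h2 : 0 ≤ (if c = s.h then ε else 0) := by
      split_ifs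
      exacts [hε.le, le_rfl]
    refine abs_le.2 ⟨?_, ?_⟩ <;> simp only [d] <;>
      linarith [neg_abs_le (q c - s.q0 c), le_abs_self (q c - s.q0 c)]
  have hT : 0 ≤ s.T := le_trans (by norm_num) hs.hT
  have h1 := mul_le_mul_of_nonneg_left hS hT
  have h2 := mul_le_mul_of_nonneg_left hmin hs.hY.le
  have h3 := mul_le_mul_of_nonneg_left habs hs.hY.le
  simp only [FF, ← hRh, hdh, ← sum_div]
  nlinarith

theorem share_heavy (hs : s.Ok) {q : Λ → ℝ} (hq : s.Sx q) (hmin : ∀ q', s.Sx q' → s.FF q ≤ s.FF q') :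
    q s.h * s.Y ≤ s.W s.h := by
  by_contra hcon
  push Not at hcon
  obtain ⟨q0, q1, q2⟩ := id hq
  set Rh := s.R s.h + ∑ c ∈ s.A, s.f c * s.R c with hRh
  have hY := hs.hY
  have hT := hs.hT
  have hT0 : 0 < s.T := by linarith
  have hR := hs.hR s.h
  obtain ⟨hW1, hW2⟩ := hs.hW s.h
  have hqh : q s.h ≤ 1 := q1 ▸ single_le_sum (fun c _ => q0 c) (mem_univ _)
  have hqh0 : 0 < q s.h := by
    by_contra h
    have : q s.h = 0 := le_antisymm (not_lt.1 h) (q0 _)
    rw [this] at hcon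
    linarith
  have hsl : s.Y ≤ Rh + (s.W s.h - s.R s.h) - 400 * (s.e / s.T) * s.R s.h := by
    have := hs.slack
    rw [hRh]; linarith
  have heT : 0 ≤ 400 * (s.e / s.T) * s.R s.h := by have := hs.e0; positivity
  have hD : q s.h * (400 * (s.e / s.T) * s.R s.h) < Rh * q s.h - s.R s.h := by
    nlinarith [mul_le_mul_of_nonneg_left hsl hqh0.le,
      mul_nonneg (sub_nonneg.2 hqh) (sub_nonneg.2 hW1)]
  have hD0 : 0 < Rh * q s.h - s.R s.h := (mul_nonneg hqh0.le heT).trans_lt hD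
  have hne : s.A.Nonempty := by
    rcases s.A.eq_empty_or_nonempty with h | h
    · rw [hRh, h, sum_empty] at hD0
      nlinarith
    · exact h
  set Z := ∑ c ∈ s.A, s.η c * (q c + s.δ c) with hZ
  have hZ0 : 0 < Z := sum_pos (fun c hc => by
    have := hs.hη c hc; have := hs.hδ c hc; have := q0 c
    positivity) hne
  have hqA : ∑ c ∈ s.A, q c = 1 - q s.h := by
    rw [← q1, ← sum_subset (subset_univ (insert s.h s.A)) fun c _ hc => q2 c
      (fun h => hc (h ▸ mem_insert_self _ _)) fun h => hc (mem_insert_of_mem h), sum_insert hs.hA]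
    ring
  have hZq : 1 - q s.h ≤ Z := by
    rw [← hqA]
    refine sum_le_sum fun c hc => ?_
    have := hs.hη c hc; have := hs.hδ c hc; have := q0 c
    nlinarith
  obtain ⟨μ, hμ, hγ⟩ : ∃ μ : ℝ, (μ = 1 ∨ μ = s.e / (32 * Z)) ∧
      s.T * ((s.R s.h - Rh * q s.h) / Z) + s.Y * (8 * μ - 3) < 0 := by
    rcases le_or_gt (s.e / 8) Z with h | h
    · refine ⟨_, Or.inr rfl, ?_⟩
      have h1 : s.e / (32 * Z) ≤ 1 / 4 := by
        rw [div_le_iff₀ (by positivity)]; linarith
      have h2 : (s.R s.h - Rh * q s.h) / Z < 0 := div_neg_of_neg_of_pos (by linarith) hZ0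
      nlinarith
    · refine ⟨1, Or.inl rfl, ?_⟩
      have he2 := hs.e2
      have h34 : 3 / 4 ≤ q s.h := by linarith
      have key : 5 * s.Y * Z < s.T * (Rh * q s.h - s.R s.h) := by
        rcases le_or_gt (s.R s.h) (s.Y / 2) with h1 | h1
        · have h9 : 9 / s.T ≤ 1 / 10 := by rw [div_le_iff₀ hT0]; linarith
          have h2 : s.W s.h - s.R s.h ≤ s.Y / 20 := by nlinarith
          have h3 : 19 / 20 * s.Y ≤ Rh := by linarith
          have h4 : s.Y / 5 ≤ Rh * q s.h - s.R s.h := by nlinarith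
          nlinarith
        · have e : s.T * (q s.h * (400 * (s.e / s.T) * s.R s.h)) = 400 * s.e * (q s.h * s.R s.h) := by
            field_simp
          have h2 := mul_lt_mul_of_pos_left hD hT0
          rw [e] at h2
          have h3 : 3 / 8 * s.Y ≤ q s.h * s.R s.h := by nlinarith
          have h4 := mul_le_mul_of_nonneg_left h3 hs.e0
          nlinarith
      have e : s.T * ((s.R s.h - Rh * q s.h) / Z) + s.Y * (8 * 1 - 3) =
          (5 * s.Y * Z - s.T * (Rh * q s.h - s.R s.h)) / Z := by field_simp; ring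
      rw [e]
      exact div_neg_of_neg_of_pos (by linarith) hZ0
  set γ := s.T * ((s.R s.h - Rh * q s.h) / Z) + s.Y * (8 * μ - 3) with hγ'
  set K := s.T * ∑ c ∈ s.A, (Rh * s.δ c + s.f c * s.R c) * s.η c / Z ^ 2 with hK
  set ε := min (q s.h) (-γ / (|K| + 1)) with hε
  have hε0 : 0 < ε := lt_min hqh0 (div_pos (by linarith) (by positivity))
  obtain ⟨q', hq', hle⟩ := share_heavy_step hs hq hZ hZ0 hε0 (min_le_left _ _) hμ
  have h1 := hmin q' hq'
  have h2 : ε * (|K| + 1) ≤ -γ := (le_div_iff₀ (by positivity)).1 (min_le_right _ _)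
  rw [← hRh, ← hγ', ← hK] at hle
  have h3 : ε * K ≤ ε * |K| := mul_le_mul_of_nonneg_left (le_abs_self K) hε0.le
  have h4 : γ + ε * K < 0 := by nlinarith
  nlinarith [mul_neg_of_pos_of_neg hε0 h4]

/-- compactness -/
theorem share_min (hs : s.Ok) : ∃ q, s.Sx q ∧ ∀ q', s.Sx q' → s.FF q ≤ s.FF q' := by
  have h1 : IsCompact {q | s.Sx q} := by
    refine (isCompact_stdSimplex ℝ Λ).of_isClosed_subset ?_ fun q hq => ⟨hq.1, hq.2.1⟩
    simp only [Sx, Set.setOf_and, Set.setOf_forall]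
    exact (isClosed_iInter fun c => isClosed_le continuous_const (continuous_apply c)).inter
      ((isClosed_eq (by fun_prop) continuous_const).inter (isClosed_iInter fun c => isClosed_iInter fun _ =>
        isClosed_iInter fun _ => isClosed_eq (continuous_apply c) continuous_const))
  have h2 : ContinuousOn s.FF {q | s.Sx q} := by
    unfold FF
    refine ((continuousOn_const.mul ((continuousOn_const.mul (continuousOn_finsetSum _ fun c hc => ?_)).sub
      (continuousOn_finsetSum _ fun c hc => ?_))).add (by fun_prop)).add (by fun_prop)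
    · have := hs.hδ c hc
      exact ((continuous_apply c).continuousOn.sub (continuousOn_const.mul (ContinuousOn.log (by fun_prop)
        fun q hq => by have := hq.1 c; positivity))).div_const _
    · have := hs.hδ c hc
      exact continuousOn_const.mul ((ContinuousOn.log (by fun_prop)
        fun q hq => by have := hq.1 c; positivity).div_const _)
  obtain ⟨q, hq, h3⟩ := h1.exists_isMinOn ⟨Pi.single s.h 1, fun c => by by_cases hc : c = s.h <;> simp [hc],
    by simp, fun c hc _ => by simp [hc]⟩ h2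
  exact ⟨q, hq, fun q' hq' => h3 hq'⟩

end Sh

end Crest.Agent.R314
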