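import Crest.Agent.R314.Pol
import Crest.Agent.R314.Rep
import Crest.Agent.R232.Minimax

/-!
# Row 314: from the bound on the value to the policy

* `pol_of_yao`: `R232.minimax_set` on the index type `↥I` (if `I` is nonempty) for the set of `y` with
  `∃ A, ∀ σ, ec A [] [] s σ - c * opt s σ ≤ y σ` (convex by `exists_mix`); for a distribution `P` on `↥I`
  reindex by `Fin (card)` (`Fintype.equivFin`; `Ξ` must live in `Type`) and use `exists_proc`, `Yao`,
  `exists_pol_U`, `ec_prefix`.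
* `pol_strict`: `pol_compact`; for a finite `I` let `Y` be the finite subtype of the points of `s` and of
  the lists in `I`; `yao_strict`, `pol_of_yao`, `exists_pol_map`, `opt_map`.
* `final`: for non-injective `s` use the policy of an injective `s'` (from the embedding), `ec_lip`,
  `opt_lip`, with `B = (c + 1) * ∑ i, dist (s i) (s' i)`.
-/

set_option autoImplicit false
set_option linter.unusedSectionVars false
set_option linter.unusedVariables false

namespace Crest.Agent.R314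

open Finset Function Crest.LogicCS.KServer

universe u

theorem pol_of_yao {X : Type*} [MetricSpace X] [Fintype X] {k : ℕ} (hk : 0 < k) {s : Fin k → X} {c : ℝ}
    (h : Yao s c 0) (I : Finset (List X)) {ε : ℝ} (hε : 0 < ε) :
    ∃ A : Policy X k, ∀ σ ∈ I, ec A [] [] s σ ≤ c * opt s σ + ε := by
  classical
  set I' : Finset (List X) := insert [] I with hI'
  haveI : Nonempty I' := ⟨⟨[], Finset.mem_insert_self _ _⟩⟩
  obtain ⟨y, ⟨A, hA⟩, hy⟩ := R232.minimax_set
    {y : I' → ℝ | ∃ A : Policy X k, ∀ σ : I', ec A [] [] s σ - c * opt s σ ≤ y σ} (by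
      rintro x ⟨A, hA⟩ y ⟨B, hB⟩ a b ha hb hab
      obtain ⟨M, hM⟩ := exists_mix A B ha (by linarith)
      refine ⟨M, fun σ => ?_⟩
      obtain rfl : b = 1 - a := by linarith
      simp only [hM, Pi.add_apply, Pi.smul_apply, smul_eq_mul]
      nlinarith [mul_le_mul_of_nonneg_left (hA σ) ha, mul_le_mul_of_nonneg_left (hB σ) hb])
    0 ε hε (fun P h0 h1 => by
      let e := (Fintype.equivFin I').symm
      obtain ⟨p, H, e1, e2, e3, e4⟩ := exists_proc hk (fun ξ => (e ξ).1) (P := fun ξ => P (e ξ))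
        (fun ξ => h0 _) s
      have h2 := h _ p H e2 (by rw [e1, ← h1]; exact e.sum_comp P)
      obtain ⟨A, hA⟩ := exists_pol_U hk p.σ p.P0 H s
      refine ⟨fun σ => ec A [] [] s σ - c * opt s σ, ⟨A, fun σ => le_rfl⟩, ?_⟩
      rw [← e.sum_comp]
      have h3 : ∑ ξ, P (e ξ) * ec A [] [] s (e ξ) ≤
          ∑ ξ, p.P ξ * ec A [] [] s ((List.range H).map (p.σ ξ)) := by
        rw [e1]
        refine Finset.sum_le_sum fun ξ _ => mul_le_mul_of_nonneg_left ?_ (h0 _)
        obtain ⟨τ, hτ⟩ := e3 ξ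
        rw [← hτ]
        exact ec_prefix _ _ _ _ _ _
      have h4 : ∑ ξ, P (e ξ) * (ec A [] [] s (e ξ) - c * opt s (e ξ)) =
          ∑ ξ, P (e ξ) * ec A [] [] s (e ξ) - c * p.cost H := by
        rw [e4, Finset.mul_sum, ← Finset.sum_sub_distrib]
        exact Finset.sum_congr rfl fun ξ _ => by ring
      rw [h4]
      linarith)
  refine ⟨A, fun σ hσ => ?_⟩
  have h1 := hA ⟨σ, Finset.mem_insert_of_mem hσ⟩
  have h2 := hy ⟨σ, Finset.mem_insert_of_mem hσ⟩
  simp only at h1
  linarith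

theorem pol_strict {k : ℕ} (hk : 0 < k) {c : ℝ} (hc : 0 ≤ c)
    (h : ∀ (Y : Type u) [MetricSpace Y] [Fintype Y] (s : Fin k → Y), ∃ B, Yao s c B)
    {X : Type u} [MetricSpace X] {s : Fin k → X} (hs : Injective s) :
    ∃ A : Policy X k, ∀ σ, ec A [] [] s σ ≤ 2 * c * opt s σ := by
  classical
  refine pol_compact s _ fun I ε hε => ?_
  let S : Finset X := Finset.univ.image s ∪ I.biUnion List.toFinset
  let s' : Fin k → S := fun i => ⟨s i, by simp [S]⟩
  have hs' : Injective s' := fun i j hij => hs (congrArg Subtype.val hij)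
  obtain ⟨B, hB⟩ := h S s'
  have hl : ∀ σ : I, ∃ τ : List S, τ.map Subtype.val = σ.1 := fun σ =>
    ⟨σ.1.attachWith (· ∈ S) fun x hx => Finset.mem_union_right _
      (Finset.mem_biUnion.2 ⟨σ.1, σ.2, List.mem_toFinset.2 hx⟩), by simp⟩
  choose f hf using hl
  obtain ⟨A, hA⟩ := pol_of_yao hk (yao_strict hk hs' hc hB) (Finset.univ.image f) hε
  obtain ⟨A', hA'⟩ := exists_pol_map (X := X) (isometry_subtype_coe (s := (S : Set X))) A
  refine ⟨A', fun σ hσ => ?_⟩
  have h1 := hA (f ⟨σ, hσ⟩) (Finset.mem_image_of_mem _ (Finset.mem_univ _))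
  have h2 := hA' s' (f ⟨σ, hσ⟩)
  have h3 := opt_map (X := X) (isometry_subtype_coe (s := (S : Set X))) s' (f ⟨σ, hσ⟩)
  rw [← h2, ← h3] at h1
  have h4 := hf ⟨σ, hσ⟩
  simp only at h4
  rw [← h4]
  exact h1

theorem final {k : ℕ} (hk : 0 < k) {c : ℝ} (hc : 0 ≤ c)
    (h : ∀ (Y : Type u) [MetricSpace Y] [Fintype Y] (s : Fin k → Y), ∃ B, Yao s c B)
    {X : Type u} [MetricSpace X] (hX : Nonempty (Fin (k + 1) ↪ X)) (s : Fin k → X) :
    ∃ (A : Policy X k) (B : ℝ), 0 ≤ B ∧ (Injective s → B = 0) ∧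
      ∀ (σ : List X) (j : Fin σ.length → Fin k),
        expCost A s σ ≤ 2 * c * pathCost s (σ.zip (List.ofFn j)) + B := by
  have hc2 : 0 ≤ 2 * c := by linarith
  by_cases hs : Injective s
  · obtain ⟨A, hA⟩ := pol_strict hk hc h hs
    refine ⟨A, 0, le_rfl, fun _ => rfl, fun σ j => ?_⟩
    rw [expCost_eq, add_zero]
    exact (hA σ).trans (mul_le_mul_of_nonneg_left (opt_le s σ j) hc2)
  · obtain ⟨e⟩ := hX
    let s' : Fin k → X := fun i => e i.castSucc
    have hs' : Injective s' := e.injective.comp (Fin.castSucc_injective k)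
    obtain ⟨A, hA⟩ := pol_strict hk hc h hs'
    have hD : 0 ≤ ∑ i, dist (s i) (s' i) := Finset.sum_nonneg fun _ _ => dist_nonneg
    refine ⟨A, (2 * c + 1) * ∑ i, dist (s i) (s' i), by positivity, fun h' => absurd h' hs,
      fun σ j => ?_⟩
    have h1 := ec_lip A [] [] s s' σ
    have h2 := opt_lip s' s σ
    simp only [dist_comm (s' _)] at h2
    have h3 := mul_le_mul_of_nonneg_left (h2.trans (add_le_add_left (opt_le s σ j) _)) hc2
    rw [expCost_eq]
    linarith [hA σ]

end Crest.Agent.R314
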