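import Crest.Agent.R314.Page
import Crest.Agent.R314.Shares

/-!
# Row 314: the star algorithm -- definitions and elementary steps

A node has mass `n`, slope `γ`; child `c` has true pages `a c`, estimates `z c`, snapshots `w c`, `wD c`, share
`q c` of the deficit `Y`; it receives the mass `nn c` and the slope `gam c`.  `h` is the heavy child.
See `notes314/I.md`.
-/

set_option autoImplicit false
set_option linter.unusedSectionVars false
set_option linter.unusedVariables false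

namespace Crest.Agent.R314

open Finset Function

structure Star (Λ : Type*) (k : ℕ) where
  z : Λ → Fin k → ℝ
  w : Λ → Fin k → ℝ
  wD : Λ → Fin k → ℝ
  q : Λ → ℝ
  h : Λ

variable {Λ : Type*} [Fintype Λ] [DecidableEq Λ] {k : ℕ}

namespace Star

variable (S : Star Λ k) (T γ n : ℝ)

noncomputable def mh (c : Λ) : ℝ := Lf 2 (S.w c)
noncomputable def Dh : ℝ := ∑ c, Lf 2 (S.wD c)
open Classical in
/-- active light children -/
noncomputable def act : Finset Λ := univ.filter fun c => c ≠ S.h ∧ 1 / 11 ≤ S.mh c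
noncomputable def eta (c : Λ) : ℝ := 1 + Real.log (2 * S.Dh / S.mh c)
noncomputable def del (c : Λ) : ℝ := S.mh c / (64 * S.Dh * S.eta c)
noncomputable def eps : ℝ := (∑ c ∈ S.act, S.mh c) / S.Dh
noncomputable def tht (c : Λ) : ℝ :=
  if c = S.h then 256 * S.eps / T else if c ∈ S.act then 256 * S.eta c / T else 0
noncomputable def gam (c : Λ) : ℝ := γ + 8 * S.tht T c
noncomputable def B (c : Λ) : ℝ := BP T (S.gam T γ c) (S.z c)
noncomputable def Y : ℝ := max (∑ c, S.B T γ c - n) 0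
noncomputable def nn (c : Λ) : ℝ := S.B T γ c - S.q c * S.Y T γ n
noncomputable def Rt (x : Λ → Fin k → ℝ) (c : Λ) : ℝ := RtP (S.gam T γ c) (S.z c) (x c)
noncomputable def fac (c : Λ) : ℝ := if c = S.h then 1 else 1 - S.tht T c / 2
noncomputable def Sq : ℝ := ∑ c ∈ S.act, (S.q c - S.del c * Real.log (1 + S.q c / S.del c)) / S.eta c
noncomputable def psi (c : Λ) : ℝ :=
  if c = S.h then S.Sq else if c ∈ S.act then
    -Real.log ((S.q c + S.del c) / (1 + S.del c)) / S.eta c + S.Sq else 0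
noncomputable def co : ℝ := 8 * ∑ c ∈ S.act, min (S.q c) (S.del c) + 5 * S.q S.h
/-- the potential, affine in `x` -/
noncomputable def Phi (x : Λ → Fin k → ℝ) : ℝ :=
  T * ∑ c, S.fac T c * S.psi c * S.Rt T γ x c + 1024 * T * ∑ c, br (x c) (S.z c) +
    10 ^ 6 * T * (∑ c, br (x c) (S.w c) + ∑ c, br (x c) (S.wD c)) + S.Y T γ n * S.co

structure Ok : Prop where
  h3 : 3 ≤ γ
  h4 : ∀ c, S.gam T γ c ≤ 4
  hz : ∀ c, In01 (S.z c)
  hw : ∀ c, In01 (S.w c)
  hwD : ∀ c, In01 (S.wD c)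
  q0 : ∀ c, 0 ≤ S.q c
  q1 : ∑ c, S.q c = 1
  qi : ∀ c, c ≠ S.h → c ∉ S.act → S.q c = 0
  hm : ∑ c ∈ S.act, S.mh c ≤ 2 * S.Dh
  hh : ∀ c, Lf 2 (S.wD c) ≤ Lf 2 (S.wD S.h)

def Zs (a : Λ → Fin k → ℝ) : Prop := ∀ c, ZsP T (S.gam T γ c) (S.z c) (a c)

def Ws (a : Λ → Fin k → ℝ) : Prop :=
  (∀ c, sqd (a c) (S.w c) ≤ S.mh c / 100) ∧ ∑ c, sqd (a c) (S.wD c) ≤ S.Dh / 100

structure Settled (a : Λ → Fin k → ℝ) : Prop where
  ok : S.Ok T γ
  zs : S.Zs T γ a
  ws : S.Ws a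
  cap : ∀ c, Lf (S.gam T γ c) (a c) ≤ S.nn T γ n c

/-- movement between two states -/
noncomputable def Mov (S' : Star Λ k) (γ' n' : ℝ) : ℝ := ∑ c, |S'.nn T γ' n' c - S.nn T γ n c|

/-- admissible range of the slope -/
def Rng (k : ℕ) (T g M : ℝ) : Prop := g ≤ 3 + 2 ^ 15 / T * Real.log (k / max M (1 / 28))

variable {S T γ n} {a : Λ → Fin k → ℝ}

/-! ### part a: parameters -/

theorem StarA_mh_nonneg (c : Λ) : 0 ≤ S.mh c := Lf_nonneg _ _

theorem StarA_Dh_nonneg : 0 ≤ S.Dh := Finset.sum_nonneg fun c _ => Lf_nonneg _ _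

theorem StarA_mem_act {c : Λ} : c ∈ S.act ↔ c ≠ S.h ∧ 1 / 11 ≤ S.mh c := by
  simp [act]

theorem StarA_h_not_mem : S.h ∉ S.act := fun h => (StarA_mem_act.1 h).1 rfl

theorem StarA_eps_bd (hm : ∑ c ∈ S.act, S.mh c ≤ 2 * S.Dh) : 0 ≤ S.eps ∧ S.eps ≤ 2 := by
  refine ⟨div_nonneg (Finset.sum_nonneg fun c _ => StarA_mh_nonneg c) StarA_Dh_nonneg, ?_⟩
  rcases (StarA_Dh_nonneg (S := S)).eq_or_lt with h0 | h0
  · rw [eps, ← h0, div_zero]; norm_num
  · rw [eps, div_le_iff₀ h0]; exact hm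

theorem StarA_log33 : Real.log 33 ≤ 4 := by
  rw [Real.log_le_iff_le_exp (by norm_num)]
  have h1 : Real.exp 4 = Real.exp 1 ^ 4 := by rw [← Real.exp_nat_mul]; norm_num
  have h2 : (2.7 : ℝ) ^ 4 ≤ Real.exp 1 ^ 4 :=
    pow_le_pow_left₀ (by norm_num) (by linarith [Real.exp_one_gt_d9]) 4
  rw [h1]
  linarith [show (33 : ℝ) ≤ 2.7 ^ 4 by norm_num]

theorem StarA_log_bd {x η δ q : ℝ} (hx : 1 ≤ x) (hη : η = 1 + Real.log x) (hδ : δ = 1 / (32 * x * η))
    (hq : 0 ≤ q) : -Real.log ((q + δ) / (1 + δ)) ≤ 4 * η := by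
  have hl : 0 ≤ Real.log x := Real.log_nonneg hx
  have hη1 : 1 ≤ η := by linarith
  have hxη : 1 ≤ x * η := by nlinarith
  have hδ0 : 0 < δ := by rw [hδ]; positivity
  have h1 : (33 * x * η)⁻¹ ≤ (q + δ) / (1 + δ) := by
    have h2 : (33 * x * η)⁻¹ ≤ δ / (1 + δ) := by
      have h3 : δ / (1 + δ) = (1 + 32 * x * η)⁻¹ := by
        rw [hδ]; field_simp; ring
      rw [h3]
      exact inv_anti₀ (by positivity) (by nlinarith)
    exact h2.trans (div_le_div_of_nonneg_right (by linarith) (by positivity))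
  have h2 := Real.log_le_log (by positivity) h1
  rw [Real.log_inv, Real.log_mul (by positivity) (by positivity), Real.log_mul (by positivity) (by positivity)] at h2
  have h3 : Real.log η ≤ η - 1 := Real.log_le_sub_one_of_pos (by positivity)
  linarith [StarA_log33]

/-- for active `c`: `0 < mh ≤ 2 Dh`; with `x = 2 Dh / mh ≥ 1`, `log (1 + 1/δ) = log (1 + 32 x η) ≤ 4 η` -/
theorem par_bd (hT : 10 ^ 5 ≤ T) (h : S.Ok T γ) :
    (∀ c ∈ S.act, 1 ≤ S.eta c ∧ 0 < S.del c) ∧ 0 ≤ S.eps ∧ S.eps ≤ 2 ∧ (∀ c, 0 ≤ S.tht T c) ∧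
    (∀ c, 3 ≤ S.gam T γ c) ∧ (∀ c, 0 ≤ S.fac T c ∧ S.fac T c ≤ 1) ∧ (∀ c, 0 ≤ S.psi c ∧ S.psi c ≤ 5) ∧
    0 ≤ S.co ∧ S.co ≤ 8 ∧ ∑ c ∈ S.act, S.eta c * S.del c = S.eps / 64 := by
  have hT0 : 0 < T := by linarith [show (0 : ℝ) < 10 ^ 5 by norm_num]
  have hact : ∀ c ∈ S.act, 0 < S.mh c ∧ 0 < S.Dh ∧ 1 ≤ 2 * S.Dh / S.mh c := by
    intro c hc
    have h1 : 0 < S.mh c := lt_of_lt_of_le (by norm_num) (StarA_mem_act.1 hc).2
    have h2 : S.mh c ≤ 2 * S.Dh :=
      (Finset.single_le_sum (f := S.mh) (fun c _ => StarA_mh_nonneg c) hc).trans h.hm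
    exact ⟨h1, by linarith, by rw [le_div_iff₀ h1]; linarith⟩
  have heta : ∀ c ∈ S.act, 1 ≤ S.eta c := fun c hc => by
    have := Real.log_nonneg (hact c hc).2.2
    rw [eta]; linarith
  have hdel : ∀ c ∈ S.act, 0 < S.del c := fun c hc => by
    have h1 := (hact c hc).1
    have h2 := (hact c hc).2.1
    have h3 := heta c hc
    rw [del]; positivity
  have heps := StarA_eps_bd h.hm
  have htht : ∀ c, 0 ≤ S.tht T c := fun c => by
    rw [tht]
    split_ifs with h1 h2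
    · have := heps.1; positivity
    · have := heta c h2; positivity
    · exact le_rfl
  have hq1 : ∀ c, S.q c ≤ 1 := fun c => by
    rw [← h.q1]; exact Finset.single_le_sum (f := S.q) (fun c _ => h.q0 c) (Finset.mem_univ c)
  have hqs : ∑ c ∈ S.act, S.q c + S.q S.h ≤ 1 := by
    rw [← h.q1, add_comm, ← Finset.sum_insert StarA_h_not_mem]
    exact Finset.sum_le_sum_of_subset_of_nonneg (Finset.subset_univ _) fun c _ _ => h.q0 c
  have hSq : 0 ≤ S.Sq ∧ S.Sq ≤ 1 := by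
    have hb : ∀ c ∈ S.act, 0 ≤ (S.q c - S.del c * Real.log (1 + S.q c / S.del c)) / S.eta c ∧
        (S.q c - S.del c * Real.log (1 + S.q c / S.del c)) / S.eta c ≤ S.q c := by
      intro c hc
      have h1 := heta c hc
      have h2 := hdel c hc
      have h3 := h.q0 c
      have h4 : 0 ≤ S.q c / S.del c := by positivity
      have h5 : Real.log (1 + S.q c / S.del c) ≤ S.q c / S.del c := by
        linarith [Real.log_le_sub_one_of_pos (show 0 < 1 + S.q c / S.del c by positivity)]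
      have h6 : 0 ≤ Real.log (1 + S.q c / S.del c) := Real.log_nonneg (by linarith)
      have h7 : S.del c * Real.log (1 + S.q c / S.del c) ≤ S.q c := by
        calc _ ≤ S.del c * (S.q c / S.del c) := mul_le_mul_of_nonneg_left h5 h2.le
          _ = S.q c := by field_simp
      have h8 : 0 ≤ S.del c * Real.log (1 + S.q c / S.del c) := by positivity
      refine ⟨div_nonneg (by linarith) (by linarith), ?_⟩
      rw [div_le_iff₀ (by linarith)]
      nlinarith
    refine ⟨Finset.sum_nonneg fun c hc => (hb c hc).1, ?_⟩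
    have := Finset.sum_le_sum fun c hc => (hb c hc).2
    rw [Sq]
    linarith [h.q0 S.h]
  refine ⟨fun c hc => ⟨heta c hc, hdel c hc⟩, heps.1, heps.2, htht, fun c => ?_, fun c => ?_, fun c => ?_,
    ?_, ?_, ?_⟩
  · rw [gam]; linarith [htht c, h.h3]
  · have h1 := h.h4 c
    rw [gam] at h1
    rw [fac]
    split_ifs
    · norm_num
    · constructor <;> linarith [htht c, h.h3]
  · rw [psi]
    split_ifs with h1 h2
    · exact ⟨hSq.1, by linarith [hSq.2]⟩
    · have h3 := heta c h2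
      have h4 := hdel c h2
      have h5 := h.q0 c
      have h6 : Real.log ((S.q c + S.del c) / (1 + S.del c)) ≤ 0 := by
        refine Real.log_nonpos (by positivity) ?_
        rw [div_le_one (by positivity)]
        linarith [hq1 c]
      have h7 : -Real.log ((S.q c + S.del c) / (1 + S.del c)) ≤ 4 * S.eta c := by
        refine StarA_log_bd (hact c h2).2.2 rfl ?_ h5
        have h8 := (hact c h2).1
        have h9 := (hact c h2).2.1
        rw [del]
        field_simp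
        ring
      have h8 : 0 ≤ -Real.log ((S.q c + S.del c) / (1 + S.del c)) / S.eta c :=
        div_nonneg (by linarith) (by linarith)
      have h9 : -Real.log ((S.q c + S.del c) / (1 + S.del c)) / S.eta c ≤ 4 := by
        rw [div_le_iff₀ (by linarith)]; exact h7
      constructor <;> linarith [hSq.1, hSq.2]
    · norm_num
  · have h1 : 0 ≤ ∑ c ∈ S.act, min (S.q c) (S.del c) :=
      Finset.sum_nonneg fun c hc => le_min (h.q0 c) (hdel c hc).le
    rw [co]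
    linarith [h.q0 S.h]
  · have h1 : ∑ c ∈ S.act, min (S.q c) (S.del c) ≤ ∑ c ∈ S.act, S.q c :=
      Finset.sum_le_sum fun c hc => min_le_left _ _
    rw [co]
    linarith [h.q0 S.h]
  · rw [eps, Finset.sum_div, Finset.sum_div]
    refine Finset.sum_congr rfl fun c hc => ?_
    have h1 := heta c hc
    have h2 := (hact c hc).2.1
    rw [del]
    field_simp

theorem Rng.le_four {g M : ℝ} (hk : 0 < k) (hT : 2 ^ 15 * Real.log (28 * k) ≤ T) (h : Rng k T g M) : g ≤ 4 := by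
  have hk1 : (1 : ℝ) ≤ k := by exact_mod_cast hk
  have hl : 0 < Real.log (28 * k) := Real.log_pos (by linarith)
  have hT0 : 0 < T := lt_of_lt_of_le (by positivity) hT
  have hm : (1 / 28 : ℝ) ≤ max M (1 / 28) := le_max_right _ _
  have h1 : Real.log (k / max M (1 / 28)) ≤ Real.log (28 * k) := by
    refine Real.log_le_log (by positivity) ?_
    rw [div_le_iff₀ (by positivity)]
    nlinarith
  have h2 : 2 ^ 15 / T * Real.log (k / max M (1 / 28)) ≤ 2 ^ 15 / T * Real.log (28 * k) :=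
    mul_le_mul_of_nonneg_left h1 (by positivity)
  have h3 : 2 ^ 15 / T * Real.log (28 * k) ≤ 1 := by
    rw [div_mul_eq_mul_div, div_le_one hT0]; exact hT
  rw [Rng] at h
  linarith

theorem StarA_track (ha : ∀ c, In01 (a c)) (hw : ∀ c, In01 (S.w c)) (h : S.Ws a) (s : Finset Λ) :
    81 / 100 * ∑ c ∈ s, S.mh c ≤ ∑ c ∈ s, Lf 2 (a c) ∧ ∑ c ∈ s, Lf 2 (a c) ≤ 121 / 100 * ∑ c ∈ s, S.mh c := by
  refine Lf_track s ha hw ?_
  rw [Finset.sum_div]
  exact Finset.sum_le_sum fun c _ => h.1 c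

theorem StarA_trackD (ha : ∀ c, In01 (a c)) (hwD : ∀ c, In01 (S.wD c)) (h : S.Ws a) :
    81 / 100 * S.Dh ≤ ∑ c, Lf 2 (a c) ∧ ∑ c, Lf 2 (a c) ≤ 121 / 100 * S.Dh :=
  Lf_track Finset.univ ha hwD h.2

theorem hm_of_Ws (ha : ∀ c, In01 (a c)) (hw : ∀ c, In01 (S.w c)) (hwD : ∀ c, In01 (S.wD c)) (h : S.Ws a) :
    ∑ c ∈ S.act, S.mh c ≤ 2 * S.Dh := by
  have h1 := (StarA_track ha hw h S.act).1
  have h2 := (StarA_trackD ha hwD h).2
  have h3 : ∑ c ∈ S.act, Lf 2 (a c) ≤ ∑ c, Lf 2 (a c) :=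
    Finset.sum_le_sum_of_subset_of_nonneg (Finset.subset_univ _) fun c _ _ => Lf_nonneg _ _
  linarith [StarA_Dh_nonneg (S := S)]

theorem StarA_red (hk : 0 < k) (hT : 0 < T) {Mv M θ : ℝ} (hγ : Rng k T γ Mv)
    (hθ : θ ≤ 16 * (Real.log (max Mv (1 / 28)) - Real.log (max M (1 / 28)))) :
    Rng k T (γ + 8 * (256 * θ / T)) M := by
  have hk1 : (0 : ℝ) < k := by exact_mod_cast hk
  have hm : (0 : ℝ) < max M (1 / 28) := lt_of_lt_of_le (by norm_num) (le_max_right _ _)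
  have hm' : (0 : ℝ) < max Mv (1 / 28) := lt_of_lt_of_le (by norm_num) (le_max_right _ _)
  rw [Rng, Real.log_div hk1.ne' hm'.ne'] at hγ
  rw [Rng, Real.log_div hk1.ne' hm.ne']
  have h1 : 8 * (256 * θ / T) = 2 ^ 15 / T * (θ / 16) := by ring
  have h2 : 2 ^ 15 / T * (θ / 16) ≤ 2 ^ 15 / T * (Real.log (max Mv (1 / 28)) - Real.log (max M (1 / 28))) :=
    mul_le_mul_of_nonneg_left (by linarith) (by positivity)
  linarith

theorem StarA_log_ge {x y : ℝ} (hx : 0 < x) (hy : 0 < y) : 1 - y / x ≤ Real.log x - Real.log y := by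
  have := Real.one_sub_inv_le_log_of_pos (div_pos hx hy)
  rwa [Real.log_div hx.ne' hy.ne', inv_div] at this

theorem StarA_mink {x y : Fin k → ℝ} (hx : In01 x) (hy : In01 y) : Lf 2 x ≤ 8 / 7 * Lf 2 y + 8 * sqd x y := by
  rw [Lf_two fun i => (hx i).2, Lf_two fun i => (hy i).2, sqd, Finset.mul_sum, Finset.mul_sum,
    ← Finset.sum_add_distrib]
  refine Finset.sum_le_sum fun i _ => ?_
  nlinarith [sq_nonneg ((1 - y i) + 7 * (x i - y i))]

/-- active `c`: `Mv ≥ 0.81 Dh`, `M c ≤ 0.652 Dh` (as `Lf 2 (wD c) ≤ Dh/2`), `M c ≤ 1.21 mh`, so with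
`L = log (Mv / M c) ≥ 0.217`, `η ≤ 2.1 + L ≤ 16 L`.  Heavy child with `act` nonempty: `Mv ≥ M h + 0.81 eps Dh`,
`M h ≤ 1.21 Dh`, `Mv ≥ 0.81/11`, so `eps ≤ 16 L`. -/
theorem rng_child (hk : 0 < k) (hT : 0 < T) (ha : ∀ c, In01 (a c)) (hw : ∀ c, In01 (S.w c))
    (hwD : ∀ c, In01 (S.wD c)) (hh : ∀ c, Lf 2 (S.wD c) ≤ Lf 2 (S.wD S.h)) (h : S.Ws a) {Mv : ℝ}
    (hM : ∑ c, Lf 2 (a c) ≤ Mv) (hγ : Rng k T γ Mv) (c : Λ) : Rng k T (S.gam T γ c) (Lf 2 (a c)) := by
  have hD := StarA_trackD ha hwD h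
  have hc : Lf 2 (a c) ≤ ∑ c, Lf 2 (a c) :=
    Finset.single_le_sum (f := fun c => Lf 2 (a c)) (fun c _ => Lf_nonneg _ _) (Finset.mem_univ c)
  have hm : (0 : ℝ) < max (Lf 2 (a c)) (1 / 28) := lt_of_lt_of_le (by norm_num) (le_max_right _ _)
  have hL : 0 ≤ Real.log (max Mv (1 / 28)) - Real.log (max (Lf 2 (a c)) (1 / 28)) :=
    sub_nonneg.2 (Real.log_le_log hm (max_le_max_right _ (by linarith)))
  have hD0 := StarA_Dh_nonneg (S := S)
  rw [gam, tht]
  split_ifs with h1 h2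
  · refine StarA_red hk hT hγ ?_
    rcases S.act.eq_empty_or_nonempty with h0 | ⟨c', hc'⟩
    · rw [eps, h0, Finset.sum_empty, zero_div]; linarith
    have heps := StarA_eps_bd (hm_of_Ws ha hw hwD h)
    have h3 := (StarA_track ha hw h S.act).1
    have h4 : Lf 2 (a c) + ∑ c ∈ S.act, Lf 2 (a c) ≤ ∑ c, Lf 2 (a c) := by
      rw [h1, ← Finset.sum_insert (f := fun c => Lf 2 (a c)) StarA_h_not_mem]
      exact Finset.sum_le_sum_of_subset_of_nonneg (Finset.subset_univ _) fun c _ _ => Lf_nonneg _ _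
    have h5 : 1 / 11 ≤ ∑ c ∈ S.act, S.mh c :=
      (StarA_mem_act.1 hc').2.trans (Finset.single_le_sum (f := S.mh) (fun c _ => StarA_mh_nonneg c) hc')
    have h6 := Lf_nonneg 2 (a c)
    have hD1 : 0 < S.Dh := by linarith
    have h7 : S.eps * S.Dh = ∑ c ∈ S.act, S.mh c := by rw [eps]; field_simp
    have hMv : 81 / 1100 ≤ Mv := by linarith
    rw [max_eq_left (show 1 / 28 ≤ Mv by linarith)]
    have h8 := StarA_log_ge (show 0 < Mv by linarith) hm
    have h9 : S.eps ≤ 16 * (1 - max (Lf 2 (a c)) (1 / 28) / Mv) := by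
      have h10 : max (Lf 2 (a c)) (1 / 28) / Mv ≤ 1 - S.eps / 16 := by
        rw [div_le_iff₀ (by linarith)]
        refine max_le ?_ (by nlinarith [heps.1, heps.2])
        have h11 : Lf 2 (a c) + 81 / 100 * (S.eps * S.Dh) ≤ Mv := by rw [h7]; linarith
        have h12 : Lf 2 (a c) ≤ 121 / 100 * S.Dh := by linarith
        have h13 : (1 - S.eps / 16) * (Lf 2 (a c) + 81 / 100 * (S.eps * S.Dh)) ≤ (1 - S.eps / 16) * Mv :=
          mul_le_mul_of_nonneg_left h11 (by linarith [heps.2])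
        have h14 : S.eps * Lf 2 (a c) ≤ S.eps * (121 / 100 * S.Dh) := mul_le_mul_of_nonneg_left h12 heps.1
        have h15 : 0 ≤ S.eps * S.Dh := mul_nonneg heps.1 hD0
        have h16 : S.eps * (S.eps * S.Dh) ≤ 2 * (S.eps * S.Dh) := mul_le_mul_of_nonneg_right heps.2 h15
        nlinarith
      linarith
    linarith
  · refine StarA_red hk hT hγ ?_
    have h3 := StarA_track ha hw h {c}
    simp only [Finset.sum_singleton] at h3
    have h4 := (StarA_mem_act.1 h2).2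
    have h5 : Lf 2 (S.wD c) + Lf 2 (S.wD S.h) ≤ S.Dh := by
      rw [← Finset.sum_pair (f := fun c => Lf 2 (S.wD c)) h1]
      exact Finset.sum_le_sum_of_subset_of_nonneg (Finset.subset_univ _) fun c _ _ => Lf_nonneg _ _
    have h6 : sqd (a c) (S.wD c) ≤ S.Dh / 100 :=
      (Finset.single_le_sum (f := fun c => sqd (a c) (S.wD c))
        (fun c _ => Finset.sum_nonneg fun i _ => sq_nonneg _) (Finset.mem_univ c)).trans h.2
    have h7 := StarA_mink (ha c) (hwD c)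
    have h8 : Lf 2 (a c) ≤ 652 / 1000 * S.Dh := by linarith [hh c]
    have hM0 : 0 < Lf 2 (a c) := by linarith [h3.1]
    have hD1 : 0 < S.Dh := by linarith
    have hMv : 0 < Mv := by linarith
    rw [max_eq_left (show 1 / 28 ≤ Mv by linarith [h3.1]), max_eq_left (show 1 / 28 ≤ Lf 2 (a c) by linarith [h3.1])]
    have h9 := StarA_log_ge hMv hM0
    have h10 : Lf 2 (a c) / Mv ≤ 81 / 100 := by
      rw [div_le_iff₀ hMv]; linarith [hD.1]
    have h11 : 2 * S.Dh / S.mh c ≤ 4 * (Mv / Lf 2 (a c)) := by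
      have h12 : 0 < S.mh c := by linarith
      rw [← mul_div_assoc, div_le_div_iff₀ h12 hM0]
      have h13 : S.Dh * Lf 2 (a c) ≤ S.Dh * (121 / 100 * S.mh c) := mul_le_mul_of_nonneg_left h3.2 hD0
      have h14 : 81 / 100 * S.Dh * S.mh c ≤ Mv * S.mh c :=
        mul_le_mul_of_nonneg_right (by linarith [hD.1]) h12.le
      have h15 : 0 ≤ S.Dh * S.mh c := by positivity
      nlinarith
    have h12 : 0 < S.mh c := by linarith
    have h13 := Real.log_le_log (by positivity) h11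
    rw [Real.log_mul (by norm_num) (by positivity), Real.log_div hMv.ne' hM0.ne',
      show (4 : ℝ) = 2 ^ 2 by norm_num, Real.log_pow] at h13
    have h14 := Real.log_two_lt_d9
    rw [eta]
    push_cast at h13
    linarith
  · have := StarA_red (θ := 0) (M := Lf 2 (a c)) hk hT hγ (by linarith)
    simpa using this

/-! ### part b: properties of settled states, of the potential; initial state -/

theorem Settled.nn_bd (hT : 10 ^ 5 ≤ T) (ha : ∀ c, In01 (a c)) (h : S.Settled T γ n a) :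
    (∀ c, 0 ≤ S.nn T γ n c ∧ S.nn T γ n c ≤ 6 * ∑ i, (1 - a c i)) ∧ ∑ c, S.nn T γ n c ≤ n ∧
    (∀ c, S.q c * S.Y T γ n ≤ 25 * S.mh c) ∧ 0 ≤ S.Phi T γ n a := by
  obtain ⟨-, -, -, -, g3, hf, hp, c0, -, -⟩ := par_bd hT h.ok
  have hY : 0 ≤ S.Y T γ n := le_max_right _ _
  have hR := fun c => RtP_bd hT (g3 c) (h.ok.h4 c) (h.ok.hz c) (ha c) (h.zs c)
  have h0 : ∀ c, 0 ≤ S.nn T γ n c := fun c => (Lf_nonneg _ _).trans (h.cap c)
  have hB : ∀ c, S.B T γ c ≤ 4 * Lf 2 (a c) := fun c => (hR c).2.2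
  refine ⟨fun c => ⟨h0 c, ?_⟩, ?_, fun c => ?_, ?_⟩
  · have h1 := mul_nonneg (h.ok.q0 c) hY
    have h2 := Lf_two_le (ha c)
    have h3 := Lf_nonneg 2 (a c)
    have h4 := hB c
    unfold nn; linarith
  · have h1 : ∑ c, S.B T γ c - n ≤ S.Y T γ n := le_max_left _ _
    unfold nn
    rw [sum_sub_distrib, ← sum_mul, h.ok.q1]; linarith
  · have h1 := h0 c
    have h2 := Lf_le_of_sqd (ha c) (h.ok.hw c)
    have h3 := h.ws.1 c
    have h4 := hB c
    have h5 := Lf_nonneg 2 (S.w c)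
    unfold nn at h1; unfold mh at h3 ⊢; linarith
  · have hT0 : 0 ≤ T := le_trans (by norm_num) hT
    have h1 : 0 ≤ ∑ c, S.fac T c * S.psi c * S.Rt T γ a c :=
      sum_nonneg fun c _ => mul_nonneg (mul_nonneg (hf c).1 (hp c).1) (hR c).1
    have h2 : ∀ y : Λ → Fin k → ℝ, 0 ≤ ∑ c, br (a c) (y c) := fun y => sum_nonneg fun c _ => br_nonneg (ha c) _
    have h3 := h2 S.z
    have h4 := h2 S.w
    have h5 := h2 S.wD
    unfold Phi; positivity

theorem Phi_lip (hT : 10 ^ 5 ≤ T) (h : S.Ok T γ) (x x' : Λ → Fin k → ℝ) :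
    S.Phi T γ n x' ≤ S.Phi T γ n x + 3 * 10 ^ 6 * T * ∑ c, ∑ i, |x' c i - x c i| := by
  obtain ⟨-, -, -, -, g3, hf, hp, -, -, -⟩ := par_bd hT h
  have hT0 : 0 ≤ T := le_trans (by norm_num) hT
  set D := ∑ c, ∑ i, |x' c i - x c i| with hD
  have hD0 : 0 ≤ D := sum_nonneg fun c _ => sum_nonneg fun i _ => abs_nonneg _
  have h1 : ∑ c, S.fac T c * S.psi c * S.Rt T γ x' c ≤ ∑ c, S.fac T c * S.psi c * S.Rt T γ x c + 20 * D := by
    rw [hD, mul_sum, ← sum_add_distrib]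
    refine sum_le_sum fun c _ => ?_
    have k1 := (le_abs_self _).trans (RtP_lip (g3 c) (h.h4 c) (h.hz c) (x c) (x' c))
    have k2 : 0 ≤ ∑ i, |x' c i - x c i| := sum_nonneg fun i _ => abs_nonneg _
    have k3 : 0 ≤ S.fac T c * S.psi c := mul_nonneg (hf c).1 (hp c).1
    have k4 : S.fac T c * S.psi c ≤ 5 := by nlinarith [hf c, hp c]
    unfold Rt
    nlinarith [mul_le_mul_of_nonneg_left k1 k3, mul_le_mul_of_nonneg_right k4 k2]
  have h2 : ∀ y : Λ → Fin k → ℝ, (∀ c, In01 (y c)) → ∑ c, br (x' c) (y c) ≤ ∑ c, br (x c) (y c) + D := by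
    intro y hy
    rw [hD, ← sum_add_distrib]
    refine sum_le_sum fun c _ => ?_
    have k1 := (le_abs_self _).trans (br_lip (hy c) (x c) (x' c))
    linarith
  have h3 := mul_le_mul_of_nonneg_left (h2 _ h.hz) hT0
  have h4 := mul_le_mul_of_nonneg_left (h2 _ h.hw) hT0
  have h5 := mul_le_mul_of_nonneg_left (h2 _ h.hwD) hT0
  have h6 := mul_le_mul_of_nonneg_left h1 hT0
  have h7 := mul_nonneg hT0 hD0
  unfold Phi; linarith

theorem Phi_concave (S : Star Λ k) (T γ n : ℝ) :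
    ConcaveOn ℝ (Set.Ici 0) fun x : Λ × Fin k → ℝ => S.Phi T γ n fun c i => x (c, i) := by
  refine ⟨convex_Ici _, fun x _ y _ s t _ _ hst => le_of_eq ?_⟩
  obtain rfl : t = 1 - s := by linarith
  have h1 : ∀ c, S.Rt T γ (fun c i => (s • x + (1 - s) • y) (c, i)) c =
      s * S.Rt T γ (fun c i => x (c, i)) c + (1 - s) * S.Rt T γ (fun c i => y (c, i)) c := by
    intro c
    simp only [Rt, RtP, mul_sum, ← sum_add_distrib, Pi.add_apply, Pi.smul_apply, smul_eq_mul]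
    exact sum_congr rfl fun i _ => by ring
  have h2 : ∀ z : Λ → Fin k → ℝ, ∑ c, br (fun i => (s • x + (1 - s) • y) (c, i)) (z c) =
      s * ∑ c, br (fun i => x (c, i)) (z c) + (1 - s) * ∑ c, br (fun i => y (c, i)) (z c) := by
    intro z
    simp only [br, mul_sum, ← sum_add_distrib, Pi.add_apply, Pi.smul_apply, smul_eq_mul]
    exact sum_congr rfl fun c _ => sum_congr rfl fun i _ => by ring
  have h3 : ∑ c, S.fac T c * S.psi c * S.Rt T γ (fun c i => (s • x + (1 - s) • y) (c, i)) c =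
      s * ∑ c, S.fac T c * S.psi c * S.Rt T γ (fun c i => x (c, i)) c +
        (1 - s) * ∑ c, S.fac T c * S.psi c * S.Rt T γ (fun c i => y (c, i)) c := by
    simp only [h1, mul_sum, ← sum_add_distrib]
    exact sum_congr rfl fun c _ => by ring
  simp only [Phi, smul_eq_mul]
  rw [h3, h2, h2, h2]; ring

/-- `z = w = wD = x`, `h` a maximiser, `q = δ_h`; `Y = 0` -/
theorem exists_init [Nonempty Λ] (hk : 0 < k) (hT : 2 ^ 15 * Real.log (28 * k) ≤ T) (hT' : 10 ^ 5 ≤ T)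
    {x : Λ → Fin k → ℝ} (hx : ∀ c i, x c i = 0 ∨ x c i = 1) (h3 : 3 ≤ γ) {Mv : ℝ}
    (hM : ∑ c, Lf 2 (x c) ≤ Mv) (hγ : Rng k T γ Mv) (hn : ∑ c, ∑ i, (1 - x c i) ≤ n) :
    ∃ S : Star Λ k, S.Settled T γ n x ∧ S.Phi T γ n x = 0 ∧ ∀ c, S.nn T γ n c = ∑ i, (1 - x c i) := by
  obtain ⟨h, -, hh⟩ := exists_max_image univ (fun c => Lf 2 (x c)) univ_nonempty
  let S : Star Λ k := ⟨x, x, x, fun c => if c = h then 1 else 0, h⟩
  have h01 : ∀ c, In01 (x c) := fun c i => by rcases hx c i with e | e <;> simp [e]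
  have hW : S.Ws x := by
    refine ⟨fun c => ?_, ?_⟩
    · have := Lf_nonneg 2 (x c)
      simp only [sqd, S, mh, sub_self]; simp; positivity
    · have : 0 ≤ ∑ c, Lf 2 (x c) := sum_nonneg fun c _ => Lf_nonneg 2 (x c)
      simp only [sqd, S, Dh, sub_self]; simp; positivity
  have hO : S.Ok T γ :=
    ⟨h3, fun c => (rng_child (S := S) hk (lt_of_lt_of_le (by norm_num) hT') h01 h01 h01
      (fun c => hh c (mem_univ _)) hW hM hγ c).le_four hk hT, h01, h01, h01,
      fun c => by simp only [S]; split_ifs <;> norm_num, by simp [S], fun c hc _ => if_neg hc,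
      hm_of_Ws (S := S) h01 h01 h01 hW, fun c => hh c (mem_univ _)⟩
  have hI := fun c => init_page hT' ((par_bd hT' hO).2.2.2.2.1 c) (hx c)
  have hB : ∀ c, S.B T γ c = ∑ i, (1 - x c i) := fun c => (hI c).1
  have hY : S.Y T γ n = 0 := max_eq_right (by simp only [hB]; linarith)
  have hn' : ∀ c, S.nn T γ n c = ∑ i, (1 - x c i) := fun c => by rw [nn, hY, hB, mul_zero, sub_zero]
  refine ⟨S, ⟨hO, fun c => (hI c).2.2.2.1, hW, fun c => by rw [hn', (hI c).2.2.2.2.1]⟩, ?_, hn'⟩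
  have h1 : ∀ c, S.Rt T γ x c = 0 := fun c => (hI c).2.1
  have h2 : ∑ c, br (x c) (x c) = 0 := sum_eq_zero fun c _ => (hI c).2.2.1
  simp only [Phi, h1, hY]
  simp [S, h2]

/-! ### part c: the steps in `n`, `z` and `q` -/

theorem step_n (hT : 10 ^ 5 ≤ T) (h : S.Ok T γ) (n' : ℝ) (x : Λ → Fin k → ℝ) :
    S.Phi T γ n' x ≤ S.Phi T γ n x + 8 * |n' - n| ∧ S.Mov T γ n S γ n' ≤ |n' - n| ∧
      |S.Y T γ n' - S.Y T γ n| ≤ |n' - n| := by
  obtain ⟨-, -, -, -, -, -, -, hc0, hc8, -⟩ := par_bd hT h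
  have hY : |S.Y T γ n' - S.Y T γ n| ≤ |n' - n| := by
    refine (abs_max_sub_max_le_abs _ _ _).trans (le_of_eq ?_)
    rw [← abs_neg]; congr 1; ring
  refine ⟨?_, ?_, hY⟩
  · unfold Phi
    have h1 := mul_le_mul_of_nonneg_right ((le_abs_self _).trans hY) hc0
    have h2 := mul_le_mul_of_nonneg_left hc8 (abs_nonneg (n' - n))
    linarith
  · refine le_trans (le_of_eq ?_) hY
    unfold Mov nn
    calc ∑ c, |S.B T γ c - S.q c * S.Y T γ n' - (S.B T γ c - S.q c * S.Y T γ n)|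
        = ∑ c, S.q c * |S.Y T γ n' - S.Y T γ n| := by
          refine Finset.sum_congr rfl fun c _ => ?_
          rw [← abs_of_nonneg (h.q0 c), ← abs_mul, ← abs_neg, abs_of_nonneg (h.q0 c)]
          congr 1; ring
      _ = _ := by rw [← Finset.sum_mul, h.q1, one_mul]

/-- `page_step` with `ψ = fac * psi` on every page; `17 = 8 + 2 + 7` -/
theorem step_z (hT : 10 ^ 5 ≤ T) (h : S.Ok T γ) (ha : ∀ c, In01 (a c)) : ∃ z : Λ → Fin k → ℝ,
    ({ S with z := z } : Star Λ k).Ok T γ ∧ ({ S with z := z } : Star Λ k).Zs T γ a ∧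
    ({ S with z := z } : Star Λ k).Phi T γ n a + S.Mov T γ n { S with z := z } γ n +
      7 * |({ S with z := z } : Star Λ k).Y T γ n - S.Y T γ n| ≤ S.Phi T γ n a := by
  obtain ⟨-, -, -, -, hg3, hfac, hpsi, hc0, hc8, -⟩ := par_bd hT h
  have hψ : ∀ c, 0 ≤ S.fac T c * S.psi c ∧ S.fac T c * S.psi c ≤ 5 := fun c =>
    ⟨mul_nonneg (hfac c).1 (hpsi c).1, by nlinarith [hfac c, hpsi c]⟩
  choose z hz01 hzs hle using fun c i =>
    page_step hT (hg3 c) (h.h4 c) (hψ c).1 (hψ c).2 (ha c i) (h.hz c i)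
  refine ⟨z, ⟨h.h3, h.h4, hz01, h.hw, h.hwD, h.q0, h.q1, h.qi, h.hm, h.hh⟩, hzs, ?_⟩
  set S' : Star Λ k := { S with z := z } with hS'
  set Δ := ∑ c, |S'.B T γ c - S.B T γ c| with hΔ
  have h1 : ∀ c, T * (S.fac T c * S.psi c * S'.Rt T γ a c) + 1024 * T * br (a c) (z c) +
      17 * |S'.B T γ c - S.B T γ c| ≤
      T * (S.fac T c * S.psi c * S.Rt T γ a c) + 1024 * T * br (a c) (S.z c) := by
    intro c
    have e1 := Finset.sum_le_sum fun i (_ : i ∈ (univ : Finset (Fin k))) => hle c i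
    simp only [Finset.sum_add_distrib, ← Finset.mul_sum] at e1
    have e2 : |S'.B T γ c - S.B T γ c| ≤
        ∑ i, |bf T (S.gam T γ c * z c i) - bf T (S.gam T γ c * S.z c i)| := by
      refine le_trans (le_of_eq ?_) (Finset.abs_sum_le_sum_abs _ _)
      rw [Finset.sum_sub_distrib]; rfl
    have e3 : S'.Rt T γ a c = ∑ i, (Gf (S.gam T γ c * z c i) + Gd (S.gam T γ c * z c i) *
        (S.gam T γ c * a c i - S.gam T γ c * z c i)) := rfl
    have e4 : S.Rt T γ a c = ∑ i, (Gf (S.gam T γ c * S.z c i) + Gd (S.gam T γ c * S.z c i) *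
        (S.gam T γ c * a c i - S.gam T γ c * S.z c i)) := rfl
    rw [e3, e4]
    unfold br
    simp only [Finset.sum_add_distrib]
    linarith
  have h2 := Finset.sum_le_sum fun c (_ : c ∈ (univ : Finset Λ)) => h1 c
  simp only [Finset.sum_add_distrib, ← Finset.mul_sum] at h2
  have hY : |S'.Y T γ n - S.Y T γ n| ≤ Δ := by
    refine (abs_max_sub_max_le_abs _ _ _).trans ?_
    refine le_trans (le_of_eq ?_) (Finset.abs_sum_le_sum_abs _ _)
    rw [Finset.sum_sub_distrib]; congr 1; ring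
  have hM : S.Mov T γ n S' γ n ≤ Δ + |S'.Y T γ n - S.Y T γ n| := by
    unfold Mov nn
    calc ∑ c, |S'.B T γ c - S'.q c * S'.Y T γ n - (S.B T γ c - S.q c * S.Y T γ n)|
        ≤ ∑ c, (|S'.B T γ c - S.B T γ c| + S.q c * |S'.Y T γ n - S.Y T γ n|) := by
          refine Finset.sum_le_sum fun c _ => ?_
          have e1 : S'.B T γ c - S'.q c * S'.Y T γ n - (S.B T γ c - S.q c * S.Y T γ n) =
              (S'.B T γ c - S.B T γ c) - S.q c * (S'.Y T γ n - S.Y T γ n) := by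
            change _ - S.q c * _ - _ = _
            ring
          rw [e1]
          refine (abs_sub _ _).trans (le_of_eq ?_)
          rw [abs_mul, abs_of_nonneg (h.q0 c)]
      _ = _ := by rw [Finset.sum_add_distrib, ← Finset.sum_mul, h.q1, one_mul]
  have e1 : S'.Phi T γ n a = T * ∑ c, S.fac T c * S.psi c * S'.Rt T γ a c +
      1024 * T * ∑ c, br (a c) (z c) +
      10 ^ 6 * T * (∑ c, br (a c) (S.w c) + ∑ c, br (a c) (S.wD c)) + S'.Y T γ n * S.co := rfl
  have h3 := mul_le_mul_of_nonneg_right ((le_abs_self _).trans hY) hc0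
  have h4 := mul_le_mul_of_nonneg_left hc8 ((abs_nonneg _).trans hY)
  rw [e1]
  unfold Phi
  linarith

/-- the shares of `𝒯` go to the heavy child -/
noncomputable def rq (S : Star Λ k) (𝒯 : Finset Λ) : Star Λ k :=
  { S with q := fun c => if c ∈ 𝒯 then 0 else if c = S.h then S.q c + ∑ c' ∈ 𝒯, S.q c' else S.q c }

/-- `Sq` decreases (`q ↦ q - δ log (1 + q/δ)` is increasing), all `Rt ≥ 0`, `psi ≤ 5`, `Rt ≤ 3 M` -/
theorem step_q0 (hT : 10 ^ 5 ≤ T) (h : S.Ok T γ) (ha : ∀ c, In01 (a c)) (hz : S.Zs T γ a) {𝒯 : Finset Λ}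
    (h𝒯 : S.h ∉ 𝒯) : (S.rq 𝒯).Ok T γ ∧ (S.rq 𝒯).Zs T γ a ∧
    (S.rq 𝒯).Phi T γ n a + S.Mov T γ n (S.rq 𝒯) γ n ≤
      S.Phi T γ n a + ∑ c ∈ 𝒯, (7 * S.q c * S.Y T γ n + 15 * T * Lf 2 (a c)) := by
  have hT0 : (0 : ℝ) < T := lt_of_lt_of_le (by norm_num) hT
  have hs0 : 0 ≤ ∑ c ∈ 𝒯, S.q c := Finset.sum_nonneg fun c _ => h.q0 c
  have hq : ∀ c, (S.rq 𝒯).q c =
      if c ∈ 𝒯 then 0 else if c = S.h then S.q c + ∑ c' ∈ 𝒯, S.q c' else S.q c := fun c => rfl
  have hqd : ∀ c, (S.rq 𝒯).q c - S.q c =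
      (if c = S.h then ∑ c' ∈ 𝒯, S.q c' else 0) - if c ∈ 𝒯 then S.q c else 0 := by
    intro c
    rw [hq]
    by_cases h1 : c ∈ 𝒯
    · have h2 : c ≠ S.h := fun h2 => h𝒯 (h2 ▸ h1)
      simp [h1, h2]
    · by_cases h2 : c = S.h
      · rw [if_neg h1, if_pos h2, if_pos h2, if_neg h1]; ring
      · simp [h1, h2]
  have hok : (S.rq 𝒯).Ok T γ := by
    refine ⟨h.h3, h.h4, h.hz, h.hw, h.hwD, fun c => ?_, ?_, fun c h1 h2 => ?_, h.hm, h.hh⟩
    · rw [hq]
      split_ifs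
      · exact le_rfl
      · exact add_nonneg (h.q0 c) hs0
      · exact h.q0 c
    · have e1 : ∑ c, ((S.rq 𝒯).q c - S.q c) = 0 := by
        simp only [hqd, Finset.sum_sub_distrib, Finset.sum_ite_eq', Finset.mem_univ, if_true,
          Finset.sum_ite_mem, Finset.univ_inter, sub_self]
      rw [Finset.sum_sub_distrib, h.q1] at e1
      linarith
    · have h1' : c ≠ S.h := h1
      rw [hq, if_neg h1', h.qi c h1 h2, ite_self]
  refine ⟨hok, hz, ?_⟩
  obtain ⟨hact, -, -, -, hg3, hfac, hpsi, -, -, -⟩ := par_bd hT h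
  obtain ⟨-, -, -, -, -, -, hpsi', -, -, -⟩ := par_bd hT hok
  have hne : ∀ c ∈ S.act, c ≠ S.h := fun c hc => by
    classical
    exact (Finset.mem_filter.1 hc).2.1
  have hqa : ∀ c ∈ S.act, (S.rq 𝒯).q c = if c ∈ 𝒯 then 0 else S.q c := fun c hc => by
    rw [hq, if_neg (hne c hc)]
  have hY0 : 0 ≤ S.Y T γ n := le_max_right _ _
  have hSq : (S.rq 𝒯).Sq ≤ S.Sq := by
    change ∑ c ∈ S.act, ((S.rq 𝒯).q c - S.del c * Real.log (1 + (S.rq 𝒯).q c / S.del c)) / S.eta c ≤ _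
    refine Finset.sum_le_sum fun c hc => ?_
    rw [hqa c hc]
    split_ifs
    · have hδ := (hact c hc).2
      have e1 : Real.log (1 + S.q c / S.del c) ≤ S.q c / S.del c := by
        have := Real.log_le_sub_one_of_pos (x := 1 + S.q c / S.del c)
          (add_pos_of_pos_of_nonneg one_pos (div_nonneg (h.q0 c) hδ.le))
        linarith
      have e2 := mul_le_mul_of_nonneg_left e1 hδ.le
      rw [mul_div_cancel₀ _ hδ.ne'] at e2
      rw [zero_div, add_zero, Real.log_one, mul_zero, sub_zero, zero_div]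
      exact div_nonneg (by linarith) (by linarith [(hact c hc).1])
    · exact le_rfl
  have hR := fun c => RtP_bd hT (hg3 c) (h.h4 c) (h.hz c) (ha c) (hz c)
  have hterm : ∀ c, S.fac T c * (S.rq 𝒯).psi c * S.Rt T γ a c ≤
      S.fac T c * S.psi c * S.Rt T γ a c + if c ∈ 𝒯 then 15 * Lf 2 (a c) else 0 := by
    intro c
    have r0 : 0 ≤ S.Rt T γ a c := (hR c).1
    have r3 : S.Rt T γ a c ≤ 3 * Lf 2 (a c) := (hR c).2.1
    by_cases h1 : c ∈ 𝒯
    · rw [if_pos h1]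
      have e1 : S.fac T c * (S.rq 𝒯).psi c ≤ 5 := by nlinarith [hfac c, hpsi' c]
      have e2 := mul_le_mul_of_nonneg_right e1 r0
      have e3 := mul_nonneg (mul_nonneg (hfac c).1 (hpsi c).1) r0
      linarith
    · rw [if_neg h1, add_zero]
      refine mul_le_mul_of_nonneg_right (mul_le_mul_of_nonneg_left ?_ (hfac c).1) r0
      have e1 : (S.rq 𝒯).psi c = if c = S.h then (S.rq 𝒯).Sq else if c ∈ S.act then
          -Real.log (((S.rq 𝒯).q c + S.del c) / (1 + S.del c)) / S.eta c + (S.rq 𝒯).Sq else 0 := rfl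
      rw [e1]
      unfold psi
      split_ifs with h2 h3
      · exact hSq
      · rw [hqa c h3, if_neg h1]; linarith
      · exact le_rfl
  have h1 := Finset.sum_le_sum fun c (_ : c ∈ (univ : Finset Λ)) => hterm c
  rw [Finset.sum_add_distrib, Finset.sum_ite_mem, Finset.univ_inter] at h1
  have hco : (S.rq 𝒯).co ≤ S.co + 5 * ∑ c ∈ 𝒯, S.q c := by
    have e1 : (S.rq 𝒯).co = 8 * ∑ c ∈ S.act, min ((S.rq 𝒯).q c) (S.del c) + 5 * (S.rq 𝒯).q S.h := rfl
    have e2 : ∑ c ∈ S.act, min ((S.rq 𝒯).q c) (S.del c) ≤ ∑ c ∈ S.act, min (S.q c) (S.del c) := by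
      refine Finset.sum_le_sum fun c hc => min_le_min_right _ ?_
      rw [hqa c hc]
      split_ifs
      · exact h.q0 c
      · exact le_rfl
    rw [e1, hq S.h, if_neg h𝒯, if_pos rfl]
    unfold co
    linarith
  have hM : S.Mov T γ n (S.rq 𝒯) γ n ≤ 2 * (∑ c ∈ 𝒯, S.q c) * S.Y T γ n := by
    unfold Mov
    calc ∑ c, |(S.rq 𝒯).nn T γ n c - S.nn T γ n c|
        ≤ ∑ c, ((if c = S.h then ∑ c' ∈ 𝒯, S.q c' else 0) + if c ∈ 𝒯 then S.q c else 0) *
            S.Y T γ n := by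
          refine Finset.sum_le_sum fun c _ => ?_
          have e1 : (S.rq 𝒯).nn T γ n c - S.nn T γ n c = -(((S.rq 𝒯).q c - S.q c) * S.Y T γ n) := by
            change S.B T γ c - (S.rq 𝒯).q c * S.Y T γ n - (S.B T γ c - S.q c * S.Y T γ n) = _
            ring
          rw [e1, abs_neg, abs_mul, abs_of_nonneg hY0, hqd]
          refine mul_le_mul_of_nonneg_right ((abs_sub _ _).trans (le_of_eq ?_)) hY0
          rw [abs_of_nonneg, abs_of_nonneg]
          · split_ifs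
            · exact h.q0 c
            · exact le_rfl
          · split_ifs
            · exact hs0
            · exact le_rfl
      _ = _ := by
          rw [← Finset.sum_mul, Finset.sum_add_distrib, Finset.sum_ite_eq', if_pos (Finset.mem_univ _),
            Finset.sum_ite_mem, Finset.univ_inter]
          ring
  have e1 : (S.rq 𝒯).Phi T γ n a = T * ∑ c, S.fac T c * (S.rq 𝒯).psi c * S.Rt T γ a c +
      1024 * T * ∑ c, br (a c) (S.z c) +
      10 ^ 6 * T * (∑ c, br (a c) (S.w c) + ∑ c, br (a c) (S.wD c)) + S.Y T γ n * (S.rq 𝒯).co := rfl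
  have e2 : ∑ c ∈ 𝒯, (7 * S.q c * S.Y T γ n + 15 * T * Lf 2 (a c)) =
      7 * (∑ c ∈ 𝒯, S.q c) * S.Y T γ n + T * ∑ c ∈ 𝒯, 15 * Lf 2 (a c) := by
    rw [Finset.sum_add_distrib, Finset.mul_sum, Finset.mul_sum, Finset.sum_mul]
    congr 1
    exact Finset.sum_congr rfl fun c _ => by ring
  have h2 := mul_le_mul_of_nonneg_left h1 hT0.le
  have h3 := mul_le_mul_of_nonneg_left hco hY0
  rw [e1, e2]
  unfold Phi
  linarith

/-! ### part d: the share step -/

theorem stard_sum {A : Finset Λ} {h : Λ} (hA : h ∉ A) (g : Λ → ℝ) (hg : ∀ c, c ≠ h → c ∉ A → g c = 0) :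
    ∑ c, g c = g h + ∑ c ∈ A, g c := by
  rw [← Finset.sum_insert hA]
  symm
  apply Finset.sum_subset (Finset.subset_univ _)
  intro c _ hc
  rw [Finset.mem_insert, not_or] at hc
  exact hg c hc.1 hc.2

theorem stard_h_not_mem (S : Star Λ k) : S.h ∉ S.act := by
  simp [act]

theorem stard_ne_h {c : Λ} (hc : c ∈ S.act) : c ≠ S.h := by
  intro e
  exact stard_h_not_mem S (e ▸ hc)

theorem stard_inact {c : Λ} (h1 : c ≠ S.h) (h2 : c ∉ S.act) : S.mh c < 1 / 11 := by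
  by_contra hh
  apply h2
  simp only [act, Finset.mem_filter, Finset.mem_univ, true_and]
  exact ⟨h1, not_lt.mp hh⟩

/-- the data of the share step -/
noncomputable def stardSh (S : Star Λ k) (T γ n : ℝ) (a : Λ → Fin k → ℝ) : Sh Λ where
  A := S.act
  h := S.h
  T := T
  Y := S.Y T γ n
  e := S.eps
  η := S.eta
  δ := S.del
  R := S.Rt T γ a
  W := fun c => S.B T γ c - Lf (S.gam T γ c) (a c)
  q0 := S.q

theorem stard_fac {c : Λ} (hc : c ∈ S.act) : S.fac T c = 1 - 128 * S.eta c / T := by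
  have h1 := stard_ne_h hc
  simp only [fac, tht, if_neg h1, if_pos hc]
  ring

theorem stard_ok (hT : 10 ^ 5 ≤ T) (h : S.Ok T γ) (ha : ∀ c, In01 (a c)) (hz : S.Zs T γ a) (hw : S.Ws a)
    (hn : ∑ c, Lf γ (a c) ≤ n) (hY : 0 < S.Y T γ n) : (stardSh S T γ n a).Ok := by
  obtain ⟨p1, p2, p3, p4, p5, p6, -, -, -, p10⟩ := par_bd hT h
  have hT0 : 0 < T := by linarith
  have hR : ∀ c, 0 ≤ S.Rt T γ a c := fun c => (RtP_bd hT (p5 c) (h.h4 c) (h.hz c) (ha c) (hz c)).1
  have hW : ∀ c, S.Rt T γ a c ≤ S.B T γ c - Lf (S.gam T γ c) (a c) ∧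
      S.B T γ c - Lf (S.gam T γ c) (a c) ≤ (1 + 9 / T) * S.Rt T γ a c :=
    fun c => W_bd hT (p5 c) (h.h4 c) (h.hz c) (ha c) (hz c)
  have hD : ∀ c, 19 / 10 * S.tht T c * S.Rt T γ a c ≤ Lf γ (a c) - Lf (S.gam T γ c) (a c) :=
    fun c => slack_bd hT h.h3 (p4 c) (h.h4 c) (h.hz c) (ha c) (hz c)
  refine ⟨stard_h_not_mem S, hT, hY, p2, p3, fun c hc => (p1 c hc).1, fun c hc => (p1 c hc).2, ?_, p10, hR, hW, ?_⟩
  · intro c hc
    have := (p6 c).1
    rw [stard_fac hc] at this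
    exact this
  · show S.Y T γ n ≤ S.B T γ S.h - Lf (S.gam T γ S.h) (a S.h) - 400 * (S.eps / T) * S.Rt T γ a S.h +
      ∑ c ∈ S.act, (1 - 128 * S.eta c / T) * S.Rt T γ a c
    have hY1 : S.Y T γ n = ∑ c, S.B T γ c - n := by
      unfold Y at hY ⊢
      rcases le_total (∑ c, S.B T γ c - n) 0 with h1 | h1
      · rw [max_eq_right h1] at hY
        exact absurd hY (lt_irrefl _)
      · exact max_eq_left h1
    have hsum : ∑ c, (S.B T γ c - Lf γ (a c)) =
        (S.B T γ S.h - Lf γ (a S.h)) + ∑ c ∈ S.act, (S.B T γ c - Lf γ (a c)) := by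
      apply stard_sum (stard_h_not_mem S) (fun c => S.B T γ c - Lf γ (a c))
      intro c h1 h2
      have hg : S.gam T γ c = γ := by simp [gam, tht, h1, h2]
      obtain ⟨i1, -, i3⟩ := inactive_bd hT (p5 c) (h.h4 c) (h.hz c) (ha c) (h.hw c) (hz c)
        (stard_inact h1 h2) (hw.1 c)
      have i1' : S.B T γ c = 0 := i1
      rw [hg] at i3
      show S.B T γ c - Lf γ (a c) = 0
      rw [i1', i3, sub_zero]
    have hh : S.B T γ S.h - Lf γ (a S.h) ≤
        S.B T γ S.h - Lf (S.gam T γ S.h) (a S.h) - 400 * (S.eps / T) * S.Rt T γ a S.h := by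
      have h1 := hD S.h
      have h2 : S.tht T S.h = 256 * (S.eps / T) := by simp only [tht, if_true]; ring
      rw [h2] at h1
      have h3 : 0 ≤ S.eps / T * S.Rt T γ a S.h := mul_nonneg (div_nonneg p2 hT0.le) (hR _)
      nlinarith
    have hA : ∑ c ∈ S.act, (S.B T γ c - Lf γ (a c)) ≤ ∑ c ∈ S.act, (1 - 128 * S.eta c / T) * S.Rt T γ a c := by
      apply Finset.sum_le_sum
      intro c hc
      have h1 := hD c
      have h2 : S.tht T c = 256 * (S.eta c * T⁻¹) := by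
        simp only [tht, if_neg (stard_ne_h hc), if_pos hc]; ring
      rw [h2] at h1
      have h3 := (hW c).2
      have h4 : 0 ≤ T⁻¹ * S.Rt T γ a c := mul_nonneg (inv_nonneg.2 hT0.le) (hR _)
      have h5 : 0 ≤ (S.eta c - 1) * (T⁻¹ * S.Rt T γ a c) := mul_nonneg (by linarith [(p1 c hc).1]) h4
      rw [div_eq_mul_inv] at h3 ⊢
      nlinarith
    rw [Finset.sum_sub_distrib] at hsum
    linarith

theorem stard_FF (S : Star Λ k) (T γ n : ℝ) (a : Λ → Fin k → ℝ) (q : Λ → ℝ) :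
    (stardSh S T γ n a).FF q =
      T * ∑ c, S.fac T c * ({ S with q := q } : Star Λ k).psi c * S.Rt T γ a c +
        S.Y T γ n * ({ S with q := q } : Star Λ k).co + S.Y T γ n * ∑ c, |q c - S.q c| := by
  have h1 : ∑ c, S.fac T c * ({ S with q := q } : Star Λ k).psi c * S.Rt T γ a c =
      (S.Rt T γ a S.h + ∑ c ∈ S.act, (1 - 128 * S.eta c / T) * S.Rt T γ a c) *
        (∑ c ∈ S.act, (q c - S.del c * Real.log (1 + q c / S.del c)) / S.eta c) -
      ∑ c ∈ S.act, (1 - 128 * S.eta c / T) * S.Rt T γ a c *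
        (Real.log ((q c + S.del c) / (1 + S.del c)) / S.eta c) := by
    set Q := ∑ c ∈ S.act, (q c - S.del c * Real.log (1 + q c / S.del c)) / S.eta c with hQ
    have hpsi : ∀ c, ({ S with q := q } : Star Λ k).psi c = if c = S.h then Q else if c ∈ S.act then
        -Real.log ((q c + S.del c) / (1 + S.del c)) / S.eta c + Q else 0 := fun c => rfl
    rw [stard_sum (stard_h_not_mem S)
      (fun c => S.fac T c * ({ S with q := q } : Star Λ k).psi c * S.Rt T γ a c)]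
    · have e1 : S.fac T S.h = 1 := by simp [fac]
      have e2 : ∑ c ∈ S.act, S.fac T c * ({ S with q := q } : Star Λ k).psi c * S.Rt T γ a c =
          ∑ c ∈ S.act, ((1 - 128 * S.eta c / T) * S.Rt T γ a c * Q - (1 - 128 * S.eta c / T) * S.Rt T γ a c *
            (Real.log ((q c + S.del c) / (1 + S.del c)) / S.eta c)) := by
        apply Finset.sum_congr rfl
        intro c hc
        rw [hpsi, if_neg (stard_ne_h hc), if_pos hc, stard_fac hc]
        ring
      rw [e2, e1, hpsi, if_pos rfl, Finset.sum_sub_distrib, ← Finset.sum_mul]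
      ring
    · intro c h1 h2
      rw [hpsi, if_neg h1, if_neg h2]
      ring
  rw [h1]
  rfl

/-- if `Y = 0` keep `q`.  Otherwise `Sh` with `A = act`, `R = Rt a`, `W c = B c - Lf (gam c) (a c)`;
slack from `hn`, `slack_bd`, `W_bd`, `inactive_bd`. -/
theorem step_q (hT : 10 ^ 5 ≤ T) (h : S.Ok T γ) (ha : ∀ c, In01 (a c)) (hz : S.Zs T γ a) (hw : S.Ws a)
    (hn : ∑ c, Lf γ (a c) ≤ n) : ∃ q : Λ → ℝ, ({ S with q := q } : Star Λ k).Settled T γ n a ∧
    ({ S with q := q } : Star Λ k).Phi T γ n a + S.Mov T γ n { S with q := q } γ n ≤ S.Phi T γ n a := by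
  obtain ⟨p1, p2, p3, p4, p5, p6, -, -, -, p10⟩ := par_bd hT h
  have hR : ∀ c, 0 ≤ S.Rt T γ a c := fun c => (RtP_bd hT (p5 c) (h.h4 c) (h.hz c) (ha c) (hz c)).1
  have hW : ∀ c, S.Rt T γ a c ≤ S.B T γ c - Lf (S.gam T γ c) (a c) :=
    fun c => (W_bd hT (p5 c) (h.h4 c) (h.hz c) (ha c) (hz c)).1
  have hY0 : 0 ≤ S.Y T γ n := le_max_right _ _
  rcases hY0.eq_or_lt with hY | hY
  · refine ⟨S.q, ⟨h, hz, hw, fun c => ?_⟩, ?_⟩
    · show Lf (S.gam T γ c) (a c) ≤ S.B T γ c - S.q c * S.Y T γ n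
      rw [← hY]
      linarith [hR c, hW c]
    · show S.Phi T γ n a + ∑ c, |S.nn T γ n c - S.nn T γ n c| ≤ S.Phi T γ n a
      simp
  · have hs := stard_ok hT h ha hz hw hn hY
    obtain ⟨q, hq, hmin⟩ := Sh.share_min hs
    refine ⟨q, ⟨⟨h.h3, h.h4, h.hz, h.hw, h.hwD, hq.1, hq.2.1, hq.2.2, h.hm, h.hh⟩, hz, hw, fun c => ?_⟩, ?_⟩
    · show Lf (S.gam T γ c) (a c) ≤ S.B T γ c - q c * S.Y T γ n
      by_cases h1 : c = S.h
      · have : q S.h * S.Y T γ n ≤ S.B T γ S.h - Lf (S.gam T γ S.h) (a S.h) := Sh.share_heavy hs hq hmin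
        rw [h1]
        linarith
      · by_cases h2 : c ∈ S.act
        · have : q c * S.Y T γ n ≤ S.B T γ c - Lf (S.gam T γ c) (a c) := Sh.share_light hs hq hmin h2
          linarith
        · have : q c = 0 := hq.2.2 c h1 h2
          rw [this]
          linarith [hR c, hW c]
    · have h1 := hmin S.q ⟨h.q0, h.q1, h.qi⟩
      rw [stard_FF, stard_FF] at h1
      have h2 : S.Mov T γ n { S with q := q } γ n = S.Y T γ n * ∑ c, |q c - S.q c| := by
        show ∑ c, |(S.B T γ c - q c * S.Y T γ n) - (S.B T γ c - S.q c * S.Y T γ n)| = _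
        rw [Finset.mul_sum]
        apply Finset.sum_congr rfl
        intro c _
        rw [show (S.B T γ c - q c * S.Y T γ n) - (S.B T γ c - S.q c * S.Y T γ n) =
          -(S.Y T γ n * (q c - S.q c)) by ring, abs_neg, abs_mul, abs_of_pos hY]
      have h3 : ({ S with q := q } : Star Λ k).Phi T γ n a =
          T * ∑ c, S.fac T c * ({ S with q := q } : Star Λ k).psi c * S.Rt T γ a c +
            1024 * T * ∑ c, br (a c) (S.z c) +
            10 ^ 6 * T * (∑ c, br (a c) (S.w c) + ∑ c, br (a c) (S.wD c)) +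
            S.Y T γ n * ({ S with q := q } : Star Λ k).co := rfl
      have h4 : S.Phi T γ n a =
          T * ∑ c, S.fac T c * ({ S with q := S.q } : Star Λ k).psi c * S.Rt T γ a c +
            1024 * T * ∑ c, br (a c) (S.z c) +
            10 ^ 6 * T * (∑ c, br (a c) (S.w c) + ∑ c, br (a c) (S.wD c)) +
            S.Y T γ n * ({ S with q := S.q } : Star Λ k).co := rfl
      have h5 : ∑ c, |S.q c - S.q c| = 0 := by simp
      rw [h5] at h1
      rw [h2, h3, h4]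
      linarith

end Star

end Crest.Agent.R314
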