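import Mathlib

/-!
# Row 314: pages and their superadditive functional

For a random count `N ≤ k`, page `i` is the probability `pg w N i` that `N ≤ i`.
`Lf γ a = ∑ i, (1 - γ a i / 2)₊²`.
* `tail_super`: for `0 ≤ g ≤ w` with `∑ g = β` one has `∑ i, (β - pg N i)₊ ≤ ∑ g N` (as
  `N = ∑ i, 1[i < N]`), with equality for some `g` (fill the scenarios in increasing order of `N`: with `m` the
  least level with `β ≤ P (N ≤ m)`, `g = w` on `N < m`, a multiple of `w` on `N = m`, `0` above).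
* `Lf_super`: `(1 - s/2)₊² = ∫ α in 0..2, (α - s)₊ / 2` and `(α - γ a)₊ = γ (α/γ - a)₊`, `α/γ ≤ 1`.
-/

set_option autoImplicit false
set_option linter.unusedSectionVars false
set_option linter.unusedVariables false

namespace Crest.Agent.R314

open Finset Function

noncomputable def uu (s : ℝ) : ℝ := max (1 - s / 2) 0

noncomputable def Lf {k : ℕ} (γ : ℝ) (a : Fin k → ℝ) : ℝ := ∑ i, uu (γ * a i) ^ 2

/-- pages -/
noncomputable def pg {Ξ : Type*} [Fintype Ξ] (k : ℕ) (w : Ξ → ℝ) (N : Ξ → ℕ) (i : Fin k) : ℝ :=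
  ∑ ξ, w ξ * if N ξ ≤ i then 1 else 0

variable {Ξ : Type*} [Fintype Ξ] {k : ℕ} {w : Ξ → ℝ}

theorem sup_cnt (N m : ℕ) : ∑ i ∈ range m, (if N ≤ i then 1 else 0 : ℝ) = (m - N : ℕ) := by
  induction m with
  | zero => simp
  | succ m ih =>
    rw [sum_range_succ, ih]
    split_ifs with h
    · rw [Nat.succ_sub h]; push_cast; rfl
    · rw [Nat.sub_eq_zero_of_le (by omega), Nat.sub_eq_zero_of_le (by omega)]; simp

theorem sup_cnt' {N : ℕ} (hN : N ≤ k) : ∑ i : Fin k, (if N ≤ i then 1 else 0 : ℝ) = k - N := by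
  rw [Fin.sum_univ_eq_sum_range (fun i => (if N ≤ i then 1 else 0 : ℝ)), sup_cnt, Nat.cast_sub hN]

theorem Lf_nonneg (γ : ℝ) (a : Fin k → ℝ) : 0 ≤ Lf γ a := by
  exact sum_nonneg fun _ _ => sq_nonneg _

theorem Lf_two {a : Fin k → ℝ} (ha : ∀ i, a i ≤ 1) : Lf 2 a = ∑ i, (1 - a i) ^ 2 := by
  refine sum_congr rfl fun i _ => ?_
  rw [uu, max_eq_left (by linarith [ha i])]
  ring

theorem pg_mem (hw : ∀ ξ, 0 ≤ w ξ) (h1 : ∑ ξ, w ξ = 1) (N : Ξ → ℕ) (i : Fin k) :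
    0 ≤ pg k w N i ∧ pg k w N i ≤ 1 := by
  refine ⟨sum_nonneg fun ξ _ => mul_nonneg (hw ξ) (by split_ifs <;> norm_num), ?_⟩
  rw [← h1]
  exact sum_le_sum fun ξ _ => mul_le_of_le_one_right (hw ξ) (by split_ifs <;> norm_num)

theorem sum_pg (h1 : ∑ ξ, w ξ = 1) {N : Ξ → ℕ} (hN : ∀ ξ, N ξ ≤ k) :
    ∑ i, (1 - pg k w N i) = ∑ ξ, w ξ * N ξ := by
  simp only [pg, sum_sub_distrib]
  rw [sum_comm]
  simp only [← mul_sum, sup_cnt' (hN _), mul_sub, sum_sub_distrib, ← sum_mul, h1]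
  simp

theorem one_le_Lf (hk : 0 < k) (hw : ∀ ξ, 0 ≤ w ξ) {N : Ξ → ℕ} (hN : ∀ ξ, 0 < w ξ → 1 ≤ N ξ) (γ : ℝ) :
    1 ≤ Lf γ (pg k w N) := by
  have h0 : pg k w N ⟨0, hk⟩ = 0 := sum_eq_zero fun ξ _ => by
    rcases (hw ξ).eq_or_lt with h | h
    · rw [← h, zero_mul]
    · have := hN ξ h
      rw [if_neg (by simp only; omega), mul_zero]
  refine le_trans ?_ (single_le_sum (f := fun i => uu (γ * pg k w N i) ^ 2) (fun _ _ => sq_nonneg _)
    (mem_univ ⟨0, hk⟩))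
  simp [h0, uu]

theorem Lf_full (γ : ℝ) : Lf γ (pg k w fun _ => k) = k := by
  have h0 : ∀ i : Fin k, pg k w (fun _ => k) i = 0 := fun i => sum_eq_zero fun ξ _ => by
    rw [if_neg (not_le.2 i.2), mul_zero]
  simp [Lf, h0, uu]

theorem sum_ind_sub {N N' : ℕ} (hN : N ≤ k) (hN' : N' ≤ k) :
    ∑ i : Fin k, |(if N ≤ i then 1 else 0 : ℝ) - if N' ≤ i then 1 else 0| = |(N : ℝ) - N'| := by
  wlog h : N ≤ N' generalizing N N'
  · rw [abs_sub_comm, ← this hN' hN (by omega)]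
    exact sum_congr rfl fun i _ => abs_sub_comm _ _
  have h1 : (N : ℝ) ≤ N' := by exact_mod_cast h
  rw [sum_congr rfl fun i _ => abs_of_nonneg (by split_ifs <;> first | omega | norm_num),
    sum_sub_distrib, sup_cnt' hN, sup_cnt' hN', abs_of_nonpos (by linarith)]
  ring

/-- distribution function -/
noncomputable def supF (w : Ξ → ℝ) (N : Ξ → ℕ) (i : ℕ) : ℝ := ∑ ξ, w ξ * if N ξ ≤ i then 1 else 0

theorem sup_tail (N : Ξ → ℕ) (β : ℝ) :
    ∑ i, max (β - pg k w N i) 0 = ∑ i ∈ range k, max (β - supF w N i) 0 :=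
  Fin.sum_univ_eq_sum_range (fun i => max (β - supF w N i) 0) k

theorem sup_G (N : Ξ → ℕ) (β : ℝ) (m : ℕ) :
    ∑ i ∈ range m, (β - supF w N i) = β * m - ∑ ξ, w ξ * (m - N ξ : ℕ) := by
  simp only [supF, sum_sub_distrib]
  rw [sum_comm]
  simp only [← mul_sum, sup_cnt]
  simp [mul_comm]

theorem sup_mono (hw : ∀ ξ, 0 ≤ w ξ) (N : Ξ → ℕ) {i j : ℕ} (h : i ≤ j) : supF w N i ≤ supF w N j :=
  sum_le_sum fun ξ _ => mul_le_mul_of_nonneg_left (by split_ifs <;> first | omega | norm_num) (hw ξ)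

theorem sup_ex (hw : ∀ ξ, 0 ≤ w ξ) (N : Ξ → ℕ) (β : ℝ) (k : ℕ) :
    ∃ m, ∑ i ∈ range k, max (β - supF w N i) 0 ≤ ∑ i ∈ range m, (β - supF w N i) := by
  induction k with
  | zero => exact ⟨0, le_rfl⟩
  | succ k ih =>
    rcases le_total (β - supF w N k) 0 with h | h
    · obtain ⟨m, hm⟩ := ih
      exact ⟨m, by rwa [sum_range_succ, max_eq_right h, add_zero]⟩
    · refine ⟨k + 1, le_of_eq (sum_congr rfl fun i hi => max_eq_left ?_)⟩
      linarith [sup_mono hw N (Nat.lt_succ_iff.1 (mem_range.1 hi))]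

theorem sup_all (h1 : ∑ ξ, w ξ = 1) {N : Ξ → ℕ} (hN : ∀ ξ, N ξ ≤ k) {β : ℝ} (hβ : β ≤ 1) (m : ℕ) :
    ∑ i ∈ range m, (β - supF w N i) ≤ ∑ i ∈ range k, max (β - supF w N i) 0 := by
  refine (sum_le_sum fun i _ => le_max_left _ 0).trans ?_
  rw [← sum_filter_of_ne (p := fun i => i < k)]
  · exact sum_le_sum_of_subset_of_nonneg (fun i hi => mem_range.2 (mem_filter.1 hi).2)
      fun _ _ _ => le_max_right _ _
  · intro i _ hi
    by_contra hik
    have : supF w N i = 1 := by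
      rw [← h1]
      exact sum_congr rfl fun ξ _ => by rw [if_pos ((hN ξ).trans (not_lt.1 hik)), mul_one]
    exact hi (max_eq_right (by linarith))

theorem tail_super {Λ : Type*} [Fintype Λ] (hw : ∀ ξ, 0 ≤ w ξ) (h1 : ∑ ξ, w ξ = 1) {N : Ξ → ℕ}
    {Nc : Λ → Ξ → ℕ} (hN : ∀ ξ, N ξ ≤ k) (hc : ∀ ξ, ∑ c, Nc c ξ ≤ N ξ) {β : ℝ} (h0 : 0 ≤ β) (hβ : β ≤ 1) :
    ∑ c, ∑ i, max (β - pg k w (Nc c) i) 0 ≤ ∑ i, max (β - pg k w N i) 0 := by
  simp only [sup_tail]
  choose m hm using fun c => sup_ex hw (Nc c) β k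
  refine (sum_le_sum fun c _ => hm c).trans (le_trans ?_ (sup_all h1 hN hβ (∑ c, m c)))
  simp only [sup_G]
  rw [sum_sub_distrib, sum_comm, ← mul_sum, Nat.cast_sum]
  refine sub_le_sub_left (sum_le_sum fun ξ _ => ?_) _
  rw [← mul_sum, ← Nat.cast_sum]
  refine mul_le_mul_of_nonneg_left (Nat.cast_le.2 ?_) (hw ξ)
  have h2 : ∑ c, m c ≤ ∑ c, ((m c - Nc c ξ) + Nc c ξ) := sum_le_sum fun c _ => by omega
  rw [sum_add_distrib] at h2
  have := hc ξ
  omega

theorem sup_cont (s : ℝ) : Continuous fun α : ℝ => max (α - s) 0 / 2 := by fun_prop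

theorem sup_int {s : ℝ} (hs : 0 ≤ s) : uu s ^ 2 = ∫ α in (0 : ℝ)..2, max (α - s) 0 / 2 := by
  rcases le_total s 2 with h | h
  · rw [← intervalIntegral.integral_add_adjacent_intervals (b := s) ((sup_cont s).intervalIntegrable _ _)
      ((sup_cont s).intervalIntegrable _ _),
      intervalIntegral.integral_congr (g := fun _ => 0) (a := 0) (b := s) fun α hα => by
        rw [Set.uIcc_of_le hs] at hα
        simp only [max_eq_right (sub_nonpos.2 hα.2), zero_div],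
      intervalIntegral.integral_congr (g := fun α => (α - s) / 2) (a := s) (b := 2) fun α hα => by
        rw [Set.uIcc_of_le h] at hα
        simp only [max_eq_left (sub_nonneg.2 hα.1)],
      uu, max_eq_left (by linarith), intervalIntegral.integral_div,
      intervalIntegral.integral_comp_sub_right (fun α => α), integral_id]
    simp
    ring
  · rw [intervalIntegral.integral_congr (g := fun _ => 0) fun α hα => by
        rw [Set.uIcc_of_le (by norm_num)] at hα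
        simp only [max_eq_right (sub_nonpos.2 (hα.2.trans h)), zero_div],
      uu, max_eq_right (by linarith)]
    simp

theorem sup_Lf {γ : ℝ} (hγ : 0 ≤ γ) {a : Fin k → ℝ} (ha : ∀ i, 0 ≤ a i) :
    Lf γ a = ∫ α in (0 : ℝ)..2, ∑ i, max (α - γ * a i) 0 / 2 := by
  rw [intervalIntegral.integral_finsetSum fun i _ => (sup_cont _).intervalIntegrable _ _]
  exact sum_congr rfl fun i _ => sup_int (mul_nonneg hγ (ha i))

theorem Lf_super {Λ : Type*} [Fintype Λ] (hw : ∀ ξ, 0 ≤ w ξ) (h1 : ∑ ξ, w ξ = 1) {N : Ξ → ℕ}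
    {Nc : Λ → Ξ → ℕ} (hN : ∀ ξ, N ξ ≤ k) (hc : ∀ ξ, ∑ c, Nc c ξ ≤ N ξ) {γ : ℝ} (hγ : 2 ≤ γ) :
    ∑ c, Lf γ (pg k w (Nc c)) ≤ Lf γ (pg k w N) := by
  have hγ0 : 0 < γ := by linarith
  have hcont : ∀ a : Fin k → ℝ, Continuous fun α : ℝ => ∑ i, max (α - γ * a i) 0 / 2 := fun a =>
    continuous_finsetSum _ fun i _ => sup_cont _
  rw [sup_Lf hγ0.le fun i => (pg_mem hw h1 N i).1,
    sum_congr rfl fun c _ => sup_Lf hγ0.le fun i => (pg_mem hw h1 (Nc c) i).1,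
    ← intervalIntegral.integral_finsetSum fun c _ => (hcont _).intervalIntegrable _ _]
  refine intervalIntegral.integral_mono_on (by norm_num)
    ((continuous_finsetSum _ fun c _ => hcont _).intervalIntegrable _ _)
    ((hcont _).intervalIntegrable _ _) fun α hα => ?_
  have e : ∀ a : ℝ, max (α - γ * a) 0 / 2 = γ / 2 * max (α / γ - a) 0 := fun a => by
    have : α - γ * a = γ * (α / γ - a) := by field_simp
    rw [this, ← mul_zero γ, ← mul_max_of_nonneg _ _ hγ0.le, mul_zero]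
    ring
  simp only [e, ← mul_sum]
  exact mul_le_mul_of_nonneg_left (tail_super hw h1 hN hc (div_nonneg hα.1 hγ0.le)
    ((div_le_one hγ0).2 (hα.2.trans hγ))) (by positivity)

end Crest.Agent.R314
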