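import Crest.Prelude.Def_KServer

/-!
# Row 314 (S0486): randomized `k`-server, `O(log² k)` on every metric space -- plan and value function

Plan.
* `Val`, `Pol`, `Rep`, `Soft`: Yao's principle.  It suffices to bound the value `U` of the game against a
  *known* finite distribution of request sequences on a finite space (`Yao`), with an additive constant;
  the constant is removed by repetition, minimax and compactness give the policy.
* `Post`: posterior expectations along histories.
* `Sup`, `Star*`, `Tree`: an `O(log k)`-competitive fractional algorithm on a hierarchically separated tree.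
* `Round`, `Match`: rounding to random integral configurations, matchings.
* `Emb*`: a dynamic random labelling of the space at each scale with total distortion `O(log k)`.
* `Glue`: assembly.

`Proc`: scenarios `ξ` with weights `P`, requests `σ ξ t`, and an offline schedule `j ξ t`.
`U σ n P t C`: the least expected cost (unnormalised) of an online algorithm for the `n` requests from
time `t` on, from configuration `C`, when the scenario has weights `P`.
-/

set_option autoImplicit false
set_option linter.unusedSectionVars false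
set_option linter.unusedVariables false

namespace Crest.Agent.R314

open Finset Function

/-- scenarios, requests and an offline schedule -/
structure Proc (Ξ : Type) (X : Type*) (k : ℕ) where
  P : Ξ → ℝ
  P0 : ∀ ξ, 0 ≤ P ξ
  σ : Ξ → ℕ → X
  j : Ξ → ℕ → Fin k
  s : Fin k → X

variable {Ξ : Type} [Fintype Ξ] {X : Type*} [MetricSpace X] [Fintype X] {k : ℕ}

namespace Proc

/-- the offline configuration at time `t` -/
def pos (p : Proc Ξ X k) (ξ : Ξ) : ℕ → Fin k → X
  | 0 => p.s
  | t + 1 => update (pos p ξ t) (p.j ξ t) (p.σ ξ t)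

/-- length of the offline move at time `t` -/
noncomputable def d (p : Proc Ξ X k) (ξ : Ξ) (t : ℕ) : ℝ := dist (p.pos ξ t (p.j ξ t)) (p.σ ξ t)

/-- expected offline cost -/
noncomputable def cost (p : Proc Ξ X k) (H : ℕ) : ℝ := ∑ ξ, p.P ξ * ∑ t ∈ range H, p.d ξ t

theorem cost_nonneg (p : Proc Ξ X k) (H : ℕ) : 0 ≤ p.cost H := by
  exact sum_nonneg fun ξ _ => mul_nonneg (p.P0 ξ) (sum_nonneg fun _ _ => dist_nonneg)

end Proc

open Classical in
/-- the weights of the scenarios whose request at time `t` is `r` -/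
noncomputable def res (σ : Ξ → ℕ → X) (P : Ξ → ℝ) (t : ℕ) (r : X) : Ξ → ℝ :=
  fun ξ => if σ ξ t = r then P ξ else 0

/-- value of the game -/
noncomputable def U (σ : Ξ → ℕ → X) : ℕ → (Ξ → ℝ) → ℕ → (Fin k → X) → ℝ
  | 0, _, _, _ => 0
  | n + 1, P, t, C => ∑ r, ⨅ i, ((∑ ξ, res σ P t r ξ) * dist (C i) r +
      U σ n (res σ P t r) (t + 1) (update C i r))

variable {σ : Ξ → ℕ → X} {P : Ξ → ℝ}

theorem res_nonneg (hP : ∀ ξ, 0 ≤ P ξ) (t : ℕ) (r : X) (ξ : Ξ) : 0 ≤ res σ P t r ξ := by
  unfold res
  split_ifs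
  · exact hP ξ
  · exact le_rfl

theorem sum_res (t : ℕ) (f : Ξ → ℝ) : ∑ r, ∑ ξ, res σ P t r ξ * f ξ = ∑ ξ, P ξ * f ξ := by
  rw [sum_comm]
  refine sum_congr rfl fun ξ _ => ?_
  rw [sum_eq_single (σ ξ t) (fun r _ hr => by simp [res, hr.symm]) (by simp)]
  simp [res]

theorem U_nonneg (hP : ∀ ξ, 0 ≤ P ξ) (n t : ℕ) (C : Fin k → X) : 0 ≤ U σ n P t C := by
  induction n generalizing P t C with
  | zero => exact le_rfl
  | succ n ih =>
    refine sum_nonneg fun r _ => Real.iInf_nonneg fun i => add_nonneg ?_ (ih (res_nonneg hP t r) _ _)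
    exact mul_nonneg (sum_nonneg fun ξ _ => res_nonneg hP t r ξ) dist_nonneg

theorem U_zero (n t : ℕ) (C : Fin k → X) : U σ n (fun _ => 0) t C = 0 := by
  induction n generalizing t C with
  | zero => rfl
  | succ n ih =>
    have e : ∀ r, res σ (fun _ => 0) t r = fun _ => 0 := fun r => by
      funext ξ
      simp [res]
    simp [U, e, ih]

theorem U_succ_le (n t : ℕ) (C : Fin k → X) (i : X → Fin k) :
    U σ (n + 1) P t C ≤ ∑ r, ((∑ ξ, res σ P t r ξ) * dist (C (i r)) r +
      U σ n (res σ P t r) (t + 1) (update C (i r) r)) := by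
  exact sum_le_sum fun r _ => ciInf_le (Set.finite_range _).bddBelow (i r)

theorem U_succ_eq (hk : 0 < k) (n t : ℕ) (C : Fin k → X) : ∃ i : X → Fin k,
    U σ (n + 1) P t C = ∑ r, ((∑ ξ, res σ P t r ξ) * dist (C (i r)) r +
      U σ n (res σ P t r) (t + 1) (update C (i r) r)) := by
  have : Nonempty (Fin k) := ⟨⟨0, hk⟩⟩
  choose i hi using fun r => exists_eq_ciInf_of_finite (f := fun i : Fin k =>
    (∑ ξ, res σ P t r ξ) * dist (C i) r + U σ n (res σ P t r) (t + 1) (update C i r))
  exact ⟨i, sum_congr rfl fun r _ => (hi r).symm⟩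

theorem Val_key (C C' : Fin k → X) (π : Equiv.Perm (Fin k)) (a : Fin k) (r : X) :
    dist (C a) r + ∑ i, dist (update C a r i) (update C' (π a) r (π i)) ≤
      dist (C' (π a)) r + ∑ i, dist (C i) (C' (π i)) := by
  rw [← add_sum_erase _ _ (mem_univ a), ← add_sum_erase _ _ (mem_univ a), update_self, update_self,
    dist_self, zero_add, sum_congr rfl fun i hi => by
      rw [update_of_ne (ne_of_mem_erase hi), update_of_ne (π.injective.ne (ne_of_mem_erase hi))]]
  linarith [dist_triangle (C a) (C' (π a)) r]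

/-- induction on `n`: answer `r` with server `π.symm i'`, where `i'` is optimal from `C'`. -/
theorem U_lip (hP : ∀ ξ, 0 ≤ P ξ) (n t : ℕ) (C C' : Fin k → X) (π : Equiv.Perm (Fin k)) :
    U σ n P t C ≤ U σ n P t C' + (∑ ξ, P ξ) * ∑ i, dist (C i) (C' (π i)) := by
  rcases Nat.eq_zero_or_pos k with rfl | hk
  · simp [Subsingleton.elim C C']
  induction n generalizing P t C C' with
  | zero => exact add_nonneg le_rfl (mul_nonneg (sum_nonneg fun ξ _ => hP ξ) (sum_nonneg fun _ _ => dist_nonneg))
  | succ n ih =>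
    obtain ⟨i, hi⟩ := U_succ_eq (σ := σ) (P := P) hk n t C'
    have e := sum_res (σ := σ) (P := P) t fun _ => 1
    simp only [mul_one] at e
    rw [hi, ← e, sum_mul, ← sum_add_distrib]
    refine (U_succ_le n t C fun r => π.symm (i r)).trans (sum_le_sum fun r _ => ?_)
    have h1 := ih (res_nonneg (σ := σ) hP t r) (t + 1) (update C (π.symm (i r)) r) (update C' (i r) r)
    have h2 := mul_le_mul_of_nonneg_left (Val_key C C' π (π.symm (i r)) r)
      (sum_nonneg (s := univ) fun ξ _ => res_nonneg (σ := σ) hP t r ξ)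
    rw [Equiv.apply_symm_apply, mul_add, mul_add] at h2
    linarith

/-- non-lazy moves: `U_succ_le` with the server matched to the one at `r`, then `U_lip`. -/
theorem U_step (hP : ∀ ξ, 0 ≤ P ξ) (n t : ℕ) (C : Fin k → X) (C' : X → Fin k → X)
    (π : X → Equiv.Perm (Fin k)) (hk : 0 < k)
    (h : ∀ r, 0 < ∑ ξ, res σ P t r ξ → ∃ i, C' r i = r) :
    U σ (n + 1) P t C ≤ ∑ r, (U σ n (res σ P t r) (t + 1) (C' r) +
      (∑ ξ, res σ P t r ξ) * ∑ i, dist (C i) (C' r (π r i))) := by
  have ha : ∀ r, ∃ a, 0 < ∑ ξ, res σ P t r ξ → C' r (π r a) = r := fun r => by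
    by_cases h0 : 0 < ∑ ξ, res σ P t r ξ
    · obtain ⟨i, hi⟩ := h r h0
      exact ⟨(π r).symm i, fun _ => by rw [Equiv.apply_symm_apply, hi]⟩
    · exact ⟨⟨0, hk⟩, fun h1 => absurd h1 h0⟩
  choose a ha using ha
  refine (U_succ_le n t C a).trans (sum_le_sum fun r _ => ?_)
  have h1 := U_lip (σ := σ) (res_nonneg (σ := σ) hP t r) n (t + 1) (update C (a r) r) (C' r) (π r)
  rcases (sum_nonneg (s := univ) fun ξ _ => res_nonneg (σ := σ) hP t r ξ).eq_or_lt with h0 | h0
  · rw [← h0] at h1 ⊢
    linarith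
  · have h2 := Val_key C (C' r) (π r) (a r) r
    rw [(update_eq_self_iff (f := C' r)).2 (ha r h0).symm, ha r h0, dist_self, zero_add] at h2
    have h3 := mul_le_mul_of_nonneg_left h2 h0.le
    rw [mul_add] at h3
    linarith

/-- the bound against every known distribution -/
def Yao (s : Fin k → X) (c B : ℝ) : Prop :=
  ∀ (Ξ : Type) [Fintype Ξ] (p : Proc Ξ X k) (H : ℕ), p.s = s → ∑ ξ, p.P ξ = 1 →
    U p.σ H p.P 0 s ≤ c * p.cost H + B

end Crest.Agent.R314
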